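import Vale.Agent.Lib.P154.Q4.Forms9

namespace Vale.Agent.Lib.P154.Q4

def c2Ms : List (List Int) := [cF_0_0_1_0, cF_0_0_1_1, cF_0_0_2_0, cF_0_1_0_0, cF_0_1_0_1, cF_0_1_1_0, cF_0_2_0_0, cF_0_3_0_0, cF_1_0_0_0, cF_1_0_0_1, cF_1_0_1_0, cF_1_1_0_0, cF_1_1_1_0, cF_1_2_0_0, cF_2_0_0_0, cF_2_0_1_0, cF_2_1_0_0, cF_3_0_0_0, cF_3_1_0_0, cF_4_0_0_0]

def c2Gs : List (List Int) := [
  linF [(1247400, cF_0_0_1_0), (-1360800, cF_0_1_0_0), (604800, cF_1_0_0_0), (-567000, cF_1_0_1_0), (907200, cF_1_1_0_0), (-340200, cF_2_0_0_0), (113400, cF_3_0_0_0)],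
  linF [(-907200, cF_1_0_0_1)],
  linF [(115200, cF_1_0_0_0)],
  linF [(-2721600, cF_0_0_1_0), (-2041200, cF_0_1_0_0), (2041200, cF_1_1_0_0)],
  linF [(32659200, cF_0_1_0_1)],
  linF [(-997920, cF_0_0_2_0), (-3107160, cF_0_1_1_0), (1905120, cF_0_2_0_0), (-1724800, cF_1_0_0_0), (136080, cF_1_0_1_0), (1746360, cF_1_1_1_0), (-725760, cF_1_2_0_0), (272160, cF_2_0_1_0), (929880, cF_2_1_0_0), (-45360, cF_3_0_0_0), (-476280, cF_3_1_0_0)],
  linF [(7620480, cF_0_1_1_0), (12145140, cF_0_2_0_0), (3494400, cF_1_0_0_0), (-1598940, cF_1_0_1_0), (-2177280, cF_1_1_0_0), (-7858620, cF_1_2_0_0), (714420, cF_2_0_1_0), (-1088640, cF_2_1_0_0), (204120, cF_3_0_0_0), (-68040, cF_4_0_0_0)],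
  linF [(-268800, cF_1_0_0_0)],
  linF [(1209600, cF_0_0_1_0), (230400, cF_0_0_2_0), (-3449600, cF_0_1_1_0), (6988800, cF_0_2_0_0), (-537600, cF_0_3_0_0), (1747200, cF_1_0_1_0), (-4536000, cF_1_1_0_0), (-403200, cF_1_1_1_0), (3686400, cF_1_2_0_0), (75600, cF_2_0_0_0), (345600, cF_2_0_1_0), (-2587200, cF_2_1_0_0), (145600, cF_3_0_0_0), (-100800, cF_3_1_0_0), (14400, cF_4_0_0_0)],
  linF [(-3628800, cF_0_0_1_1)],
  linF [(-226800, cF_0_0_1_0), (544320, cF_0_1_1_0), (-1598940, cF_0_2_0_0), (873600, cF_1_0_0_0), (714420, cF_1_0_1_0), (-362880, cF_1_1_0_0), (714420, cF_1_2_0_0), (45360, cF_2_0_0_0), (-374220, cF_2_0_1_0), (181440, cF_2_1_0_0), (-158760, cF_3_0_0_0), (68040, cF_4_0_0_0)],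
  linF [(453600, cF_0_0_1_0), (510300, cF_0_1_0_0), (-2721600, cF_0_2_0_0), (-2268000, cF_1_0_0_0), (-453600, cF_1_0_1_0), (-396900, cF_1_1_0_0), (113400, cF_2_0_0_0), (567000, cF_2_1_0_0)],
  linF [(-201600, cF_1_0_0_0)],
  linF [(1843200, cF_1_0_0_0)],
  linF [(-340200, cF_0_0_1_0), (92799, cF_1_0_0_0), (113400, cF_1_0_1_0), (226800, cF_1_1_0_0), (113400, cF_2_0_0_0), (-56700, cF_3_0_0_0)],
  linF [(172800, cF_1_0_0_0)],
  linF [(272160, cF_0_0_2_0), (929880, cF_0_1_1_0), (-272160, cF_0_2_0_0), (-1293600, cF_1_0_0_0), (45360, cF_1_0_1_0), (113400, cF_1_1_0_0), (-476280, cF_1_1_1_0), (-544320, cF_1_2_0_0), (-136080, cF_2_0_1_0), (-351540, cF_2_1_0_0), (22680, cF_3_0_0_0), (238140, cF_3_1_0_0)],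
  linF [(45360, cF_0_0_1_0), (-181440, cF_0_1_1_0), (204120, cF_0_2_0_0), (72800, cF_1_0_0_0), (-158760, cF_1_0_1_0), (-68040, cF_1_2_0_0), (-22680, cF_2_0_0_0), (68040, cF_2_0_1_0), (90720, cF_2_1_0_0), (45360, cF_3_0_0_0), (-22680, cF_4_0_0_0)],
  linF [(-50400, cF_1_0_0_0)],
  linF [(7200, cF_1_0_0_0)]]

set_option maxRecDepth 100000 in
def c2TM : List (List Int) := [
  [Int.ofNat 0, Int.ofNat 0, Int.ofNat 0, Int.ofNat 0, Int.ofNat 0, Int.ofNat 0, Int.ofNat 0, Int.ofNat 0, Int.ofNat 0, Int.ofNat 0, Int.ofNat 0, Int.ofNat 0, Int.ofNat 0, Int.ofNat 0, Int.ofNat 0, Int.ofNat 0, Int.ofNat 0, Int.ofNat 0, Int.ofNat 0, Int.ofNat 0],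
  [Int.ofNat 0, Int.ofNat 0, Int.ofNat 0, Int.ofNat 0, Int.ofNat 0, Int.ofNat 0, Int.ofNat 0, Int.ofNat 0, Int.ofNat 0, Int.ofNat 0, Int.ofNat 0, Int.ofNat 0, Int.ofNat 0, Int.ofNat 0, Int.ofNat 0, Int.ofNat 0, Int.ofNat 0, Int.ofNat 0, Int.ofNat 0, Int.ofNat 0],
  [Int.ofNat 0, Int.ofNat 0, Int.ofNat 0, Int.ofNat 0, Int.ofNat 0, Int.ofNat 0, Int.ofNat 0, Int.ofNat 0, Int.ofNat 49152, Int.ofNat 12288, Int.ofNat 0, Int.ofNat 0, Int.ofNat 0, Int.ofNat 0, Int.ofNat 0, Int.ofNat 0, Int.ofNat 0, Int.ofNat 0, Int.ofNat 0, Int.ofNat 0],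
  [Int.ofNat 0, Int.ofNat 0, Int.ofNat 0, Int.negSucc 4095, Int.negSucc 1023, Int.ofNat 0, Int.ofNat 0, Int.ofNat 0, Int.ofNat 258048, Int.ofNat 55296, Int.ofNat 0, Int.ofNat 0, Int.ofNat 0, Int.ofNat 0, Int.ofNat 0, Int.ofNat 0, Int.ofNat 0, Int.ofNat 0, Int.ofNat 0, Int.ofNat 0],
  [Int.ofNat 3072, Int.ofNat 768, Int.ofNat 0, Int.negSucc 18431, Int.negSucc 3839, Int.ofNat 0, Int.ofNat 0, Int.ofNat 0, Int.ofNat 580608, Int.ofNat 103680, Int.ofNat 0, Int.ofNat 0, Int.ofNat 0, Int.ofNat 0, Int.ofNat 9216, Int.ofNat 0, Int.ofNat 0, Int.ofNat 0, Int.ofNat 0, Int.ofNat 0],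
  [Int.ofNat 11520, Int.ofNat 2304, Int.ofNat 0, Int.negSucc 34559, Int.negSucc 5759, Int.ofNat 0, Int.ofNat 0, Int.ofNat 0, Int.ofNat 725760, Int.ofNat 103680, Int.ofNat 0, Int.negSucc 767, Int.ofNat 0, Int.ofNat 0, Int.ofNat 34560, Int.ofNat 0, Int.ofNat 0, Int.ofNat 0, Int.ofNat 0, Int.ofNat 0],
  [Int.ofNat 17280, Int.ofNat 2592, Int.ofNat 0, Int.negSucc 34559, Int.negSucc 4319, Int.ofNat 0, Int.ofNat 64, Int.ofNat 0, Int.ofNat 544320, Int.ofNat 58320, Int.ofNat 576, Int.negSucc 2303, Int.ofNat 0, Int.ofNat 0, Int.ofNat 51840, Int.ofNat 0, Int.ofNat 0, Int.ofNat 1728, Int.ofNat 0, Int.ofNat 0],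
  [Int.ofNat 12960, Int.ofNat 1296, Int.ofNat 0, Int.negSucc 19439, Int.negSucc 1619, Int.negSucc 47, Int.ofNat 144, Int.ofNat 0, Int.ofNat 244944, Int.ofNat 17496, Int.ofNat 1296, Int.negSucc 2591, Int.ofNat 0, Int.ofNat 0, Int.ofNat 38880, Int.ofNat 0, Int.negSucc 143, Int.ofNat 3888, Int.ofNat 0, Int.ofNat 0],
  [Int.ofNat 4860, Int.ofNat 243, Int.ofNat 36, Int.negSucc 5831, Int.negSucc 242, Int.negSucc 71, Int.ofNat 108, Int.ofNat 0, Int.ofNat 61236, Int.ofNat 2187, Int.ofNat 972, Int.negSucc 1295, Int.ofNat 0, Int.ofNat 12, Int.ofNat 14580, Int.ofNat 108, Int.negSucc 215, Int.ofNat 2916, Int.ofNat 0, Int.ofNat 324],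
  [Int.ofNat 729, Int.ofNat 0, Int.ofNat 27, Int.negSucc 728, Int.ofNat 0, Int.negSucc 26, Int.ofNat 27, Int.negSucc 0, Int.ofNat 6561, Int.ofNat 0, Int.ofNat 243, Int.negSucc 242, Int.negSucc 8, Int.ofNat 9, Int.ofNat 2187, Int.ofNat 81, Int.negSucc 80, Int.ofNat 729, Int.negSucc 26, Int.ofNat 243],
  [Int.ofNat 0, Int.ofNat 0, Int.ofNat 0, Int.ofNat 0, Int.ofNat 0, Int.ofNat 0, Int.ofNat 0, Int.ofNat 0, Int.ofNat 0, Int.ofNat 0, Int.ofNat 0, Int.ofNat 0, Int.ofNat 0, Int.ofNat 0, Int.ofNat 0, Int.ofNat 0, Int.ofNat 0, Int.ofNat 0, Int.ofNat 0, Int.ofNat 0],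
  [Int.ofNat 0, Int.ofNat 0, Int.ofNat 0, Int.ofNat 0, Int.ofNat 0, Int.ofNat 0, Int.ofNat 0, Int.ofNat 0, Int.ofNat 65536, Int.ofNat 16384, Int.ofNat 0, Int.ofNat 0, Int.ofNat 0, Int.ofNat 0, Int.ofNat 0, Int.ofNat 0, Int.ofNat 0, Int.ofNat 0, Int.ofNat 0, Int.ofNat 0],
  [Int.ofNat 0, Int.ofNat 0, Int.ofNat 0, Int.negSucc 8191, Int.negSucc 2047, Int.ofNat 0, Int.ofNat 0, Int.ofNat 0, Int.ofNat 516096, Int.ofNat 110592, Int.ofNat 0, Int.ofNat 0, Int.ofNat 0, Int.ofNat 0, Int.ofNat 0, Int.ofNat 0, Int.ofNat 0, Int.ofNat 0, Int.ofNat 0, Int.ofNat 0],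
  [Int.ofNat 8192, Int.ofNat 2048, Int.ofNat 0, Int.negSucc 49151, Int.negSucc 10239, Int.ofNat 0, Int.ofNat 0, Int.ofNat 0, Int.ofNat 1548288, Int.ofNat 276480, Int.ofNat 0, Int.ofNat 0, Int.ofNat 0, Int.ofNat 0, Int.ofNat 24576, Int.ofNat 0, Int.ofNat 0, Int.ofNat 0, Int.ofNat 0, Int.ofNat 0],
  [Int.ofNat 38400, Int.ofNat 7680, Int.ofNat 0, Int.negSucc 115199, Int.negSucc 19199, Int.ofNat 0, Int.ofNat 0, Int.ofNat 0, Int.ofNat 2419200, Int.ofNat 345600, Int.ofNat 0, Int.negSucc 2559, Int.ofNat 0, Int.ofNat 0, Int.ofNat 115200, Int.ofNat 0, Int.ofNat 0, Int.ofNat 0, Int.ofNat 0, Int.ofNat 0],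
  [Int.ofNat 69120, Int.ofNat 10368, Int.ofNat 0, Int.negSucc 138239, Int.negSucc 17279, Int.ofNat 0, Int.ofNat 256, Int.ofNat 0, Int.ofNat 2177280, Int.ofNat 233280, Int.ofNat 2304, Int.negSucc 9215, Int.ofNat 0, Int.ofNat 0, Int.ofNat 207360, Int.ofNat 0, Int.ofNat 0, Int.ofNat 6912, Int.ofNat 0, Int.ofNat 0],
  [Int.ofNat 60480, Int.ofNat 6048, Int.ofNat 0, Int.negSucc 90719, Int.negSucc 7559, Int.negSucc 223, Int.ofNat 672, Int.ofNat 0, Int.ofNat 1143072, Int.ofNat 81648, Int.ofNat 6048, Int.negSucc 12095, Int.ofNat 0, Int.ofNat 0, Int.ofNat 181440, Int.ofNat 0, Int.negSucc 671, Int.ofNat 18144, Int.ofNat 0, Int.ofNat 0],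
  [Int.ofNat 25920, Int.ofNat 1296, Int.ofNat 192, Int.negSucc 31103, Int.negSucc 1295, Int.negSucc 383, Int.ofNat 576, Int.ofNat 0, Int.ofNat 326592, Int.ofNat 11664, Int.ofNat 5184, Int.negSucc 6911, Int.ofNat 0, Int.ofNat 64, Int.ofNat 77760, Int.ofNat 576, Int.negSucc 1151, Int.ofNat 15552, Int.ofNat 0, Int.ofNat 1728],
  [Int.ofNat 4374, Int.ofNat 0, Int.ofNat 162, Int.negSucc 4373, Int.ofNat 0, Int.negSucc 161, Int.ofNat 162, Int.negSucc 5, Int.ofNat 39366, Int.ofNat 0, Int.ofNat 1458, Int.negSucc 1457, Int.negSucc 53, Int.ofNat 54, Int.ofNat 13122, Int.ofNat 486, Int.negSucc 485, Int.ofNat 4374, Int.negSucc 161, Int.ofNat 1458],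
  [Int.ofNat 0, Int.ofNat 0, Int.ofNat 0, Int.ofNat 0, Int.ofNat 0, Int.ofNat 0, Int.ofNat 0, Int.ofNat 0, Int.ofNat 65536, Int.ofNat 16384, Int.ofNat 0, Int.ofNat 0, Int.ofNat 0, Int.ofNat 0, Int.ofNat 0, Int.ofNat 0, Int.ofNat 0, Int.ofNat 0, Int.ofNat 0, Int.ofNat 0],
  [Int.ofNat 0, Int.ofNat 0, Int.ofNat 0, Int.ofNat 0, Int.ofNat 0, Int.ofNat 0, Int.ofNat 0, Int.ofNat 0, Int.ofNat 573440, Int.ofNat 122880, Int.ofNat 0, Int.ofNat 0, Int.ofNat 0, Int.ofNat 0, Int.ofNat 0, Int.ofNat 0, Int.ofNat 0, Int.ofNat 0, Int.ofNat 0, Int.ofNat 0],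
  [Int.ofNat 8192, Int.ofNat 2048, Int.ofNat 0, Int.negSucc 24575, Int.negSucc 5119, Int.ofNat 0, Int.ofNat 0, Int.ofNat 0, Int.ofNat 2064384, Int.ofNat 368640, Int.ofNat 0, Int.ofNat 0, Int.ofNat 0, Int.ofNat 0, Int.ofNat 40960, Int.ofNat 0, Int.ofNat 0, Int.ofNat 0, Int.ofNat 0, Int.ofNat 0],
  [Int.ofNat 51200, Int.ofNat 10240, Int.ofNat 0, Int.negSucc 107519, Int.negSucc 17919, Int.ofNat 0, Int.ofNat 0, Int.ofNat 0, Int.ofNat 3870720, Int.ofNat 552960, Int.ofNat 0, Int.negSucc 3071, Int.ofNat 0, Int.ofNat 0, Int.ofNat 215040, Int.ofNat 0, Int.ofNat 0, Int.ofNat 0, Int.ofNat 0, Int.ofNat 0],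
  [Int.ofNat 115200, Int.ofNat 17280, Int.ofNat 0, Int.negSucc 184319, Int.negSucc 23039, Int.ofNat 0, Int.ofNat 256, Int.ofNat 0, Int.ofNat 4112640, Int.ofNat 440640, Int.ofNat 4352, Int.negSucc 14335, Int.ofNat 0, Int.ofNat 0, Int.ofNat 437760, Int.ofNat 0, Int.ofNat 0, Int.ofNat 16128, Int.ofNat 0, Int.ofNat 0],
  [Int.ofNat 120960, Int.ofNat 12096, Int.ofNat 0, Int.negSucc 155519, Int.negSucc 12959, Int.negSucc 383, Int.ofNat 960, Int.ofNat 0, Int.ofNat 2503872, Int.ofNat 178848, Int.ofNat 13248, Int.negSucc 23039, Int.ofNat 0, Int.ofNat 0, Int.ofNat 432000, Int.ofNat 0, Int.negSucc 1407, Int.ofNat 46656, Int.ofNat 0, Int.ofNat 0],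
  [Int.ofNat 60480, Int.ofNat 3024, Int.ofNat 448, Int.negSucc 64799, Int.negSucc 2699, Int.negSucc 799, Int.ofNat 1056, Int.ofNat 0, Int.ofNat 816480, Int.ofNat 29160, Int.ofNat 12960, Int.negSucc 15551, Int.ofNat 0, Int.ofNat 128, Int.ofNat 207360, Int.ofNat 1536, Int.negSucc 2783, Int.ofNat 44064, Int.ofNat 0, Int.ofNat 5184],
  [Int.ofNat 11664, Int.ofNat 0, Int.ofNat 432, Int.negSucc 10691, Int.ofNat 0, Int.negSucc 395, Int.ofNat 360, Int.negSucc 11, Int.ofNat 110808, Int.ofNat 0, Int.ofNat 4104, Int.negSucc 3779, Int.negSucc 139, Int.ofNat 128, Int.ofNat 38880, Int.ofNat 1440, Int.negSucc 1331, Int.ofNat 13608, Int.negSucc 467, Int.ofNat 4752],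
  [Int.ofNat 0, Int.ofNat 0, Int.ofNat 0, Int.ofNat 0, Int.ofNat 0, Int.ofNat 0, Int.ofNat 0, Int.ofNat 0, Int.ofNat 229376, Int.ofNat 49152, Int.ofNat 0, Int.ofNat 0, Int.ofNat 0, Int.ofNat 0, Int.ofNat 0, Int.ofNat 0, Int.ofNat 0, Int.ofNat 0, Int.ofNat 0, Int.ofNat 0],
  [Int.ofNat 0, Int.ofNat 0, Int.ofNat 0, Int.ofNat 0, Int.ofNat 0, Int.ofNat 0, Int.ofNat 0, Int.ofNat 0, Int.ofNat 1376256, Int.ofNat 245760, Int.ofNat 0, Int.ofNat 0, Int.ofNat 0, Int.ofNat 0, Int.ofNat 32768, Int.ofNat 0, Int.ofNat 0, Int.ofNat 0, Int.ofNat 0, Int.ofNat 0],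
  [Int.ofNat 20480, Int.ofNat 4096, Int.ofNat 0, Int.negSucc 30719, Int.negSucc 5119, Int.ofNat 0, Int.ofNat 0, Int.ofNat 0, Int.ofNat 3440640, Int.ofNat 491520, Int.ofNat 0, Int.negSucc 2047, Int.ofNat 0, Int.ofNat 0, Int.ofNat 225280, Int.ofNat 0, Int.ofNat 0, Int.ofNat 0, Int.ofNat 0, Int.ofNat 0],
  [Int.ofNat 81920, Int.ofNat 12288, Int.ofNat 0, Int.negSucc 102399, Int.negSucc 12799, Int.ofNat 0, Int.ofNat 0, Int.ofNat 0, Int.ofNat 4515840, Int.ofNat 483840, Int.ofNat 4096, Int.negSucc 12287, Int.ofNat 0, Int.ofNat 0, Int.ofNat 552960, Int.ofNat 0, Int.ofNat 0, Int.ofNat 22528, Int.ofNat 0, Int.ofNat 0],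
  [Int.ofNat 119040, Int.ofNat 11904, Int.ofNat 0, Int.negSucc 126719, Int.negSucc 10559, Int.negSucc 255, Int.ofNat 384, Int.ofNat 0, Int.ofNat 3265920, Int.ofNat 233280, Int.ofNat 15744, Int.negSucc 24575, Int.ofNat 0, Int.ofNat 0, Int.ofNat 633600, Int.ofNat 0, Int.negSucc 1791, Int.ofNat 74880, Int.ofNat 0, Int.ofNat 0],
  [Int.ofNat 74880, Int.ofNat 3744, Int.ofNat 512, Int.negSucc 69119, Int.negSucc 2879, Int.negSucc 767, Int.ofNat 768, Int.ofNat 0, Int.ofNat 1233792, Int.ofNat 44064, Int.ofNat 18432, Int.negSucc 19967, Int.ofNat 0, Int.ofNat 128, Int.ofNat 345600, Int.ofNat 2432, Int.negSucc 4095, Int.ofNat 79488, Int.ofNat 0, Int.ofNat 9984],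
  [Int.ofNat 17280, Int.ofNat 0, Int.ofNat 608, Int.negSucc 14039, Int.ofNat 0, Int.negSucc 487, Int.ofNat 368, Int.negSucc 7, Int.ofNat 190512, Int.ofNat 0, Int.ofNat 6768, Int.negSucc 5687, Int.negSucc 199, Int.ofNat 160, Int.ofNat 72576, Int.ofNat 2592, Int.negSucc 2231, Int.ofNat 27216, Int.negSucc 855, Int.ofNat 10080],
  [Int.ofNat 0, Int.ofNat 0, Int.ofNat 0, Int.ofNat 0, Int.ofNat 0, Int.ofNat 0, Int.ofNat 0, Int.ofNat 0, Int.ofNat 344064, Int.ofNat 61440, Int.ofNat 0, Int.ofNat 0, Int.ofNat 0, Int.ofNat 0, Int.ofNat 16384, Int.ofNat 0, Int.ofNat 0, Int.ofNat 0, Int.ofNat 0, Int.ofNat 0],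
  [Int.ofNat 0, Int.ofNat 0, Int.ofNat 0, Int.ofNat 0, Int.ofNat 0, Int.ofNat 0, Int.ofNat 0, Int.ofNat 0, Int.ofNat 1576960, Int.ofNat 225280, Int.ofNat 0, Int.ofNat 0, Int.ofNat 0, Int.ofNat 0, Int.ofNat 143360, Int.ofNat 0, Int.ofNat 0, Int.ofNat 0, Int.ofNat 0, Int.ofNat 0],
  [Int.ofNat 20480, Int.ofNat 3072, Int.ofNat 0, Int.negSucc 20479, Int.negSucc 2559, Int.ofNat 0, Int.ofNat 0, Int.ofNat 0, Int.ofNat 2903040, Int.ofNat 311040, Int.ofNat 2048, Int.negSucc 4095, Int.ofNat 0, Int.ofNat 0, Int.ofNat 440320, Int.ofNat 0, Int.ofNat 0, Int.ofNat 21504, Int.ofNat 0, Int.ofNat 0],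
  [Int.ofNat 56320, Int.ofNat 5632, Int.ofNat 0, Int.negSucc 49919, Int.negSucc 4159, Int.ofNat 0, Int.ofNat 0, Int.ofNat 0, Int.ofNat 2661120, Int.ofNat 190080, Int.ofNat 10752, Int.negSucc 13823, Int.ofNat 0, Int.ofNat 0, Int.ofNat 606720, Int.ofNat 0, Int.negSucc 1279, Int.ofNat 82176, Int.ofNat 0, Int.ofNat 0],
  [Int.ofNat 50880, Int.ofNat 2544, Int.ofNat 256, Int.negSucc 40319, Int.negSucc 1679, Int.negSucc 255, Int.ofNat 192, Int.ofNat 0, Int.ofNat 1209600, Int.ofNat 43200, Int.ofNat 15936, Int.negSucc 15103, Int.ofNat 0, Int.ofNat 64, Int.ofNat 385920, Int.ofNat 2496, Int.negSucc 3711, Int.ofNat 99072, Int.ofNat 0, Int.ofNat 13696],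
  [Int.ofNat 15120, Int.ofNat 0, Int.ofNat 448, Int.negSucc 10799, Int.ofNat 0, Int.negSucc 287, Int.ofNat 176, Int.ofNat 0, Int.ofNat 217728, Int.ofNat 0, Int.ofNat 7056, Int.negSucc 5327, Int.negSucc 159, Int.ofNat 112, Int.ofNat 92448, Int.ofNat 3088, Int.negSucc 2415, Int.ofNat 38016, Int.negSucc 1039, Int.ofNat 15264],
  [Int.ofNat 0, Int.ofNat 0, Int.ofNat 0, Int.ofNat 0, Int.ofNat 0, Int.ofNat 0, Int.ofNat 0, Int.ofNat 0, Int.ofNat 286720, Int.ofNat 40960, Int.ofNat 0, Int.ofNat 0, Int.ofNat 0, Int.ofNat 0, Int.ofNat 40960, Int.ofNat 0, Int.ofNat 0, Int.ofNat 0, Int.ofNat 0, Int.ofNat 0],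
  [Int.ofNat 0, Int.ofNat 0, Int.ofNat 0, Int.ofNat 0, Int.ofNat 0, Int.ofNat 0, Int.ofNat 0, Int.ofNat 0, Int.ofNat 1003520, Int.ofNat 107520, Int.ofNat 0, Int.ofNat 0, Int.ofNat 0, Int.ofNat 0, Int.ofNat 204800, Int.ofNat 0, Int.ofNat 0, Int.ofNat 12288, Int.ofNat 0, Int.ofNat 0],
  [Int.ofNat 10240, Int.ofNat 1024, Int.ofNat 0, Int.negSucc 7679, Int.negSucc 639, Int.ofNat 0, Int.ofNat 0, Int.ofNat 0, Int.ofNat 1322496, Int.ofNat 94464, Int.ofNat 3072, Int.negSucc 3071, Int.ofNat 0, Int.ofNat 0, Int.ofNat 373760, Int.ofNat 0, Int.negSucc 511, Int.ofNat 59904, Int.ofNat 0, Int.ofNat 0],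
  [Int.ofNat 17920, Int.ofNat 896, Int.ofNat 0, Int.negSucc 12287, Int.negSucc 511, Int.ofNat 0, Int.ofNat 0, Int.ofNat 0, Int.ofNat 774144, Int.ofNat 27648, Int.ofNat 7680, Int.negSucc 6143, Int.ofNat 0, Int.ofNat 0, Int.ofNat 291840, Int.ofNat 1536, Int.negSucc 2047, Int.ofNat 86016, Int.ofNat 0, Int.ofNat 13312],
  [Int.ofNat 7776, Int.ofNat 0, Int.ofNat 128, Int.negSucc 4895, Int.ofNat 0, Int.negSucc 63, Int.ofNat 32, Int.ofNat 0, Int.ofNat 169344, Int.ofNat 0, Int.ofNat 4576, Int.negSucc 3039, Int.negSucc 63, Int.ofNat 32, Int.ofNat 82368, Int.ofNat 2400, Int.negSucc 1695, Int.ofNat 38016, Int.negSucc 863, Int.ofNat 16832],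
  [Int.ofNat 0, Int.ofNat 0, Int.ofNat 0, Int.ofNat 0, Int.ofNat 0, Int.ofNat 0, Int.ofNat 0, Int.ofNat 0, Int.ofNat 143360, Int.ofNat 15360, Int.ofNat 0, Int.ofNat 0, Int.ofNat 0, Int.ofNat 0, Int.ofNat 40960, Int.ofNat 0, Int.ofNat 0, Int.ofNat 4096, Int.ofNat 0, Int.ofNat 0],
  [Int.ofNat 0, Int.ofNat 0, Int.ofNat 0, Int.ofNat 0, Int.ofNat 0, Int.ofNat 0, Int.ofNat 0, Int.ofNat 0, Int.ofNat 365568, Int.ofNat 26112, Int.ofNat 0, Int.ofNat 0, Int.ofNat 0, Int.ofNat 0, Int.ofNat 133120, Int.ofNat 0, Int.ofNat 0, Int.ofNat 27648, Int.ofNat 0, Int.ofNat 0],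
  [Int.ofNat 2560, Int.ofNat 128, Int.ofNat 0, Int.negSucc 1535, Int.negSucc 63, Int.ofNat 0, Int.ofNat 0, Int.ofNat 0, Int.ofNat 311808, Int.ofNat 11136, Int.ofNat 1536, Int.negSucc 1023, Int.ofNat 0, Int.ofNat 0, Int.ofNat 143360, Int.ofNat 512, Int.negSucc 511, Int.ofNat 50688, Int.ofNat 0, Int.ofNat 9216],
  [Int.ofNat 2176, Int.ofNat 0, Int.ofNat 0, Int.negSucc 1215, Int.ofNat 0, Int.ofNat 0, Int.ofNat 0, Int.ofNat 0, Int.ofNat 88704, Int.ofNat 0, Int.ofNat 1664, Int.negSucc 959, Int.ofNat 0, Int.ofNat 0, Int.ofNat 50688, Int.ofNat 1152, Int.negSucc 703, Int.ofNat 27008, Int.negSucc 447, Int.ofNat 13568],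
  [Int.ofNat 0, Int.ofNat 0, Int.ofNat 0, Int.ofNat 0, Int.ofNat 0, Int.ofNat 0, Int.ofNat 0, Int.ofNat 0, Int.ofNat 43008, Int.ofNat 3072, Int.ofNat 0, Int.ofNat 0, Int.ofNat 0, Int.ofNat 0, Int.ofNat 20480, Int.ofNat 0, Int.ofNat 0, Int.ofNat 6144, Int.ofNat 0, Int.ofNat 0],
  [Int.ofNat 0, Int.ofNat 0, Int.ofNat 0, Int.ofNat 0, Int.ofNat 0, Int.ofNat 0, Int.ofNat 0, Int.ofNat 0, Int.ofNat 71680, Int.ofNat 2560, Int.ofNat 0, Int.ofNat 0, Int.ofNat 0, Int.ofNat 0, Int.ofNat 40960, Int.ofNat 0, Int.ofNat 0, Int.ofNat 18432, Int.ofNat 0, Int.ofNat 4096],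
  [Int.ofNat 256, Int.ofNat 0, Int.ofNat 0, Int.negSucc 127, Int.ofNat 0, Int.ofNat 0, Int.ofNat 0, Int.ofNat 0, Int.ofNat 29952, Int.ofNat 0, Int.ofNat 256, Int.negSucc 127, Int.ofNat 0, Int.ofNat 0, Int.ofNat 20480, Int.ofNat 256, Int.negSucc 127, Int.ofNat 13056, Int.negSucc 127, Int.ofNat 7680],
  [Int.ofNat 0, Int.ofNat 0, Int.ofNat 0, Int.ofNat 0, Int.ofNat 0, Int.ofNat 0, Int.ofNat 0, Int.ofNat 0, Int.ofNat 7168, Int.ofNat 256, Int.ofNat 0, Int.ofNat 0, Int.ofNat 0, Int.ofNat 0, Int.ofNat 5120, Int.ofNat 0, Int.ofNat 0, Int.ofNat 3072, Int.ofNat 0, Int.ofNat 1024],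
  [Int.ofNat 0, Int.ofNat 0, Int.ofNat 0, Int.ofNat 0, Int.ofNat 0, Int.ofNat 0, Int.ofNat 0, Int.ofNat 0, Int.ofNat 5888, Int.ofNat 0, Int.ofNat 0, Int.ofNat 0, Int.ofNat 0, Int.ofNat 0, Int.ofNat 4864, Int.ofNat 0, Int.ofNat 0, Int.ofNat 3840, Int.ofNat 0, Int.ofNat 2816],
  [Int.ofNat 0, Int.ofNat 0, Int.ofNat 0, Int.ofNat 0, Int.ofNat 0, Int.ofNat 0, Int.ofNat 0, Int.ofNat 0, Int.ofNat 512, Int.ofNat 0, Int.ofNat 0, Int.ofNat 0, Int.ofNat 0, Int.ofNat 0, Int.ofNat 512, Int.ofNat 0, Int.ofNat 0, Int.ofNat 512, Int.ofNat 0, Int.ofNat 512],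
  [Int.ofNat 0, Int.ofNat 0, Int.ofNat 0, Int.ofNat 0, Int.ofNat 0, Int.ofNat 0, Int.ofNat 0, Int.ofNat 0, Int.ofNat 0, Int.ofNat 0, Int.ofNat 0, Int.ofNat 0, Int.ofNat 0, Int.ofNat 0, Int.ofNat 0, Int.ofNat 0, Int.ofNat 0, Int.ofNat 0, Int.ofNat 0, Int.ofNat 0],
  [Int.ofNat 0, Int.ofNat 0, Int.ofNat 0, Int.ofNat 0, Int.ofNat 0, Int.ofNat 0, Int.ofNat 0, Int.ofNat 0, Int.ofNat 32768, Int.ofNat 8192, Int.ofNat 0, Int.ofNat 0, Int.ofNat 0, Int.ofNat 0, Int.ofNat 0, Int.ofNat 0, Int.ofNat 0, Int.ofNat 0, Int.ofNat 0, Int.ofNat 0],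
  [Int.ofNat 0, Int.ofNat 0, Int.ofNat 0, Int.negSucc 4095, Int.negSucc 1023, Int.ofNat 0, Int.ofNat 0, Int.ofNat 0, Int.ofNat 258048, Int.ofNat 55296, Int.ofNat 0, Int.ofNat 0, Int.ofNat 0, Int.ofNat 0, Int.ofNat 0, Int.ofNat 0, Int.ofNat 0, Int.ofNat 0, Int.ofNat 0, Int.ofNat 0],
  [Int.ofNat 4096, Int.ofNat 1024, Int.ofNat 0, Int.negSucc 24575, Int.negSucc 5119, Int.ofNat 0, Int.ofNat 0, Int.ofNat 0, Int.ofNat 774144, Int.ofNat 138240, Int.ofNat 0, Int.ofNat 0, Int.ofNat 0, Int.ofNat 0, Int.ofNat 12288, Int.ofNat 0, Int.ofNat 0, Int.ofNat 0, Int.ofNat 0, Int.ofNat 0],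
  [Int.ofNat 19200, Int.ofNat 3840, Int.ofNat 0, Int.negSucc 57599, Int.negSucc 9599, Int.ofNat 0, Int.ofNat 0, Int.ofNat 0, Int.ofNat 1209600, Int.ofNat 172800, Int.ofNat 0, Int.negSucc 1279, Int.ofNat 0, Int.ofNat 0, Int.ofNat 57600, Int.ofNat 0, Int.ofNat 0, Int.ofNat 0, Int.ofNat 0, Int.ofNat 0],
  [Int.ofNat 34560, Int.ofNat 5184, Int.ofNat 0, Int.negSucc 69119, Int.negSucc 8639, Int.ofNat 0, Int.ofNat 128, Int.ofNat 0, Int.ofNat 1088640, Int.ofNat 116640, Int.ofNat 1152, Int.negSucc 4607, Int.ofNat 0, Int.ofNat 0, Int.ofNat 103680, Int.ofNat 0, Int.ofNat 0, Int.ofNat 3456, Int.ofNat 0, Int.ofNat 0],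
  [Int.ofNat 30240, Int.ofNat 3024, Int.ofNat 0, Int.negSucc 45359, Int.negSucc 3779, Int.negSucc 111, Int.ofNat 336, Int.ofNat 0, Int.ofNat 571536, Int.ofNat 40824, Int.ofNat 3024, Int.negSucc 6047, Int.ofNat 0, Int.ofNat 0, Int.ofNat 90720, Int.ofNat 0, Int.negSucc 335, Int.ofNat 9072, Int.ofNat 0, Int.ofNat 0],
  [Int.ofNat 12960, Int.ofNat 648, Int.ofNat 96, Int.negSucc 15551, Int.negSucc 647, Int.negSucc 191, Int.ofNat 288, Int.ofNat 0, Int.ofNat 163296, Int.ofNat 5832, Int.ofNat 2592, Int.negSucc 3455, Int.ofNat 0, Int.ofNat 32, Int.ofNat 38880, Int.ofNat 288, Int.negSucc 575, Int.ofNat 7776, Int.ofNat 0, Int.ofNat 864],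
  [Int.ofNat 2187, Int.ofNat 0, Int.ofNat 81, Int.negSucc 2186, Int.ofNat 0, Int.negSucc 80, Int.ofNat 81, Int.negSucc 2, Int.ofNat 19683, Int.ofNat 0, Int.ofNat 729, Int.negSucc 728, Int.negSucc 26, Int.ofNat 27, Int.ofNat 6561, Int.ofNat 243, Int.negSucc 242, Int.ofNat 2187, Int.negSucc 80, Int.ofNat 729],
  [Int.ofNat 0, Int.ofNat 0, Int.ofNat 0, Int.ofNat 0, Int.ofNat 0, Int.ofNat 0, Int.ofNat 0, Int.ofNat 0, Int.ofNat 65536, Int.ofNat 16384, Int.ofNat 0, Int.ofNat 0, Int.ofNat 0, Int.ofNat 0, Int.ofNat 0, Int.ofNat 0, Int.ofNat 0, Int.ofNat 0, Int.ofNat 0, Int.ofNat 0],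
  [Int.ofNat 0, Int.ofNat 0, Int.ofNat 0, Int.ofNat 0, Int.ofNat 0, Int.ofNat 0, Int.ofNat 0, Int.ofNat 0, Int.ofNat 573440, Int.ofNat 122880, Int.ofNat 0, Int.ofNat 0, Int.ofNat 0, Int.ofNat 0, Int.ofNat 0, Int.ofNat 0, Int.ofNat 0, Int.ofNat 0, Int.ofNat 0, Int.ofNat 0],
  [Int.ofNat 8192, Int.ofNat 2048, Int.ofNat 0, Int.negSucc 24575, Int.negSucc 5119, Int.ofNat 0, Int.ofNat 0, Int.ofNat 0, Int.ofNat 2064384, Int.ofNat 368640, Int.ofNat 0, Int.ofNat 0, Int.ofNat 0, Int.ofNat 0, Int.ofNat 40960, Int.ofNat 0, Int.ofNat 0, Int.ofNat 0, Int.ofNat 0, Int.ofNat 0],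
  [Int.ofNat 51200, Int.ofNat 10240, Int.ofNat 0, Int.negSucc 107519, Int.negSucc 17919, Int.ofNat 0, Int.ofNat 0, Int.ofNat 0, Int.ofNat 3870720, Int.ofNat 552960, Int.ofNat 0, Int.negSucc 3071, Int.ofNat 0, Int.ofNat 0, Int.ofNat 215040, Int.ofNat 0, Int.ofNat 0, Int.ofNat 0, Int.ofNat 0, Int.ofNat 0],
  [Int.ofNat 115200, Int.ofNat 17280, Int.ofNat 0, Int.negSucc 184319, Int.negSucc 23039, Int.ofNat 0, Int.ofNat 256, Int.ofNat 0, Int.ofNat 4112640, Int.ofNat 440640, Int.ofNat 4352, Int.negSucc 14335, Int.ofNat 0, Int.ofNat 0, Int.ofNat 437760, Int.ofNat 0, Int.ofNat 0, Int.ofNat 16128, Int.ofNat 0, Int.ofNat 0],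
  [Int.ofNat 120960, Int.ofNat 12096, Int.ofNat 0, Int.negSucc 155519, Int.negSucc 12959, Int.negSucc 383, Int.ofNat 960, Int.ofNat 0, Int.ofNat 2503872, Int.ofNat 178848, Int.ofNat 13248, Int.negSucc 23039, Int.ofNat 0, Int.ofNat 0, Int.ofNat 432000, Int.ofNat 0, Int.negSucc 1407, Int.ofNat 46656, Int.ofNat 0, Int.ofNat 0],
  [Int.ofNat 60480, Int.ofNat 3024, Int.ofNat 448, Int.negSucc 64799, Int.negSucc 2699, Int.negSucc 799, Int.ofNat 1056, Int.ofNat 0, Int.ofNat 816480, Int.ofNat 29160, Int.ofNat 12960, Int.negSucc 15551, Int.ofNat 0, Int.ofNat 128, Int.ofNat 207360, Int.ofNat 1536, Int.negSucc 2783, Int.ofNat 44064, Int.ofNat 0, Int.ofNat 5184],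
  [Int.ofNat 11664, Int.ofNat 0, Int.ofNat 432, Int.negSucc 10691, Int.ofNat 0, Int.negSucc 395, Int.ofNat 360, Int.negSucc 11, Int.ofNat 110808, Int.ofNat 0, Int.ofNat 4104, Int.negSucc 3779, Int.negSucc 139, Int.ofNat 128, Int.ofNat 38880, Int.ofNat 1440, Int.negSucc 1331, Int.ofNat 13608, Int.negSucc 467, Int.ofNat 4752],
  [Int.ofNat 0, Int.ofNat 0, Int.ofNat 0, Int.ofNat 0, Int.ofNat 0, Int.ofNat 0, Int.ofNat 0, Int.ofNat 0, Int.ofNat 344064, Int.ofNat 73728, Int.ofNat 0, Int.ofNat 0, Int.ofNat 0, Int.ofNat 0, Int.ofNat 0, Int.ofNat 0, Int.ofNat 0, Int.ofNat 0, Int.ofNat 0, Int.ofNat 0],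
  [Int.ofNat 0, Int.ofNat 0, Int.ofNat 0, Int.ofNat 0, Int.ofNat 0, Int.ofNat 0, Int.ofNat 0, Int.ofNat 0, Int.ofNat 2064384, Int.ofNat 368640, Int.ofNat 0, Int.ofNat 0, Int.ofNat 0, Int.ofNat 0, Int.ofNat 49152, Int.ofNat 0, Int.ofNat 0, Int.ofNat 0, Int.ofNat 0, Int.ofNat 0],
  [Int.ofNat 30720, Int.ofNat 6144, Int.ofNat 0, Int.negSucc 46079, Int.negSucc 7679, Int.ofNat 0, Int.ofNat 0, Int.ofNat 0, Int.ofNat 5160960, Int.ofNat 737280, Int.ofNat 0, Int.negSucc 3071, Int.ofNat 0, Int.ofNat 0, Int.ofNat 337920, Int.ofNat 0, Int.ofNat 0, Int.ofNat 0, Int.ofNat 0, Int.ofNat 0],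
  [Int.ofNat 122880, Int.ofNat 18432, Int.ofNat 0, Int.negSucc 153599, Int.negSucc 19199, Int.ofNat 0, Int.ofNat 0, Int.ofNat 0, Int.ofNat 6773760, Int.ofNat 725760, Int.ofNat 6144, Int.negSucc 18431, Int.ofNat 0, Int.ofNat 0, Int.ofNat 829440, Int.ofNat 0, Int.ofNat 0, Int.ofNat 33792, Int.ofNat 0, Int.ofNat 0],
  [Int.ofNat 178560, Int.ofNat 17856, Int.ofNat 0, Int.negSucc 190079, Int.negSucc 15839, Int.negSucc 383, Int.ofNat 576, Int.ofNat 0, Int.ofNat 4898880, Int.ofNat 349920, Int.ofNat 23616, Int.negSucc 36863, Int.ofNat 0, Int.ofNat 0, Int.ofNat 950400, Int.ofNat 0, Int.negSucc 2687, Int.ofNat 112320, Int.ofNat 0, Int.ofNat 0],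
  [Int.ofNat 112320, Int.ofNat 5616, Int.ofNat 768, Int.negSucc 103679, Int.negSucc 4319, Int.negSucc 1151, Int.ofNat 1152, Int.ofNat 0, Int.ofNat 1850688, Int.ofNat 66096, Int.ofNat 27648, Int.negSucc 29951, Int.ofNat 0, Int.ofNat 192, Int.ofNat 518400, Int.ofNat 3648, Int.negSucc 6143, Int.ofNat 119232, Int.ofNat 0, Int.ofNat 14976],
  [Int.ofNat 25920, Int.ofNat 0, Int.ofNat 912, Int.negSucc 21059, Int.ofNat 0, Int.negSucc 731, Int.ofNat 552, Int.negSucc 11, Int.ofNat 285768, Int.ofNat 0, Int.ofNat 10152, Int.negSucc 8531, Int.negSucc 299, Int.ofNat 240, Int.ofNat 108864, Int.ofNat 3888, Int.negSucc 3347, Int.ofNat 40824, Int.negSucc 1283, Int.ofNat 15120],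
  [Int.ofNat 0, Int.ofNat 0, Int.ofNat 0, Int.ofNat 0, Int.ofNat 0, Int.ofNat 0, Int.ofNat 0, Int.ofNat 0, Int.ofNat 688128, Int.ofNat 122880, Int.ofNat 0, Int.ofNat 0, Int.ofNat 0, Int.ofNat 0, Int.ofNat 32768, Int.ofNat 0, Int.ofNat 0, Int.ofNat 0, Int.ofNat 0, Int.ofNat 0],
  [Int.ofNat 0, Int.ofNat 0, Int.ofNat 0, Int.ofNat 0, Int.ofNat 0, Int.ofNat 0, Int.ofNat 0, Int.ofNat 0, Int.ofNat 3153920, Int.ofNat 450560, Int.ofNat 0, Int.ofNat 0, Int.ofNat 0, Int.ofNat 0, Int.ofNat 286720, Int.ofNat 0, Int.ofNat 0, Int.ofNat 0, Int.ofNat 0, Int.ofNat 0],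
  [Int.ofNat 40960, Int.ofNat 6144, Int.ofNat 0, Int.negSucc 40959, Int.negSucc 5119, Int.ofNat 0, Int.ofNat 0, Int.ofNat 0, Int.ofNat 5806080, Int.ofNat 622080, Int.ofNat 4096, Int.negSucc 8191, Int.ofNat 0, Int.ofNat 0, Int.ofNat 880640, Int.ofNat 0, Int.ofNat 0, Int.ofNat 43008, Int.ofNat 0, Int.ofNat 0],
  [Int.ofNat 112640, Int.ofNat 11264, Int.ofNat 0, Int.negSucc 99839, Int.negSucc 8319, Int.ofNat 0, Int.ofNat 0, Int.ofNat 0, Int.ofNat 5322240, Int.ofNat 380160, Int.ofNat 21504, Int.negSucc 27647, Int.ofNat 0, Int.ofNat 0, Int.ofNat 1213440, Int.ofNat 0, Int.negSucc 2559, Int.ofNat 164352, Int.ofNat 0, Int.ofNat 0],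
  [Int.ofNat 101760, Int.ofNat 5088, Int.ofNat 512, Int.negSucc 80639, Int.negSucc 3359, Int.negSucc 511, Int.ofNat 384, Int.ofNat 0, Int.ofNat 2419200, Int.ofNat 86400, Int.ofNat 31872, Int.negSucc 30207, Int.ofNat 0, Int.ofNat 128, Int.ofNat 771840, Int.ofNat 4992, Int.negSucc 7423, Int.ofNat 198144, Int.ofNat 0, Int.ofNat 27392],
  [Int.ofNat 30240, Int.ofNat 0, Int.ofNat 896, Int.negSucc 21599, Int.ofNat 0, Int.negSucc 575, Int.ofNat 352, Int.ofNat 0, Int.ofNat 435456, Int.ofNat 0, Int.ofNat 14112, Int.negSucc 10655, Int.negSucc 319, Int.ofNat 224, Int.ofNat 184896, Int.ofNat 6176, Int.negSucc 4831, Int.ofNat 76032, Int.negSucc 2079, Int.ofNat 30528],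
  [Int.ofNat 0, Int.ofNat 0, Int.ofNat 0, Int.ofNat 0, Int.ofNat 0, Int.ofNat 0, Int.ofNat 0, Int.ofNat 0, Int.ofNat 716800, Int.ofNat 102400, Int.ofNat 0, Int.ofNat 0, Int.ofNat 0, Int.ofNat 0, Int.ofNat 102400, Int.ofNat 0, Int.ofNat 0, Int.ofNat 0, Int.ofNat 0, Int.ofNat 0],
  [Int.ofNat 0, Int.ofNat 0, Int.ofNat 0, Int.ofNat 0, Int.ofNat 0, Int.ofNat 0, Int.ofNat 0, Int.ofNat 0, Int.ofNat 2508800, Int.ofNat 268800, Int.ofNat 0, Int.ofNat 0, Int.ofNat 0, Int.ofNat 0, Int.ofNat 512000, Int.ofNat 0, Int.ofNat 0, Int.ofNat 30720, Int.ofNat 0, Int.ofNat 0],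
  [Int.ofNat 25600, Int.ofNat 2560, Int.ofNat 0, Int.negSucc 19199, Int.negSucc 1599, Int.ofNat 0, Int.ofNat 0, Int.ofNat 0, Int.ofNat 3306240, Int.ofNat 236160, Int.ofNat 7680, Int.negSucc 7679, Int.ofNat 0, Int.ofNat 0, Int.ofNat 934400, Int.ofNat 0, Int.negSucc 1279, Int.ofNat 149760, Int.ofNat 0, Int.ofNat 0],
  [Int.ofNat 44800, Int.ofNat 2240, Int.ofNat 0, Int.negSucc 30719, Int.negSucc 1279, Int.ofNat 0, Int.ofNat 0, Int.ofNat 0, Int.ofNat 1935360, Int.ofNat 69120, Int.ofNat 19200, Int.negSucc 15359, Int.ofNat 0, Int.ofNat 0, Int.ofNat 729600, Int.ofNat 3840, Int.negSucc 5119, Int.ofNat 215040, Int.ofNat 0, Int.ofNat 33280],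
  [Int.ofNat 19440, Int.ofNat 0, Int.ofNat 320, Int.negSucc 12239, Int.ofNat 0, Int.negSucc 159, Int.ofNat 80, Int.ofNat 0, Int.ofNat 423360, Int.ofNat 0, Int.ofNat 11440, Int.negSucc 7599, Int.negSucc 159, Int.ofNat 80, Int.ofNat 205920, Int.ofNat 6000, Int.negSucc 4239, Int.ofNat 95040, Int.negSucc 2159, Int.ofNat 42080],
  [Int.ofNat 0, Int.ofNat 0, Int.ofNat 0, Int.ofNat 0, Int.ofNat 0, Int.ofNat 0, Int.ofNat 0, Int.ofNat 0, Int.ofNat 430080, Int.ofNat 46080, Int.ofNat 0, Int.ofNat 0, Int.ofNat 0, Int.ofNat 0, Int.ofNat 122880, Int.ofNat 0, Int.ofNat 0, Int.ofNat 12288, Int.ofNat 0, Int.ofNat 0],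
  [Int.ofNat 0, Int.ofNat 0, Int.ofNat 0, Int.ofNat 0, Int.ofNat 0, Int.ofNat 0, Int.ofNat 0, Int.ofNat 0, Int.ofNat 1096704, Int.ofNat 78336, Int.ofNat 0, Int.ofNat 0, Int.ofNat 0, Int.ofNat 0, Int.ofNat 399360, Int.ofNat 0, Int.ofNat 0, Int.ofNat 82944, Int.ofNat 0, Int.ofNat 0],
  [Int.ofNat 7680, Int.ofNat 384, Int.ofNat 0, Int.negSucc 4607, Int.negSucc 191, Int.ofNat 0, Int.ofNat 0, Int.ofNat 0, Int.ofNat 935424, Int.ofNat 33408, Int.ofNat 4608, Int.negSucc 3071, Int.ofNat 0, Int.ofNat 0, Int.ofNat 430080, Int.ofNat 1536, Int.negSucc 1535, Int.ofNat 152064, Int.ofNat 0, Int.ofNat 27648],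
  [Int.ofNat 6528, Int.ofNat 0, Int.ofNat 0, Int.negSucc 3647, Int.ofNat 0, Int.ofNat 0, Int.ofNat 0, Int.ofNat 0, Int.ofNat 266112, Int.ofNat 0, Int.ofNat 4992, Int.negSucc 2879, Int.ofNat 0, Int.ofNat 0, Int.ofNat 152064, Int.ofNat 3456, Int.negSucc 2111, Int.ofNat 81024, Int.negSucc 1343, Int.ofNat 40704],
  [Int.ofNat 0, Int.ofNat 0, Int.ofNat 0, Int.ofNat 0, Int.ofNat 0, Int.ofNat 0, Int.ofNat 0, Int.ofNat 0, Int.ofNat 150528, Int.ofNat 10752, Int.ofNat 0, Int.ofNat 0, Int.ofNat 0, Int.ofNat 0, Int.ofNat 71680, Int.ofNat 0, Int.ofNat 0, Int.ofNat 21504, Int.ofNat 0, Int.ofNat 0],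
  [Int.ofNat 0, Int.ofNat 0, Int.ofNat 0, Int.ofNat 0, Int.ofNat 0, Int.ofNat 0, Int.ofNat 0, Int.ofNat 0, Int.ofNat 250880, Int.ofNat 8960, Int.ofNat 0, Int.ofNat 0, Int.ofNat 0, Int.ofNat 0, Int.ofNat 143360, Int.ofNat 0, Int.ofNat 0, Int.ofNat 64512, Int.ofNat 0, Int.ofNat 14336],
  [Int.ofNat 896, Int.ofNat 0, Int.ofNat 0, Int.negSucc 447, Int.ofNat 0, Int.ofNat 0, Int.ofNat 0, Int.ofNat 0, Int.ofNat 104832, Int.ofNat 0, Int.ofNat 896, Int.negSucc 447, Int.ofNat 0, Int.ofNat 0, Int.ofNat 71680, Int.ofNat 896, Int.negSucc 447, Int.ofNat 45696, Int.negSucc 447, Int.ofNat 26880],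
  [Int.ofNat 0, Int.ofNat 0, Int.ofNat 0, Int.ofNat 0, Int.ofNat 0, Int.ofNat 0, Int.ofNat 0, Int.ofNat 0, Int.ofNat 28672, Int.ofNat 1024, Int.ofNat 0, Int.ofNat 0, Int.ofNat 0, Int.ofNat 0, Int.ofNat 20480, Int.ofNat 0, Int.ofNat 0, Int.ofNat 12288, Int.ofNat 0, Int.ofNat 4096],
  [Int.ofNat 0, Int.ofNat 0, Int.ofNat 0, Int.ofNat 0, Int.ofNat 0, Int.ofNat 0, Int.ofNat 0, Int.ofNat 0, Int.ofNat 23552, Int.ofNat 0, Int.ofNat 0, Int.ofNat 0, Int.ofNat 0, Int.ofNat 0, Int.ofNat 19456, Int.ofNat 0, Int.ofNat 0, Int.ofNat 15360, Int.ofNat 0, Int.ofNat 11264],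
  [Int.ofNat 0, Int.ofNat 0, Int.ofNat 0, Int.ofNat 0, Int.ofNat 0, Int.ofNat 0, Int.ofNat 0, Int.ofNat 0, Int.ofNat 2304, Int.ofNat 0, Int.ofNat 0, Int.ofNat 0, Int.ofNat 0, Int.ofNat 0, Int.ofNat 2304, Int.ofNat 0, Int.ofNat 0, Int.ofNat 2304, Int.ofNat 0, Int.ofNat 2304],
  [Int.ofNat 0, Int.ofNat 0, Int.ofNat 0, Int.ofNat 0, Int.ofNat 0, Int.ofNat 0, Int.ofNat 0, Int.ofNat 0, Int.ofNat 49152, Int.ofNat 12288, Int.ofNat 0, Int.ofNat 0, Int.ofNat 0, Int.ofNat 0, Int.ofNat 0, Int.ofNat 0, Int.ofNat 0, Int.ofNat 0, Int.ofNat 0, Int.ofNat 0],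
  [Int.ofNat 0, Int.ofNat 0, Int.ofNat 0, Int.ofNat 4096, Int.ofNat 1024, Int.ofNat 0, Int.ofNat 0, Int.ofNat 0, Int.ofNat 315392, Int.ofNat 67584, Int.ofNat 0, Int.ofNat 0, Int.ofNat 0, Int.ofNat 0, Int.ofNat 0, Int.ofNat 0, Int.ofNat 0, Int.ofNat 0, Int.ofNat 0, Int.ofNat 0],
  [Int.ofNat 2048, Int.ofNat 512, Int.ofNat 0, Int.ofNat 12288, Int.ofNat 2560, Int.ofNat 0, Int.ofNat 0, Int.ofNat 0, Int.ofNat 903168, Int.ofNat 161280, Int.ofNat 0, Int.ofNat 0, Int.ofNat 0, Int.ofNat 0, Int.ofNat 22528, Int.ofNat 0, Int.ofNat 0, Int.ofNat 0, Int.ofNat 0, Int.ofNat 0],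
  [Int.ofNat 12800, Int.ofNat 2560, Int.ofNat 0, Int.ofNat 7680, Int.ofNat 1280, Int.ofNat 0, Int.ofNat 0, Int.ofNat 0, Int.ofNat 1451520, Int.ofNat 207360, Int.ofNat 0, Int.negSucc 511, Int.ofNat 0, Int.ofNat 0, Int.ofNat 99840, Int.ofNat 0, Int.ofNat 0, Int.ofNat 0, Int.ofNat 0, Int.ofNat 0],
  [Int.ofNat 28800, Int.ofNat 4320, Int.ofNat 0, Int.negSucc 11519, Int.negSucc 1439, Int.ofNat 0, Int.negSucc 63, Int.ofNat 0, Int.ofNat 1391040, Int.ofNat 149040, Int.ofNat 1472, Int.negSucc 2815, Int.ofNat 0, Int.ofNat 0, Int.ofNat 178560, Int.ofNat 0, Int.ofNat 0, Int.ofNat 7488, Int.ofNat 0, Int.ofNat 0],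
  [Int.ofNat 30240, Int.ofNat 3024, Int.ofNat 0, Int.negSucc 19439, Int.negSucc 1619, Int.negSucc 47, Int.negSucc 47, Int.ofNat 0, Int.ofNat 789264, Int.ofNat 56376, Int.ofNat 4176, Int.negSucc 4895, Int.ofNat 0, Int.ofNat 0, Int.ofNat 159840, Int.ofNat 0, Int.negSucc 399, Int.ofNat 19440, Int.ofNat 0, Int.ofNat 0],
  [Int.ofNat 15120, Int.ofNat 756, Int.ofNat 112, Int.negSucc 10367, Int.negSucc 431, Int.negSucc 127, Int.ofNat 48, Int.ofNat 0, Int.ofNat 244944, Int.ofNat 8748, Int.ofNat 3888, Int.negSucc 3455, Int.ofNat 0, Int.ofNat 16, Int.ofNat 71280, Int.ofNat 528, Int.negSucc 767, Int.ofNat 16848, Int.ofNat 0, Int.ofNat 2160],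
  [Int.ofNat 2916, Int.ofNat 0, Int.ofNat 108, Int.negSucc 1943, Int.ofNat 0, Int.negSucc 71, Int.ofNat 36, Int.ofNat 0, Int.ofNat 32076, Int.ofNat 0, Int.ofNat 1188, Int.negSucc 863, Int.negSucc 31, Int.ofNat 20, Int.ofNat 12636, Int.ofNat 468, Int.negSucc 359, Int.ofNat 4860, Int.negSucc 143, Int.ofNat 1836],
  [Int.ofNat 0, Int.ofNat 0, Int.ofNat 0, Int.ofNat 8192, Int.ofNat 2048, Int.ofNat 0, Int.ofNat 0, Int.ofNat 0, Int.ofNat 286720, Int.ofNat 61440, Int.ofNat 0, Int.ofNat 0, Int.ofNat 0, Int.ofNat 0, Int.ofNat 0, Int.ofNat 0, Int.ofNat 0, Int.ofNat 0, Int.ofNat 0, Int.ofNat 0],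
  [Int.ofNat 8192, Int.ofNat 2048, Int.ofNat 0, Int.ofNat 49152, Int.ofNat 10240, Int.ofNat 0, Int.ofNat 0, Int.ofNat 0, Int.ofNat 1548288, Int.ofNat 276480, Int.ofNat 0, Int.ofNat 0, Int.ofNat 0, Int.ofNat 0, Int.ofNat 40960, Int.ofNat 0, Int.ofNat 0, Int.ofNat 0, Int.ofNat 0, Int.ofNat 0],
  [Int.ofNat 46080, Int.ofNat 9216, Int.ofNat 0, Int.ofNat 92160, Int.ofNat 15360, Int.ofNat 0, Int.ofNat 0, Int.ofNat 0, Int.ofNat 3548160, Int.ofNat 506880, Int.ofNat 0, Int.ofNat 0, Int.ofNat 0, Int.ofNat 0, Int.ofNat 261120, Int.ofNat 0, Int.ofNat 0, Int.ofNat 0, Int.ofNat 0, Int.ofNat 0],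
  [Int.ofNat 107520, Int.ofNat 16128, Int.ofNat 0, Int.ofNat 61440, Int.ofNat 7680, Int.ofNat 0, Int.negSucc 511, Int.ofNat 0, Int.ofNat 4354560, Int.ofNat 466560, Int.ofNat 5632, Int.negSucc 4095, Int.ofNat 0, Int.ofNat 0, Int.ofNat 599040, Int.ofNat 0, Int.ofNat 0, Int.ofNat 26112, Int.ofNat 0, Int.ofNat 0],
  [Int.ofNat 123840, Int.ofNat 12384, Int.ofNat 0, Int.negSucc 4319, Int.negSucc 359, Int.negSucc 95, Int.negSucc 1055, Int.ofNat 0, Int.ofNat 2993760, Int.ofNat 213840, Int.ofNat 18144, Int.negSucc 12095, Int.ofNat 0, Int.ofNat 0, Int.ofNat 648000, Int.ofNat 0, Int.negSucc 1311, Int.ofNat 82080, Int.ofNat 0, Int.ofNat 0],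
  [Int.ofNat 69120, Int.ofNat 3456, Int.ofNat 576, Int.negSucc 20735, Int.negSucc 863, Int.negSucc 383, Int.negSucc 575, Int.ofNat 0, Int.ofNat 1088640, Int.ofNat 38880, Int.ofNat 19008, Int.negSucc 11519, Int.ofNat 0, Int.ofNat 0, Int.ofNat 336960, Int.ofNat 2688, Int.negSucc 3071, Int.ofNat 82944, Int.ofNat 0, Int.ofNat 10944],
  [Int.ofNat 14904, Int.ofNat 0, Int.ofNat 600, Int.negSucc 6155, Int.ofNat 0, Int.negSucc 275, Int.negSucc 47, Int.ofNat 12, Int.ofNat 163296, Int.ofNat 0, Int.ofNat 6480, Int.negSucc 3563, Int.negSucc 147, Int.ofNat 40, Int.ofNat 68040, Int.ofNat 2664, Int.negSucc 1691, Int.ofNat 27216, Int.negSucc 731, Int.ofNat 10584],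
  [Int.ofNat 8192, Int.ofNat 2048, Int.ofNat 0, Int.ofNat 24576, Int.ofNat 5120, Int.ofNat 0, Int.ofNat 0, Int.ofNat 0, Int.ofNat 688128, Int.ofNat 122880, Int.ofNat 0, Int.ofNat 0, Int.ofNat 0, Int.ofNat 0, Int.ofNat 40960, Int.ofNat 0, Int.ofNat 0, Int.ofNat 0, Int.ofNat 0, Int.ofNat 0],
  [Int.ofNat 51200, Int.ofNat 10240, Int.ofNat 0, Int.ofNat 107520, Int.ofNat 17920, Int.ofNat 0, Int.ofNat 0, Int.ofNat 0, Int.ofNat 3010560, Int.ofNat 430080, Int.ofNat 0, Int.ofNat 3072, Int.ofNat 0, Int.ofNat 0, Int.ofNat 317440, Int.ofNat 0, Int.ofNat 0, Int.ofNat 0, Int.ofNat 0, Int.ofNat 0],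
  [Int.ofNat 138240, Int.ofNat 20736, Int.ofNat 0, Int.ofNat 153600, Int.ofNat 19200, Int.ofNat 0, Int.negSucc 511, Int.ofNat 0, Int.ofNat 5322240, Int.ofNat 570240, Int.ofNat 7680, Int.ofNat 6144, Int.ofNat 0, Int.ofNat 0, Int.ofNat 906240, Int.ofNat 0, Int.ofNat 0, Int.ofNat 47616, Int.ofNat 0, Int.ofNat 0],
  [Int.ofNat 188160, Int.ofNat 18816, Int.ofNat 0, Int.ofNat 80640, Int.ofNat 6720, Int.ofNat 0, Int.negSucc 1919, Int.ofNat 0, Int.ofNat 4717440, Int.ofNat 336960, Int.ofNat 30336, Int.negSucc 3071, Int.ofNat 0, Int.ofNat 0, Int.ofNat 1186560, Int.ofNat 0, Int.negSucc 1279, Int.ofNat 171648, Int.ofNat 0, Int.ofNat 0],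
  [Int.ofNat 123840, Int.ofNat 6192, Int.ofNat 1088, Int.ofNat 4320, Int.ofNat 180, Int.negSucc 287, Int.negSucc 1823, Int.ofNat 0, Int.ofNat 2086560, Int.ofNat 74520, Int.ofNat 37728, Int.negSucc 11711, Int.ofNat 0, Int.negSucc 127, Int.ofNat 725760, Int.ofNat 5888, Int.negSucc 4575, Int.ofNat 197856, Int.ofNat 0, Int.ofNat 28608],
  [Int.ofNat 31104, Int.ofNat 0, Int.ofNat 1296, Int.negSucc 5507, Int.ofNat 0, Int.negSucc 347, Int.negSucc 455, Int.ofNat 36, Int.ofNat 367416, Int.ofNat 0, Int.ofNat 14904, Int.negSucc 5507, Int.negSucc 251, Int.negSucc 47, Int.ofNat 168480, Int.ofNat 6672, Int.negSucc 3251, Int.ofNat 73224, Int.negSucc 1619, Int.ofNat 30672],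
  [Int.ofNat 20480, Int.ofNat 4096, Int.ofNat 0, Int.ofNat 30720, Int.ofNat 5120, Int.ofNat 0, Int.ofNat 0, Int.ofNat 0, Int.ofNat 860160, Int.ofNat 122880, Int.ofNat 0, Int.ofNat 2048, Int.ofNat 0, Int.ofNat 0, Int.ofNat 143360, Int.ofNat 0, Int.ofNat 0, Int.ofNat 0, Int.ofNat 0, Int.ofNat 0],
  [Int.ofNat 81920, Int.ofNat 12288, Int.ofNat 0, Int.ofNat 102400, Int.ofNat 12800, Int.ofNat 0, Int.ofNat 0, Int.ofNat 0, Int.ofNat 2938880, Int.ofNat 314880, Int.ofNat 4096, Int.ofNat 12288, Int.ofNat 0, Int.ofNat 0, Int.ofNat 675840, Int.ofNat 0, Int.ofNat 0, Int.ofNat 43008, Int.ofNat 0, Int.ofNat 0],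
  [Int.ofNat 140800, Int.ofNat 14080, Int.ofNat 0, Int.ofNat 107520, Int.ofNat 8960, Int.ofNat 0, Int.negSucc 767, Int.ofNat 0, Int.ofNat 3790080, Int.ofNat 270720, Int.ofNat 23808, Int.ofNat 15360, Int.ofNat 0, Int.ofNat 0, Int.ofNat 1180160, Int.ofNat 0, Int.ofNat 0, Int.ofNat 200448, Int.ofNat 0, Int.ofNat 0],
  [Int.ofNat 113920, Int.ofNat 5696, Int.ofNat 1024, Int.ofNat 38400, Int.ofNat 1600, Int.ofNat 0, Int.negSucc 1535, Int.ofNat 0, Int.ofNat 2177280, Int.ofNat 77760, Int.ofNat 38400, Int.ofNat 2048, Int.ofNat 0, Int.negSucc 255, Int.ofNat 890880, Int.ofNat 6912, Int.negSucc 2559, Int.ofNat 277248, Int.ofNat 0, Int.ofNat 44544],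
  [Int.ofNat 34560, Int.ofNat 0, Int.ofNat 1440, Int.ofNat 1800, Int.ofNat 0, Int.negSucc 135, Int.negSucc 655, Int.ofNat 24, Int.ofNat 468720, Int.ofNat 0, Int.ofNat 18544, Int.negSucc 2967, Int.negSucc 167, Int.negSucc 223, Int.ofNat 244800, Int.ofNat 9376, Int.negSucc 3031, Int.ofNat 118800, Int.negSucc 1975, Int.ofNat 54560],
  [Int.ofNat 20480, Int.ofNat 3072, Int.ofNat 0, Int.ofNat 20480, Int.ofNat 2560, Int.ofNat 0, Int.ofNat 0, Int.ofNat 0, Int.ofNat 609280, Int.ofNat 65280, Int.ofNat 2048, Int.ofNat 4096, Int.ofNat 0, Int.ofNat 0, Int.ofNat 194560, Int.ofNat 0, Int.ofNat 0, Int.ofNat 21504, Int.ofNat 0, Int.ofNat 0],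
  [Int.ofNat 56320, Int.ofNat 5632, Int.ofNat 0, Int.ofNat 49920, Int.ofNat 4160, Int.ofNat 0, Int.ofNat 0, Int.ofNat 0, Int.ofNat 1532160, Int.ofNat 109440, Int.ofNat 10752, Int.ofNat 13824, Int.ofNat 0, Int.ofNat 0, Int.ofNat 611840, Int.ofNat 0, Int.ofNat 1280, Int.ofNat 135936, Int.ofNat 0, Int.ofNat 0],
  [Int.ofNat 59520, Int.ofNat 2976, Int.ofNat 512, Int.ofNat 34560, Int.ofNat 1440, Int.ofNat 0, Int.negSucc 383, Int.ofNat 0, Int.ofNat 1290240, Int.ofNat 46080, Int.ofNat 21888, Int.ofNat 10752, Int.ofNat 0, Int.negSucc 127, Int.ofNat 641280, Int.ofNat 4736, Int.ofNat 1280, Int.ofNat 239616, Int.ofNat 0, Int.ofNat 45312],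
  [Int.ofNat 22560, Int.ofNat 0, Int.ofNat 896, Int.ofNat 6240, Int.ofNat 0, Int.ofNat 0, Int.negSucc 351, Int.ofNat 0, Int.ofNat 362880, Int.ofNat 0, Int.ofNat 13472, Int.ofNat 1312, Int.ofNat 0, Int.negSucc 223, Int.ofNat 221760, Int.ofNat 7968, Int.negSucc 799, Int.ofNat 124032, Int.negSucc 1119, Int.ofNat 64576],
  [Int.ofNat 10240, Int.ofNat 1024, Int.ofNat 0, Int.ofNat 7680, Int.ofNat 640, Int.ofNat 0, Int.ofNat 0, Int.ofNat 0, Int.ofNat 247296, Int.ofNat 17664, Int.ofNat 3072, Int.ofNat 3072, Int.ofNat 0, Int.ofNat 0, Int.ofNat 128000, Int.ofNat 0, Int.ofNat 512, Int.ofNat 41472, Int.ofNat 0, Int.ofNat 0],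
  [Int.ofNat 17920, Int.ofNat 896, Int.ofNat 0, Int.ofNat 12288, Int.ofNat 512, Int.ofNat 0, Int.ofNat 0, Int.ofNat 0, Int.ofNat 408576, Int.ofNat 14592, Int.ofNat 7680, Int.ofNat 6144, Int.ofNat 0, Int.ofNat 0, Int.ofNat 250880, Int.ofNat 1536, Int.ofNat 2048, Int.ofNat 119808, Int.ofNat 0, Int.ofNat 27648],
  [Int.ofNat 9024, Int.ofNat 0, Int.ofNat 256, Int.ofNat 4224, Int.ofNat 0, Int.ofNat 0, Int.negSucc 63, Int.ofNat 0, Int.ofNat 169344, Int.ofNat 0, Int.ofNat 5952, Int.ofNat 2304, Int.ofNat 0, Int.negSucc 63, Int.ofNat 123264, Int.ofNat 3904, Int.ofNat 896, Int.ofNat 82560, Int.ofNat 0, Int.ofNat 50304],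
  [Int.ofNat 2560, Int.ofNat 128, Int.ofNat 0, Int.ofNat 1536, Int.ofNat 64, Int.ofNat 0, Int.ofNat 0, Int.ofNat 0, Int.ofNat 53760, Int.ofNat 1920, Int.ofNat 1536, Int.ofNat 1024, Int.ofNat 0, Int.ofNat 0, Int.ofNat 40960, Int.ofNat 512, Int.ofNat 512, Int.ofNat 26112, Int.ofNat 0, Int.ofNat 9216],
  [Int.ofNat 2176, Int.ofNat 0, Int.ofNat 0, Int.ofNat 1216, Int.ofNat 0, Int.ofNat 0, Int.ofNat 0, Int.ofNat 0, Int.ofNat 43904, Int.ofNat 0, Int.ofNat 1664, Int.ofNat 960, Int.ofNat 0, Int.ofNat 0, Int.ofNat 38400, Int.ofNat 1152, Int.ofNat 704, Int.ofNat 31872, Int.ofNat 448, Int.ofNat 24320],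
  [Int.ofNat 256, Int.ofNat 0, Int.ofNat 0, Int.ofNat 128, Int.ofNat 0, Int.ofNat 0, Int.ofNat 0, Int.ofNat 0, Int.ofNat 4864, Int.ofNat 0, Int.ofNat 256, Int.ofNat 128, Int.ofNat 0, Int.ofNat 0, Int.ofNat 5120, Int.ofNat 256, Int.ofNat 128, Int.ofNat 5376, Int.ofNat 128, Int.ofNat 5632],
  [Int.ofNat 0, Int.ofNat 0, Int.ofNat 0, Int.ofNat 4096, Int.ofNat 1024, Int.ofNat 0, Int.ofNat 0, Int.ofNat 0, Int.ofNat 86016, Int.ofNat 18432, Int.ofNat 0, Int.ofNat 0, Int.ofNat 0, Int.ofNat 0, Int.ofNat 0, Int.ofNat 0, Int.ofNat 0, Int.ofNat 0, Int.ofNat 0, Int.ofNat 0],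
  [Int.ofNat 4096, Int.ofNat 1024, Int.ofNat 0, Int.ofNat 24576, Int.ofNat 5120, Int.ofNat 0, Int.ofNat 0, Int.ofNat 0, Int.ofNat 430080, Int.ofNat 76800, Int.ofNat 0, Int.ofNat 0, Int.ofNat 0, Int.ofNat 0, Int.ofNat 12288, Int.ofNat 0, Int.ofNat 0, Int.ofNat 0, Int.ofNat 0, Int.ofNat 0],
  [Int.ofNat 17920, Int.ofNat 3584, Int.ofNat 0, Int.ofNat 53760, Int.ofNat 8960, Int.ofNat 0, Int.ofNat 0, Int.ofNat 0, Int.ofNat 913920, Int.ofNat 130560, Int.ofNat 0, Int.ofNat 512, Int.ofNat 0, Int.ofNat 0, Int.ofNat 74240, Int.ofNat 0, Int.ofNat 0, Int.ofNat 0, Int.ofNat 0, Int.ofNat 0],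
  [Int.ofNat 33280, Int.ofNat 4992, Int.ofNat 0, Int.ofNat 56320, Int.ofNat 7040, Int.ofNat 0, Int.negSucc 255, Int.ofNat 0, Int.ofNat 1048320, Int.ofNat 112320, Int.ofNat 1792, Int.ofNat 1024, Int.ofNat 0, Int.ofNat 0, Int.ofNat 161280, Int.ofNat 0, Int.ofNat 0, Int.ofNat 7424, Int.ofNat 0, Int.ofNat 0],
  [Int.ofNat 32160, Int.ofNat 3216, Int.ofNat 0, Int.ofNat 29520, Int.ofNat 2460, Int.ofNat 16, Int.negSucc 623, Int.ofNat 0, Int.ofNat 680400, Int.ofNat 48600, Int.ofNat 5136, Int.ofNat 96, Int.ofNat 0, Int.ofNat 0, Int.ofNat 165600, Int.ofNat 0, Int.negSucc 207, Int.ofNat 22320, Int.ofNat 0, Int.ofNat 0],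
  [Int.ofNat 15840, Int.ofNat 792, Int.ofNat 160, Int.ofNat 6912, Int.ofNat 288, Int.ofNat 0, Int.negSucc 479, Int.ofNat 0, Int.ofNat 235872, Int.ofNat 8424, Int.ofNat 4896, Int.negSucc 767, Int.ofNat 0, Int.negSucc 31, Int.ofNat 82080, Int.ofNat 736, Int.negSucc 511, Int.ofNat 21600, Int.ofNat 0, Int.ofNat 2976],
  [Int.ofNat 3132, Int.ofNat 0, Int.ofNat 148, Int.ofNat 432, Int.ofNat 0, Int.negSucc 15, Int.negSucc 115, Int.ofNat 8, Int.ofNat 34020, Int.ofNat 0, Int.ofNat 1548, Int.negSucc 359, Int.negSucc 23, Int.negSucc 19, Int.ofNat 15876, Int.ofNat 684, Int.negSucc 287, Int.ofNat 6804, Int.negSucc 151, Int.ofNat 2772],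
  [Int.ofNat 8192, Int.ofNat 2048, Int.ofNat 0, Int.ofNat 24576, Int.ofNat 5120, Int.ofNat 0, Int.ofNat 0, Int.ofNat 0, Int.ofNat 344064, Int.ofNat 61440, Int.ofNat 0, Int.ofNat 0, Int.ofNat 0, Int.ofNat 0, Int.ofNat 24576, Int.ofNat 0, Int.ofNat 0, Int.ofNat 0, Int.ofNat 0, Int.ofNat 0],
  [Int.ofNat 51200, Int.ofNat 10240, Int.ofNat 0, Int.ofNat 107520, Int.ofNat 17920, Int.ofNat 0, Int.ofNat 0, Int.ofNat 0, Int.ofNat 1433600, Int.ofNat 204800, Int.ofNat 0, Int.ofNat 3072, Int.ofNat 0, Int.ofNat 0, Int.ofNat 174080, Int.ofNat 0, Int.ofNat 0, Int.ofNat 0, Int.ofNat 0, Int.ofNat 0],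
  [Int.ofNat 117760, Int.ofNat 17664, Int.ofNat 0, Int.ofNat 174080, Int.ofNat 21760, Int.ofNat 0, Int.negSucc 511, Int.ofNat 0, Int.ofNat 2419200, Int.ofNat 259200, Int.ofNat 5632, Int.ofNat 10240, Int.ofNat 0, Int.ofNat 0, Int.ofNat 465920, Int.ofNat 0, Int.ofNat 0, Int.ofNat 26112, Int.ofNat 0, Int.ofNat 0],
  [Int.ofNat 131840, Int.ofNat 13184, Int.ofNat 0, Int.ofNat 130560, Int.ofNat 10880, Int.ofNat 0, Int.negSucc 1919, Int.ofNat 0, Int.ofNat 2056320, Int.ofNat 146880, Int.ofNat 19584, Int.ofNat 10752, Int.ofNat 0, Int.ofNat 0, Int.ofNat 579840, Int.ofNat 0, Int.ofNat 0, Int.ofNat 89472, Int.ofNat 0, Int.ofNat 0],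
  [Int.ofNat 72960, Int.ofNat 3648, Int.ofNat 832, Int.ofNat 44640, Int.ofNat 1860, Int.negSucc 31, Int.negSucc 2015, Int.ofNat 0, Int.ofNat 876960, Int.ofNat 31320, Int.ofNat 21792, Int.ofNat 3392, Int.ofNat 0, Int.negSucc 191, Int.ofNat 339840, Int.ofNat 3392, Int.negSucc 863, Int.ofNat 98784, Int.ofNat 0, Int.ofNat 14912],
  [Int.ofNat 15984, Int.ofNat 0, Int.ofNat 848, Int.ofNat 5292, Int.ofNat 0, Int.negSucc 59, Int.negSucc 631, Int.ofNat 36, Int.ofNat 149688, Int.ofNat 0, Int.ofNat 7848, Int.negSucc 179, Int.negSucc 91, Int.negSucc 159, Int.ofNat 76032, Int.ofNat 3584, Int.negSucc 835, Int.ofNat 35208, Int.negSucc 579, Int.ofNat 15408],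
  [Int.ofNat 30720, Int.ofNat 6144, Int.ofNat 0, Int.ofNat 46080, Int.ofNat 7680, Int.ofNat 0, Int.ofNat 0, Int.ofNat 0, Int.ofNat 573440, Int.ofNat 81920, Int.ofNat 0, Int.ofNat 3072, Int.ofNat 0, Int.ofNat 0, Int.ofNat 112640, Int.ofNat 0, Int.ofNat 0, Int.ofNat 0, Int.ofNat 0, Int.ofNat 0],
  [Int.ofNat 122880, Int.ofNat 18432, Int.ofNat 0, Int.ofNat 153600, Int.ofNat 19200, Int.ofNat 0, Int.ofNat 0, Int.ofNat 0, Int.ofNat 1899520, Int.ofNat 203520, Int.ofNat 6144, Int.ofNat 18432, Int.ofNat 0, Int.ofNat 0, Int.ofNat 501760, Int.ofNat 0, Int.ofNat 0, Int.ofNat 33792, Int.ofNat 0, Int.ofNat 0],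
  [Int.ofNat 185600, Int.ofNat 18560, Int.ofNat 0, Int.ofNat 180480, Int.ofNat 15040, Int.ofNat 0, Int.negSucc 1151, Int.ofNat 0, Int.ofNat 2378880, Int.ofNat 169920, Int.ofNat 28032, Int.ofNat 30720, Int.ofNat 0, Int.ofNat 0, Int.ofNat 835840, Int.ofNat 0, Int.ofNat 1280, Int.ofNat 150912, Int.ofNat 0, Int.ofNat 0],
  [Int.ofNat 126080, Int.ofNat 6304, Int.ofNat 1536, Int.ofNat 88320, Int.ofNat 3680, Int.ofNat 0, Int.negSucc 2303, Int.ofNat 0, Int.ofNat 1330560, Int.ofNat 47520, Int.ofNat 38400, Int.ofNat 18432, Int.ofNat 0, Int.negSucc 383, Int.ofNat 606720, Int.ofNat 6528, Int.ofNat 1280, Int.ofNat 200832, Int.ofNat 0, Int.ofNat 33536],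
  [Int.ofNat 32400, Int.ofNat 0, Int.ofNat 1840, Int.ofNat 14940, Int.ofNat 0, Int.negSucc 43, Int.negSucc 1063, Int.ofNat 36, Int.ofNat 279720, Int.ofNat 0, Int.ofNat 16376, Int.ofNat 3148, Int.negSucc 91, Int.negSucc 415, Int.ofNat 161280, Int.ofNat 8064, Int.negSucc 307, Int.ofNat 83160, Int.negSucc 803, Int.ofNat 39760],
  [Int.ofNat 40960, Int.ofNat 6144, Int.ofNat 0, Int.ofNat 40960, Int.ofNat 5120, Int.ofNat 0, Int.ofNat 0, Int.ofNat 0, Int.ofNat 501760, Int.ofNat 53760, Int.ofNat 4096, Int.ofNat 8192, Int.ofNat 0, Int.ofNat 0, Int.ofNat 184320, Int.ofNat 0, Int.ofNat 0, Int.ofNat 22528, Int.ofNat 0, Int.ofNat 0],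
  [Int.ofNat 112640, Int.ofNat 11264, Int.ofNat 0, Int.ofNat 99840, Int.ofNat 8320, Int.ofNat 0, Int.ofNat 0, Int.ofNat 0, Int.ofNat 1236480, Int.ofNat 88320, Int.ofNat 21504, Int.ofNat 27648, Int.ofNat 0, Int.ofNat 0, Int.ofNat 558080, Int.ofNat 0, Int.ofNat 2560, Int.ofNat 133632, Int.ofNat 0, Int.ofNat 0],
  [Int.ofNat 106240, Int.ofNat 5312, Int.ofNat 1024, Int.ofNat 76800, Int.ofNat 3200, Int.ofNat 0, Int.negSucc 767, Int.ofNat 0, Int.ofNat 1021440, Int.ofNat 36480, Int.ofNat 36096, Int.ofNat 26624, Int.ofNat 0, Int.negSucc 255, Int.ofNat 565760, Int.ofNat 6912, Int.ofNat 5120, Int.ofNat 225792, Int.ofNat 0, Int.ofNat 44544],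
  [Int.ofNat 34240, Int.ofNat 0, Int.ofNat 1792, Int.ofNat 18560, Int.ofNat 0, Int.ofNat 0, Int.negSucc 703, Int.ofNat 0, Int.ofNat 282240, Int.ofNat 0, Int.ofNat 18624, Int.ofNat 7424, Int.ofNat 0, Int.negSucc 447, Int.ofNat 190080, Int.ofNat 10176, Int.ofNat 1920, Int.ofNat 113024, Int.ofNat 0, Int.ofNat 61312],
  [Int.ofNat 25600, Int.ofNat 2560, Int.ofNat 0, Int.ofNat 19200, Int.ofNat 1600, Int.ofNat 0, Int.ofNat 0, Int.ofNat 0, Int.ofNat 241920, Int.ofNat 17280, Int.ofNat 7680, Int.ofNat 7680, Int.ofNat 0, Int.ofNat 0, Int.ofNat 140800, Int.ofNat 0, Int.ofNat 1280, Int.ofNat 49920, Int.ofNat 0, Int.ofNat 0],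
  [Int.ofNat 44800, Int.ofNat 2240, Int.ofNat 0, Int.ofNat 30720, Int.ofNat 1280, Int.ofNat 0, Int.ofNat 0, Int.ofNat 0, Int.ofNat 394240, Int.ofNat 14080, Int.ofNat 19200, Int.ofNat 15360, Int.ofNat 0, Int.ofNat 0, Int.ofNat 268800, Int.ofNat 3840, Int.ofNat 5120, Int.ofNat 138240, Int.ofNat 0, Int.ofNat 33280],
  [Int.ofNat 20320, Int.ofNat 0, Int.ofNat 640, Int.ofNat 11680, Int.ofNat 0, Int.ofNat 0, Int.negSucc 159, Int.ofNat 0, Int.ofNat 161280, Int.ofNat 0, Int.ofNat 12640, Int.ofNat 6880, Int.ofNat 0, Int.negSucc 159, Int.ofNat 128960, Int.ofNat 7520, Int.ofNat 3360, Int.ofNat 92160, Int.ofNat 1120, Int.ofNat 58560],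
  [Int.ofNat 7680, Int.ofNat 384, Int.ofNat 0, Int.ofNat 4608, Int.ofNat 192, Int.ofNat 0, Int.ofNat 0, Int.ofNat 0, Int.ofNat 60928, Int.ofNat 2176, Int.ofNat 4608, Int.ofNat 3072, Int.ofNat 0, Int.ofNat 0, Int.ofNat 51200, Int.ofNat 1536, Int.ofNat 1536, Int.ofNat 35328, Int.ofNat 0, Int.ofNat 13312],
  [Int.ofNat 6528, Int.ofNat 0, Int.ofNat 0, Int.ofNat 3648, Int.ofNat 0, Int.ofNat 0, Int.ofNat 0, Int.ofNat 0, Int.ofNat 49280, Int.ofNat 0, Int.ofNat 4992, Int.ofNat 2880, Int.ofNat 0, Int.ofNat 0, Int.ofNat 47104, Int.ofNat 3456, Int.ofNat 2112, Int.ofNat 41856, Int.ofNat 1344, Int.ofNat 33536],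
  [Int.ofNat 896, Int.ofNat 0, Int.ofNat 0, Int.ofNat 448, Int.ofNat 0, Int.ofNat 0, Int.ofNat 0, Int.ofNat 0, Int.ofNat 6272, Int.ofNat 0, Int.ofNat 896, Int.ofNat 448, Int.ofNat 0, Int.ofNat 0, Int.ofNat 7168, Int.ofNat 896, Int.ofNat 448, Int.ofNat 8064, Int.ofNat 448, Int.ofNat 8960],
  [Int.ofNat 3072, Int.ofNat 768, Int.ofNat 0, Int.ofNat 6144, Int.ofNat 1280, Int.ofNat 0, Int.ofNat 0, Int.ofNat 0, Int.ofNat 64512, Int.ofNat 11520, Int.ofNat 0, Int.ofNat 0, Int.ofNat 0, Int.ofNat 0, Int.ofNat 9216, Int.ofNat 0, Int.ofNat 0, Int.ofNat 0, Int.ofNat 0, Int.ofNat 0],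
  [Int.ofNat 16640, Int.ofNat 3328, Int.ofNat 0, Int.ofNat 26880, Int.ofNat 4480, Int.ofNat 0, Int.ofNat 0, Int.ofNat 0, Int.ofNat 259840, Int.ofNat 37120, Int.ofNat 0, Int.ofNat 1280, Int.ofNat 0, Int.ofNat 0, Int.ofNat 49920, Int.ofNat 0, Int.ofNat 0, Int.ofNat 0, Int.ofNat 0, Int.ofNat 0],
  [Int.ofNat 33920, Int.ofNat 5088, Int.ofNat 0, Int.ofNat 44800, Int.ofNat 5600, Int.ofNat 0, Int.negSucc 63, Int.ofNat 0, Int.ofNat 423360, Int.ofNat 45360, Int.ofNat 1472, Int.ofNat 4352, Int.ofNat 0, Int.ofNat 0, Int.ofNat 112000, Int.ofNat 0, Int.ofNat 0, Int.ofNat 7488, Int.ofNat 0, Int.ofNat 0],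
  [Int.ofNat 33760, Int.ofNat 3376, Int.ofNat 0, Int.ofNat 35760, Int.ofNat 2980, Int.negSucc 15, Int.negSucc 335, Int.ofNat 0, Int.ofNat 347760, Int.ofNat 24840, Int.ofNat 4656, Int.ofNat 5280, Int.ofNat 0, Int.ofNat 0, Int.ofNat 124320, Int.ofNat 0, Int.ofNat 208, Int.ofNat 22416, Int.ofNat 0, Int.ofNat 0],
  [Int.ofNat 16680, Int.ofNat 834, Int.ofNat 216, Int.ofNat 13680, Int.ofNat 570, Int.negSucc 15, Int.negSucc 407, Int.ofNat 0, Int.ofNat 143640, Int.ofNat 5130, Int.ofNat 4776, Int.ofNat 2656, Int.ofNat 0, Int.negSucc 55, Int.ofNat 67320, Int.ofNat 776, Int.ofNat 208, Int.ofNat 22392, Int.ofNat 0, Int.ofNat 3736],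
  [Int.ofNat 3294, Int.ofNat 0, Int.ofNat 202, Int.ofNat 1998, Int.ofNat 0, Int.negSucc 5, Int.negSucc 141, Int.ofNat 6, Int.ofNat 23814, Int.ofNat 0, Int.ofNat 1602, Int.ofNat 450, Int.negSucc 9, Int.negSucc 49, Int.ofNat 14202, Int.ofNat 766, Int.ofNat 14, Int.ofNat 7398, Int.negSucc 61, Int.ofNat 3546],
  [Int.ofNat 17920, Int.ofNat 3584, Int.ofNat 0, Int.ofNat 23040, Int.ofNat 3840, Int.ofNat 0, Int.ofNat 0, Int.ofNat 0, Int.ofNat 197120, Int.ofNat 28160, Int.ofNat 0, Int.ofNat 2560, Int.ofNat 0, Int.ofNat 0, Int.ofNat 53760, Int.ofNat 0, Int.ofNat 0, Int.ofNat 0, Int.ofNat 0, Int.ofNat 0],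
  [Int.ofNat 69120, Int.ofNat 10368, Int.ofNat 0, Int.ofNat 76800, Int.ofNat 9600, Int.ofNat 0, Int.ofNat 256, Int.ofNat 0, Int.ofNat 636160, Int.ofNat 68160, Int.ofNat 4352, Int.ofNat 13312, Int.ofNat 0, Int.ofNat 0, Int.ofNat 217600, Int.ofNat 0, Int.ofNat 0, Int.ofNat 16128, Int.ofNat 0, Int.ofNat 0],
  [Int.ofNat 98240, Int.ofNat 9824, Int.ofNat 0, Int.ofNat 92640, Int.ofNat 7720, Int.ofNat 96, Int.ofNat 96, Int.ofNat 0, Int.ofNat 776160, Int.ofNat 55440, Int.ofNat 16224, Int.ofNat 22080, Int.ofNat 0, Int.ofNat 0, Int.ofNat 335680, Int.ofNat 0, Int.ofNat 1312, Int.ofNat 67104, Int.ofNat 0, Int.ofNat 0],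
  [Int.ofNat 61760, Int.ofNat 3088, Int.ofNat 832, Int.ofNat 48000, Int.ofNat 2000, Int.ofNat 128, Int.negSucc 575, Int.ofNat 0, Int.ofNat 423360, Int.ofNat 15120, Int.ofNat 19392, Int.ofNat 14592, Int.ofNat 0, Int.negSucc 191, Int.ofNat 229440, Int.ofNat 3392, Int.ofNat 2176, Int.ofNat 83904, Int.ofNat 0, Int.ofNat 14912],
  [Int.ofNat 14580, Int.ofNat 0, Int.ofNat 940, Int.ofNat 9000, Int.ofNat 0, Int.ofNat 40, Int.negSucc 379, Int.ofNat 0, Int.ofNat 86940, Int.ofNat 0, Int.ofNat 7460, Int.ofNat 3280, Int.ofNat 0, Int.negSucc 219, Int.ofNat 58140, Int.ofNat 3780, Int.ofNat 760, Int.ofNat 32940, Int.ofNat 0, Int.ofNat 16780],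
  [Int.ofNat 33280, Int.ofNat 4992, Int.ofNat 0, Int.ofNat 30720, Int.ofNat 3840, Int.ofNat 0, Int.ofNat 256, Int.ofNat 0, Int.ofNat 241920, Int.ofNat 25920, Int.ofNat 4352, Int.ofNat 8192, Int.ofNat 0, Int.ofNat 0, Int.ofNat 110080, Int.ofNat 0, Int.ofNat 0, Int.ofNat 16128, Int.ofNat 0, Int.ofNat 0],
  [Int.ofNat 90240, Int.ofNat 9024, Int.ofNat 0, Int.ofNat 74880, Int.ofNat 6240, Int.ofNat 384, Int.ofNat 960, Int.ofNat 0, Int.ofNat 584640, Int.ofNat 41760, Int.ofNat 20928, Int.ofNat 26112, Int.ofNat 0, Int.ofNat 0, Int.ofNat 316800, Int.ofNat 0, Int.ofNat 2688, Int.ofNat 85824, Int.ofNat 0, Int.ofNat 0],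
  [Int.ofNat 81600, Int.ofNat 4080, Int.ofNat 1088, Int.ofNat 59040, Int.ofNat 2460, Int.ofNat 672, Int.ofNat 480, Int.ofNat 0, Int.ofNat 473760, Int.ofNat 16920, Int.ofNat 30816, Int.ofNat 25536, Int.ofNat 0, Int.negSucc 127, Int.ofNat 307200, Int.ofNat 5888, Int.ofNat 5984, Int.ofNat 135648, Int.ofNat 0, Int.ofNat 28608],
  [Int.ofNat 24720, Int.ofNat 0, Int.ofNat 1616, Int.ofNat 15060, Int.ofNat 0, Int.ofNat 284, Int.negSucc 167, Int.negSucc 35, Int.ofNat 128520, Int.ofNat 0, Int.ofNat 14136, Int.ofNat 7764, Int.ofNat 92, Int.negSucc 287, Int.ofNat 99360, Int.ofNat 7744, Int.ofNat 2948, Int.ofNat 64632, Int.ofNat 804, Int.ofNat 37296],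
  [Int.ofNat 26880, Int.ofNat 2688, Int.ofNat 0, Int.ofNat 19200, Int.ofNat 1600, Int.ofNat 256, Int.ofNat 384, Int.ofNat 0, Int.ofNat 147840, Int.ofNat 10560, Int.ofNat 9600, Int.ofNat 9216, Int.ofNat 0, Int.ofNat 0, Int.ofNat 101120, Int.ofNat 0, Int.ofNat 1792, Int.ofNat 41088, Int.ofNat 0, Int.ofNat 0],
  [Int.ofNat 46720, Int.ofNat 2336, Int.ofNat 512, Int.ofNat 30720, Int.ofNat 1280, Int.ofNat 768, Int.ofNat 768, Int.ofNat 0, Int.ofNat 237440, Int.ofNat 8480, Int.ofNat 23040, Int.ofNat 17920, Int.ofNat 0, Int.ofNat 128, Int.ofNat 186880, Int.ofNat 4992, Int.ofNat 6656, Int.ofNat 107136, Int.ofNat 0, Int.ofNat 27392],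
  [Int.ofNat 20480, Int.ofNat 0, Int.ofNat 1184, Int.ofNat 11960, Int.ofNat 0, Int.ofNat 456, Int.ofNat 208, Int.negSucc 23, Int.ofNat 95760, Int.ofNat 0, Int.ofNat 13904, Int.ofNat 8216, Int.ofNat 168, Int.negSucc 31, Int.ofNat 87040, Int.ofNat 8416, Int.ofNat 4632, Int.ofNat 68208, Int.ofNat 1976, Int.ofNat 45984],
  [Int.ofNat 9920, Int.ofNat 496, Int.ofNat 256, Int.ofNat 5760, Int.ofNat 240, Int.ofNat 256, Int.ofNat 192, Int.ofNat 0, Int.ofNat 44800, Int.ofNat 1600, Int.ofNat 6720, Int.ofNat 4352, Int.ofNat 0, Int.ofNat 64, Int.ofNat 42880, Int.ofNat 2496, Int.ofNat 2432, Int.ofNat 33024, Int.ofNat 0, Int.ofNat 13696],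
  [Int.ofNat 8400, Int.ofNat 0, Int.ofNat 448, Int.ofNat 4560, Int.ofNat 0, Int.ofNat 288, Int.ofNat 176, Int.ofNat 0, Int.ofNat 35840, Int.ofNat 0, Int.ofNat 7120, Int.ofNat 4016, Int.ofNat 160, Int.ofNat 112, Int.ofNat 38560, Int.ofNat 5328, Int.ofNat 3216, Int.ofNat 37632, Int.ofNat 2160, Int.ofNat 32288],
  [Int.ofNat 1376, Int.ofNat 0, Int.ofNat 128, Int.ofNat 672, Int.ofNat 0, Int.ofNat 64, Int.ofNat 32, Int.ofNat 0, Int.ofNat 5376, Int.ofNat 0, Int.ofNat 1504, Int.ofNat 736, Int.ofNat 64, Int.ofNat 32, Int.ofNat 6848, Int.ofNat 1632, Int.ofNat 800, Int.ofNat 8448, Int.ofNat 864, Int.ofNat 10176],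
  [Int.ofNat 3840, Int.ofNat 768, Int.ofNat 0, Int.ofNat 3840, Int.ofNat 640, Int.ofNat 0, Int.ofNat 0, Int.ofNat 0, Int.ofNat 26880, Int.ofNat 3840, Int.ofNat 0, Int.ofNat 768, Int.ofNat 0, Int.ofNat 0, Int.ofNat 11520, Int.ofNat 0, Int.ofNat 0, Int.ofNat 0, Int.ofNat 0, Int.ofNat 0],
  [Int.ofNat 14080, Int.ofNat 2112, Int.ofNat 0, Int.ofNat 12800, Int.ofNat 1600, Int.ofNat 0, Int.ofNat 128, Int.ofNat 0, Int.ofNat 85120, Int.ofNat 9120, Int.ofNat 1152, Int.ofNat 3584, Int.ofNat 0, Int.ofNat 0, Int.ofNat 42240, Int.ofNat 0, Int.ofNat 0, Int.ofNat 3456, Int.ofNat 0, Int.ofNat 0],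
  [Int.ofNat 19040, Int.ofNat 1904, Int.ofNat 0, Int.ofNat 15600, Int.ofNat 1300, Int.ofNat 48, Int.ofNat 240, Int.ofNat 0, Int.ofNat 101808, Int.ofNat 7272, Int.ofNat 3696, Int.ofNat 5664, Int.ofNat 0, Int.ofNat 0, Int.ofNat 59680, Int.ofNat 0, Int.ofNat 400, Int.ofNat 13392, Int.ofNat 0, Int.ofNat 0],
  [Int.ofNat 11360, Int.ofNat 568, Int.ofNat 160, Int.ofNat 8256, Int.ofNat 344, Int.ofNat 64, Int.ofNat 96, Int.ofNat 0, Int.ofNat 54432, Int.ofNat 1944, Int.ofNat 3936, Int.ofNat 3712, Int.ofNat 0, Int.negSucc 31, Int.ofNat 37920, Int.ofNat 736, Int.ofNat 704, Int.ofNat 15648, Int.ofNat 0, Int.ofNat 2976],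
  [Int.ofNat 2538, Int.ofNat 0, Int.ofNat 174, Int.ofNat 1602, Int.ofNat 0, Int.ofNat 22, Int.negSucc 9, Int.negSucc 5, Int.ofNat 10962, Int.ofNat 0, Int.ofNat 1382, Int.ofNat 862, Int.ofNat 10, Int.negSucc 37, Int.ofNat 9054, Int.ofNat 746, Int.ofNat 290, Int.ofNat 5778, Int.ofNat 62, Int.ofNat 3166],
  [Int.ofNat 12800, Int.ofNat 1920, Int.ofNat 0, Int.ofNat 10240, Int.ofNat 1280, Int.ofNat 0, Int.ofNat 256, Int.ofNat 0, Int.ofNat 62720, Int.ofNat 6720, Int.ofNat 2304, Int.ofNat 4096, Int.ofNat 0, Int.ofNat 0, Int.ofNat 38400, Int.ofNat 0, Int.ofNat 0, Int.ofNat 6912, Int.ofNat 0, Int.ofNat 0],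
  [Int.ofNat 33920, Int.ofNat 3392, Int.ofNat 0, Int.ofNat 24960, Int.ofNat 2080, Int.ofNat 384, Int.ofNat 960, Int.ofNat 0, Int.ofNat 149184, Int.ofNat 10656, Int.ofNat 10176, Int.ofNat 12288, Int.ofNat 0, Int.ofNat 0, Int.ofNat 104320, Int.ofNat 0, Int.ofNat 1408, Int.ofNat 32832, Int.ofNat 0, Int.ofNat 0],
  [Int.ofNat 29760, Int.ofNat 1488, Int.ofNat 576, Int.ofNat 19872, Int.ofNat 828, Int.ofNat 672, Int.ofNat 864, Int.ofNat 0, Int.ofNat 118944, Int.ofNat 4248, Int.ofNat 13536, Int.ofNat 11712, Int.ofNat 0, Int.ofNat 0, Int.ofNat 96000, Int.ofNat 2688, Int.ofNat 3168, Int.ofNat 48096, Int.ofNat 0, Int.ofNat 10944],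
  [Int.ofNat 8688, Int.ofNat 0, Int.ofNat 720, Int.ofNat 5172, Int.ofNat 0, Int.ofNat 284, Int.ofNat 184, Int.negSucc 35, Int.ofNat 31752, Int.ofNat 0, Int.ofNat 5656, Int.ofNat 3572, Int.ofNat 92, Int.negSucc 63, Int.ofNat 29664, Int.ofNat 3232, Int.ofNat 1636, Int.ofNat 21624, Int.ofNat 580, Int.ofNat 13424],
  [Int.ofNat 14720, Int.ofNat 1472, Int.ofNat 0, Int.ofNat 9600, Int.ofNat 800, Int.ofNat 384, Int.ofNat 576, Int.ofNat 0, Int.ofNat 55104, Int.ofNat 3936, Int.ofNat 6720, Int.ofNat 6144, Int.ofNat 0, Int.ofNat 0, Int.ofNat 46720, Int.ofNat 0, Int.ofNat 1408, Int.ofNat 22464, Int.ofNat 0, Int.ofNat 0],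
  [Int.ofNat 25280, Int.ofNat 1264, Int.ofNat 768, Int.ofNat 15360, Int.ofNat 640, Int.ofNat 1152, Int.ofNat 1152, Int.ofNat 0, Int.ofNat 87360, Int.ofNat 3120, Int.ofNat 15360, Int.ofNat 11520, Int.ofNat 0, Int.ofNat 192, Int.ofNat 83200, Int.ofNat 3648, Int.ofNat 4864, Int.ofNat 54720, Int.ofNat 0, Int.ofNat 14976],
  [Int.ofNat 10848, Int.ofNat 0, Int.ofNat 1136, Int.ofNat 6036, Int.ofNat 0, Int.ofNat 684, Int.ofNat 472, Int.negSucc 35, Int.ofNat 34776, Int.ofNat 0, Int.ofNat 8664, Int.ofNat 5220, Int.ofNat 252, Int.ofNat 112, Int.ofNat 37440, Int.ofNat 5552, Int.ofNat 3364, Int.ofNat 33000, Int.ofNat 1620, Int.ofNat 23856],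
  [Int.ofNat 7040, Int.ofNat 352, Int.ofNat 512, Int.ofNat 3840, Int.ofNat 160, Int.ofNat 512, Int.ofNat 384, Int.ofNat 0, Int.ofNat 21504, Int.ofNat 768, Int.ofNat 5760, Int.ofNat 3584, Int.ofNat 0, Int.ofNat 128, Int.ofNat 24320, Int.ofNat 2432, Int.ofNat 2304, Int.ofNat 21504, Int.ofNat 0, Int.ofNat 9984],
  [Int.ofNat 5920, Int.ofNat 0, Int.ofNat 896, Int.ofNat 3040, Int.ofNat 0, Int.ofNat 576, Int.ofNat 352, Int.ofNat 0, Int.ofNat 17024, Int.ofNat 0, Int.ofNat 5920, Int.ofNat 3232, Int.ofNat 320, Int.ofNat 224, Int.ofNat 21312, Int.ofNat 4896, Int.ofNat 2912, Int.ofNat 23424, Int.ofNat 2080, Int.ofNat 21824],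
  [Int.ofNat 1200, Int.ofNat 0, Int.ofNat 320, Int.ofNat 560, Int.ofNat 0, Int.ofNat 160, Int.ofNat 80, Int.ofNat 0, Int.ofNat 3136, Int.ofNat 0, Int.ofNat 1520, Int.ofNat 720, Int.ofNat 160, Int.ofNat 80, Int.ofNat 4576, Int.ofNat 1840, Int.ofNat 880, Int.ofNat 6336, Int.ofNat 1040, Int.ofNat 8416],
  [Int.ofNat 1920, Int.ofNat 288, Int.ofNat 0, Int.ofNat 1280, Int.ofNat 160, Int.ofNat 0, Int.ofNat 64, Int.ofNat 0, Int.ofNat 6720, Int.ofNat 720, Int.ofNat 576, Int.ofNat 768, Int.ofNat 0, Int.ofNat 0, Int.ofNat 5760, Int.ofNat 0, Int.ofNat 0, Int.ofNat 1728, Int.ofNat 0, Int.ofNat 0],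
  [Int.ofNat 4960, Int.ofNat 496, Int.ofNat 0, Int.ofNat 3120, Int.ofNat 260, Int.ofNat 112, Int.ofNat 240, Int.ofNat 0, Int.ofNat 15792, Int.ofNat 1128, Int.ofNat 2160, Int.ofNat 2208, Int.ofNat 0, Int.ofNat 0, Int.ofNat 14880, Int.ofNat 0, Int.ofNat 336, Int.ofNat 6480, Int.ofNat 0, Int.ofNat 0],
  [Int.ofNat 4240, Int.ofNat 212, Int.ofNat 112, Int.ofNat 2496, Int.ofNat 104, Int.ofNat 192, Int.ofNat 240, Int.ofNat 0, Int.ofNat 12432, Int.ofNat 444, Int.ofNat 2544, Int.ofNat 2048, Int.ofNat 0, Int.ofNat 16, Int.ofNat 13040, Int.ofNat 528, Int.ofNat 704, Int.ofNat 8208, Int.ofNat 0, Int.ofNat 2160],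
  [Int.ofNat 1204, Int.ofNat 0, Int.ofNat 124, Int.ofNat 656, Int.ofNat 0, Int.ofNat 80, Int.ofNat 68, Int.negSucc 7, Int.ofNat 3276, Int.ofNat 0, Int.ofNat 964, Int.ofNat 616, Int.ofNat 24, Int.ofNat 4, Int.ofNat 3852, Int.ofNat 580, Int.ofNat 352, Int.ofNat 3356, Int.ofNat 152, Int.ofNat 2364],
  [Int.ofNat 4160, Int.ofNat 416, Int.ofNat 0, Int.ofNat 2400, Int.ofNat 200, Int.ofNat 224, Int.ofNat 288, Int.ofNat 0, Int.ofNat 11424, Int.ofNat 816, Int.ofNat 2592, Int.ofNat 2112, Int.ofNat 0, Int.ofNat 0, Int.ofNat 12480, Int.ofNat 0, Int.ofNat 672, Int.ofNat 7776, Int.ofNat 0, Int.ofNat 0],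
  [Int.ofNat 7040, Int.ofNat 352, Int.ofNat 448, Int.ofNat 3840, Int.ofNat 160, Int.ofNat 640, Int.ofNat 576, Int.ofNat 0, Int.ofNat 17920, Int.ofNat 640, Int.ofNat 5568, Int.ofNat 3840, Int.ofNat 0, Int.ofNat 128, Int.ofNat 21440, Int.ofNat 1536, Int.ofNat 2048, Int.ofNat 17280, Int.ofNat 0, Int.ofNat 5184],
  [Int.ofNat 2968, Int.ofNat 0, Int.ofNat 536, Int.ofNat 1516, Int.ofNat 0, Int.ofNat 372, Int.ofNat 256, Int.negSucc 11, Int.ofNat 7056, Int.ofNat 0, Int.ofNat 2944, Int.ofNat 1708, Int.ofNat 148, Int.ofNat 104, Int.ofNat 9320, Int.ofNat 2088, Int.ofNat 1340, Int.ofNat 9696, Int.ofNat 732, Int.ofNat 7704],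
  [Int.ofNat 2880, Int.ofNat 144, Int.ofNat 448, Int.ofNat 1440, Int.ofNat 60, Int.ofNat 416, Int.ofNat 288, Int.ofNat 0, Int.ofNat 6496, Int.ofNat 232, Int.ofNat 2976, Int.ofNat 1728, Int.ofNat 0, Int.ofNat 128, Int.ofNat 8960, Int.ofNat 1536, Int.ofNat 1376, Int.ofNat 9504, Int.ofNat 0, Int.ofNat 5184],
  [Int.ofNat 2400, Int.ofNat 0, Int.ofNat 752, Int.ofNat 1140, Int.ofNat 0, Int.ofNat 460, Int.ofNat 264, Int.ofNat 12, Int.ofNat 5096, Int.ofNat 0, Int.ofNat 2952, Int.ofNat 1524, Int.ofNat 300, Int.ofNat 208, Int.ofNat 7648, Int.ofNat 2832, Int.ofNat 1636, Int.ofNat 9816, Int.ofNat 1284, Int.ofNat 10224],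
  [Int.ofNat 640, Int.ofNat 0, Int.ofNat 352, Int.ofNat 280, Int.ofNat 0, Int.ofNat 168, Int.ofNat 80, Int.ofNat 8, Int.ofNat 1232, Int.ofNat 0, Int.ofNat 976, Int.ofNat 440, Int.ofNat 200, Int.ofNat 96, Int.ofNat 2112, Int.ofNat 1376, Int.ofNat 632, Int.ofNat 3376, Int.ofNat 856, Int.ofNat 5088],
  [Int.ofNat 480, Int.ofNat 48, Int.ofNat 0, Int.ofNat 240, Int.ofNat 20, Int.ofNat 48, Int.ofNat 48, Int.ofNat 0, Int.ofNat 1008, Int.ofNat 72, Int.ofNat 432, Int.ofNat 288, Int.ofNat 0, Int.ofNat 0, Int.ofNat 1440, Int.ofNat 0, Int.ofNat 144, Int.ofNat 1296, Int.ofNat 0, Int.ofNat 0],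
  [Int.ofNat 800, Int.ofNat 40, Int.ofNat 96, Int.ofNat 384, Int.ofNat 16, Int.ofNat 128, Int.ofNat 96, Int.ofNat 0, Int.ofNat 1568, Int.ofNat 56, Int.ofNat 864, Int.ofNat 512, Int.ofNat 0, Int.ofNat 32, Int.ofNat 2400, Int.ofNat 288, Int.ofNat 384, Int.ofNat 2592, Int.ofNat 0, Int.ofNat 864],
  [Int.ofNat 332, Int.ofNat 0, Int.ofNat 100, Int.ofNat 152, Int.ofNat 0, Int.ofNat 72, Int.ofNat 44, Int.ofNat 0, Int.ofNat 612, Int.ofNat 0, Int.ofNat 428, Int.ofNat 224, Int.ofNat 32, Int.ofNat 28, Int.ofNat 1012, Int.ofNat 348, Int.ofNat 232, Int.ofNat 1332, Int.ofNat 144, Int.ofNat 1188],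
  [Int.ofNat 640, Int.ofNat 32, Int.ofNat 192, Int.ofNat 288, Int.ofNat 12, Int.ofNat 160, Int.ofNat 96, Int.ofNat 0, Int.ofNat 1120, Int.ofNat 40, Int.ofNat 864, Int.ofNat 448, Int.ofNat 0, Int.ofNat 64, Int.ofNat 1920, Int.ofNat 576, Int.ofNat 480, Int.ofNat 2592, Int.ofNat 0, Int.ofNat 1728],
  [Int.ofNat 528, Int.ofNat 0, Int.ofNat 304, Int.ofNat 228, Int.ofNat 0, Int.ofNat 172, Int.ofNat 88, Int.ofNat 12, Int.ofNat 872, Int.ofNat 0, Int.ofNat 824, Int.ofNat 388, Int.ofNat 140, Int.ofNat 96, Int.ofNat 1600, Int.ofNat 960, Int.ofNat 532, Int.ofNat 2520, Int.ofNat 468, Int.ofNat 3024],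
  [Int.ofNat 208, Int.ofNat 0, Int.ofNat 208, Int.ofNat 84, Int.ofNat 0, Int.ofNat 92, Int.ofNat 40, Int.ofNat 12, Int.ofNat 312, Int.ofNat 0, Int.ofNat 392, Int.ofNat 164, Int.ofNat 140, Int.ofNat 64, Int.ofNat 640, Int.ofNat 672, Int.ofNat 292, Int.ofNat 1224, Int.ofNat 468, Int.ofNat 2160],
  [Int.ofNat 60, Int.ofNat 3, Int.ofNat 36, Int.ofNat 24, Int.ofNat 1, Int.ofNat 24, Int.ofNat 12, Int.ofNat 0, Int.ofNat 84, Int.ofNat 3, Int.ofNat 108, Int.ofNat 48, Int.ofNat 0, Int.ofNat 12, Int.ofNat 180, Int.ofNat 108, Int.ofNat 72, Int.ofNat 324, Int.ofNat 0, Int.ofNat 324],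
  [Int.ofNat 49, Int.ofNat 0, Int.ofNat 51, Int.ofNat 19, Int.ofNat 0, Int.ofNat 25, Int.ofNat 11, Int.ofNat 3, Int.ofNat 65, Int.ofNat 0, Int.ofNat 99, Int.ofNat 41, Int.ofNat 27, Int.ofNat 17, Int.ofNat 147, Int.ofNat 153, Int.ofNat 75, Int.ofNat 297, Int.ofNat 81, Int.ofNat 459],
  [Int.ofNat 38, Int.ofNat 0, Int.ofNat 66, Int.ofNat 14, Int.ofNat 0, Int.ofNat 26, Int.ofNat 10, Int.ofNat 6, Int.ofNat 46, Int.ofNat 0, Int.ofNat 90, Int.ofNat 34, Int.ofNat 54, Int.ofNat 22, Int.ofNat 114, Int.ofNat 198, Int.ofNat 78, Int.ofNat 270, Int.ofNat 162, Int.ofNat 594],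
  [Int.ofNat 3, Int.ofNat 0, Int.ofNat 9, Int.ofNat 1, Int.ofNat 0, Int.ofNat 3, Int.ofNat 1, Int.ofNat 1, Int.ofNat 3, Int.ofNat 0, Int.ofNat 9, Int.ofNat 3, Int.ofNat 9, Int.ofNat 3, Int.ofNat 9, Int.ofNat 27, Int.ofNat 9, Int.ofNat 27, Int.ofNat 27, Int.ofNat 81]]

set_option maxRecDepth 100000 in
def c2TG : List (List Int) := [
  [Int.ofNat 0, Int.ofNat 0, Int.ofNat 0, Int.ofNat 0, Int.ofNat 0, Int.ofNat 0, Int.ofNat 0, Int.ofNat 0, Int.ofNat 0, Int.ofNat 0, Int.ofNat 0, Int.ofNat 0, Int.ofNat 0, Int.ofNat 0, Int.ofNat 0, Int.ofNat 0, Int.ofNat 0, Int.ofNat 0, Int.ofNat 0, Int.ofNat 0],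
  [Int.ofNat 0, Int.ofNat 0, Int.ofNat 0, Int.ofNat 0, Int.ofNat 0, Int.ofNat 0, Int.ofNat 0, Int.ofNat 0, Int.ofNat 0, Int.ofNat 0, Int.ofNat 0, Int.ofNat 0, Int.ofNat 0, Int.ofNat 0, Int.ofNat 0, Int.ofNat 0, Int.ofNat 0, Int.ofNat 0, Int.ofNat 0, Int.ofNat 0],
  [Int.ofNat 29727129600, Int.negSucc 11147673599, Int.ofNat 5662310400, Int.ofNat 0, Int.ofNat 0, Int.negSucc 84777369599, Int.ofNat 171756748800, Int.negSucc 13212057599, Int.ofNat 0, Int.ofNat 0, Int.ofNat 42939187200, Int.negSucc 111476735999, Int.negSucc 9909043199, Int.ofNat 90596966400, Int.ofNat 4561256448, Int.ofNat 8493465600, Int.negSucc 63583027199, Int.ofNat 3578265600, Int.negSucc 2477260799, Int.ofNat 353894400],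
  [Int.ofNat 161641267200, Int.negSucc 50164531199, Int.ofNat 29727129600, Int.ofNat 8360755200, Int.negSucc 33443020799, Int.negSucc 445081190399, Int.ofNat 901722931200, Int.negSucc 69363302399, Int.ofNat 0, Int.ofNat 0, Int.ofNat 225430732800, Int.negSucc 587343052799, Int.negSucc 52022476799, Int.ofNat 475634073600, Int.ofNat 23946596352, Int.ofNat 44590694400, Int.negSucc 333810892799, Int.ofNat 18785894400, Int.negSucc 13005619199, Int.ofNat 1857945600],
  [Int.ofNat 376930713600, Int.negSucc 94058495999, Int.ofNat 66886041600, Int.ofNat 29262643200, Int.negSucc 125411327999, Int.negSucc 1001432678399, Int.ofNat 2028876595200, Int.negSucc 156067430399, Int.ofNat 4412620800, Int.negSucc 2786918399, Int.ofNat 506940456960, Int.negSucc 1323786239999, Int.negSucc 117050572799, Int.ofNat 1070176665600, Int.ofNat 53879841792, Int.ofNat 100329062400, Int.negSucc 751074508799, Int.ofNat 42198589440, Int.negSucc 29262643199, Int.ofNat 4180377600],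
  [Int.ofNat 487884902400, Int.negSucc 94058495999, Int.ofNat 83607552000, Int.ofNat 37623398400, Int.negSucc 188116991999, Int.negSucc 1251790847999, Int.ofNat 2537767895040, Int.negSucc 195084287999, Int.ofNat 20030976000, Int.negSucc 8360755199, Int.ofNat 633257533440, Int.negSucc 1654210252799, Int.negSucc 146313215999, Int.ofNat 1337720832000, Int.ofNat 67175619840, Int.ofNat 125411328000, Int.negSucc 938930227199, Int.ofNat 52574054400, Int.negSucc 36578303999, Int.ofNat 5225472000],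
  [Int.ofNat 377932262400, Int.negSucc 52907903999, Int.ofNat 62705664000, Int.ofNat 18811699200, Int.negSucc 141087743999, Int.negSucc 938721208319, Int.ofNat 1907297280000, Int.negSucc 146313215999, Int.ofNat 36977203200, Int.negSucc 9405849599, Int.ofNat 474821222400, Int.negSucc 1237957862399, Int.negSucc 109734911999, Int.ofNat 1003290624000, Int.ofNat 49957145280, Int.ofNat 94058496000, Int.negSucc 704345725439, Int.ofNat 39234585600, Int.negSucc 27433727999, Int.ofNat 3919104000],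
  [Int.ofNat 174890016000, Int.negSucc 15872371199, Int.ofNat 28217548800, Int.negSucc 881798399, Int.negSucc 52907903999, Int.negSucc 422189832959, Int.ofNat 861837096960, Int.negSucc 65840947199, Int.ofNat 34748044800, Int.negSucc 4702924799, Int.ofNat 213774059520, Int.negSucc 555198235199, Int.negSucc 49380710399, Int.ofNat 451480780800, Int.ofNat 22069209456, Int.ofNat 42326323200, Int.negSucc 317039728319, Int.ofNat 17533635840, Int.negSucc 12345177599, Int.ofNat 1763596800],
  [Int.ofNat 44677785600, Int.negSucc 1984046399, Int.ofNat 7054387200, Int.negSucc 3968092799, Int.negSucc 7936185599, Int.negSucc 105406479359, Int.ofNat 216804833280, Int.negSucc 16460236799, Int.ofNat 16638926400, Int.negSucc 881798399, Int.ofNat 53495769600, Int.negSucc 138344371199, Int.negSucc 12345177599, Int.ofNat 112870195200, Int.ofNat 5333594364, Int.ofNat 10581580800, Int.negSucc 79283473919, Int.ofNat 4340407680, Int.negSucc 3086294399, Int.ofNat 440899200],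
  [Int.ofNat 4849891200, Int.ofNat 0, Int.ofNat 755827200, Int.negSucc 992023199, Int.ofNat 0, Int.negSucc 11270689919, Int.ofNat 23397050880, Int.negSucc 1763596799, Int.ofNat 3249274800, Int.ofNat 0, Int.ofNat 5731689600, Int.negSucc 14806864799, Int.negSucc 1322697599, Int.ofNat 12093235200, Int.ofNat 539963739, Int.ofNat 1133740800, Int.negSucc 8502006239, Int.ofNat 458045280, Int.negSucc 330674399, Int.ofNat 47239200],
  [Int.ofNat 0, Int.ofNat 0, Int.ofNat 0, Int.ofNat 0, Int.ofNat 0, Int.ofNat 0, Int.ofNat 0, Int.ofNat 0, Int.ofNat 0, Int.ofNat 0, Int.ofNat 0, Int.ofNat 0, Int.ofNat 0, Int.ofNat 0, Int.ofNat 0, Int.ofNat 0, Int.ofNat 0, Int.ofNat 0, Int.ofNat 0, Int.ofNat 0],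
  [Int.ofNat 39636172800, Int.negSucc 14863564799, Int.ofNat 7549747200, Int.ofNat 0, Int.ofNat 0, Int.negSucc 113036492799, Int.ofNat 229008998400, Int.negSucc 17616076799, Int.ofNat 0, Int.ofNat 0, Int.ofNat 57252249600, Int.negSucc 148635647999, Int.negSucc 13212057599, Int.ofNat 120795955200, Int.ofNat 6081675264, Int.ofNat 11324620800, Int.negSucc 84777369599, Int.ofNat 4771020800, Int.negSucc 3303014399, Int.ofNat 471859200],
  [Int.ofNat 323282534400, Int.negSucc 100329062399, Int.ofNat 59454259200, Int.ofNat 16721510400, Int.negSucc 66886041599, Int.negSucc 890162380799, Int.ofNat 1803445862400, Int.negSucc 138726604799, Int.ofNat 0, Int.ofNat 0, Int.ofNat 450861465600, Int.negSucc 1174686105599, Int.negSucc 104044953599, Int.ofNat 951268147200, Int.ofNat 47893192704, Int.ofNat 89181388800, Int.negSucc 667621785599, Int.ofNat 37571788800, Int.negSucc 26011238399, Int.ofNat 3715891200],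
  [Int.ofNat 1005148569600, Int.negSucc 250822655999, Int.ofNat 178362777600, Int.ofNat 78033715200, Int.negSucc 334430207999, Int.negSucc 2670487142399, Int.ofNat 5410337587200, Int.negSucc 416179814399, Int.ofNat 11766988800, Int.negSucc 7431782399, Int.ofNat 1351841218560, Int.negSucc 3530096639999, Int.negSucc 312134860799, Int.ofNat 2853804441600, Int.ofNat 143679578112, Int.ofNat 267544166400, Int.negSucc 2002865356799, Int.ofNat 112529571840, Int.negSucc 78033715199, Int.ofNat 11147673600],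
  [Int.ofNat 1626283008000, Int.negSucc 313528319999, Int.ofNat 278691840000, Int.ofNat 125411328000, Int.negSucc 627056639999, Int.negSucc 4172636159999, Int.ofNat 8459226316800, Int.negSucc 650280959999, Int.ofNat 66769920000, Int.negSucc 27869183999, Int.ofNat 2110858444800, Int.negSucc 5514034175999, Int.negSucc 487710719999, Int.ofNat 4459069440000, Int.ofNat 223918732800, Int.ofNat 418037760000, Int.negSucc 3129767423999, Int.ofNat 175246848000, Int.negSucc 121927679999, Int.ofNat 17418240000],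
  [Int.ofNat 1511729049600, Int.negSucc 211631615999, Int.ofNat 250822656000, Int.ofNat 75246796800, Int.negSucc 564350975999, Int.negSucc 3754884833279, Int.ofNat 7629189120000, Int.negSucc 585252863999, Int.ofNat 147908812800, Int.negSucc 37623398399, Int.ofNat 1899284889600, Int.negSucc 4951831449599, Int.negSucc 438939647999, Int.ofNat 4013162496000, Int.ofNat 199828581120, Int.ofNat 376233984000, Int.negSucc 2817382901759, Int.ofNat 156938342400, Int.negSucc 109734911999, Int.ofNat 15676416000],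
  [Int.ofNat 816153408000, Int.negSucc 74071065599, Int.ofNat 131681894400, Int.negSucc 4115059199, Int.negSucc 246903551999, Int.negSucc 1970219220479, Int.ofNat 4021906452480, Int.negSucc 307257753599, Int.ofNat 162157542400, Int.negSucc 21946982399, Int.ofNat 997612277760, Int.negSucc 2590925097599, Int.negSucc 230443315199, Int.ofNat 2106910310400, Int.ofNat 102989644128, Int.ofNat 197522841600, Int.negSucc 1479518732159, Int.ofNat 81823633920, Int.negSucc 57610828799, Int.ofNat 8230118400],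
  [Int.ofNat 238281523200, Int.negSucc 10581580799, Int.ofNat 37623398400, Int.negSucc 21163161599, Int.negSucc 42326323199, Int.negSucc 562167889919, Int.ofNat 1156292444160, Int.negSucc 87787929599, Int.ofNat 88740940800, Int.negSucc 4702924799, Int.ofNat 285310771200, Int.negSucc 737836646399, Int.negSucc 65840947199, Int.ofNat 601974374400, Int.ofNat 28445836608, Int.ofNat 56435097600, Int.negSucc 422845194239, Int.ofNat 23148840960, Int.negSucc 16460236799, Int.ofNat 2351462400],
  [Int.ofNat 29099347200, Int.ofNat 0, Int.ofNat 4534963200, Int.negSucc 5952139199, Int.ofNat 0, Int.negSucc 67624139519, Int.ofNat 140382305280, Int.negSucc 10581580799, Int.ofNat 19495648800, Int.ofNat 0, Int.ofNat 34390137600, Int.negSucc 88841188799, Int.negSucc 7936185599, Int.ofNat 72559411200, Int.ofNat 3239782434, Int.ofNat 6802444800, Int.negSucc 51012037439, Int.ofNat 2748271680, Int.negSucc 1984046399, Int.ofNat 283435200],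
  [Int.ofNat 39636172800, Int.negSucc 14863564799, Int.ofNat 7549747200, Int.ofNat 0, Int.ofNat 0, Int.negSucc 113036492799, Int.ofNat 229008998400, Int.negSucc 17616076799, Int.ofNat 0, Int.ofNat 0, Int.ofNat 57252249600, Int.negSucc 148635647999, Int.negSucc 13212057599, Int.ofNat 120795955200, Int.ofNat 6081675264, Int.ofNat 11324620800, Int.negSucc 84777369599, Int.ofNat 4771020800, Int.negSucc 3303014399, Int.ofNat 471859200],
  [Int.ofNat 346816512000, Int.negSucc 111476735999, Int.ofNat 66060288000, Int.ofNat 0, Int.ofNat 0, Int.negSucc 989069311999, Int.ofNat 2003828736000, Int.negSucc 154140671999, Int.ofNat 0, Int.ofNat 0, Int.ofNat 500957184000, Int.negSucc 1300561919999, Int.negSucc 115605503999, Int.ofNat 1056964608000, Int.ofNat 53214658560, Int.ofNat 99090432000, Int.negSucc 741801983999, Int.ofNat 41746432000, Int.negSucc 28901375999, Int.ofNat 4128768000],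
  [Int.ofNat 1278266572800, Int.negSucc 334430207999, Int.ofNat 237817036800, Int.ofNat 27869184000, Int.negSucc 167215103999, Int.negSucc 3560649523199, Int.ofNat 7213783449600, Int.negSucc 554906419199, Int.ofNat 13005619200, Int.negSucc 7431782399, Int.ofNat 1803445862400, Int.negSucc 4686203289599, Int.negSucc 416179814399, Int.ofNat 3805072588800, Int.ofNat 193430716416, Int.ofNat 356725555200, Int.negSucc 2670487142399, Int.ofNat 149729771520, Int.negSucc 104044953599, Int.ofNat 14863564800],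
  [Int.ofNat 2475248025600, Int.negSucc 501645311999, Int.ofNat 445906944000, Int.ofNat 73853337600, Int.negSucc 585252863999, Int.negSucc 6676217855999, Int.ofNat 13532532572160, Int.negSucc 1040449535999, Int.ofNat 92123136000, Int.negSucc 37158911999, Int.ofNat 3380717813760, Int.negSucc 8784831283199, Int.negSucc 780337151999, Int.ofNat 7134511104000, Int.ofNat 365469511680, Int.ofNat 668860416000, Int.negSucc 5007511756799, Int.ofNat 279233740800, Int.negSucc 195084287999, Int.ofNat 27869184000],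
  [Int.ofNat 2719277568000, Int.negSucc 399748607999, Int.ofNat 473776128000, Int.ofNat 33443020800, Int.negSucc 752467967999, Int.negSucc 7093133107199, Int.ofNat 14401865318400, Int.negSucc 1105477631999, Int.ofNat 249209856000, Int.negSucc 62705663999, Int.ofNat 3591873331200, Int.negSucc 9316610150399, Int.negSucc 829108223999, Int.ofNat 7580418048000, Int.ofNat 388427477760, Int.ofNat 710664192000, Int.negSucc 5321243289599, Int.ofNat 294790164480, Int.negSucc 207277055999, Int.ofNat 29611008000],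
  [Int.ofNat 1706769792000, Int.negSucc 162250905599, Int.ofNat 288446054400, Int.negSucc 58786559999, Int.negSucc 423263231999, Int.negSucc 4317279160319, Int.ofNat 8798301388800, Int.negSucc 673040793599, Int.ofNat 325098547200, Int.negSucc 43893964799, Int.ofNat 2187963187200, Int.negSucc 5654563084799, Int.negSucc 504780595199, Int.ofNat 4615136870400, Int.ofNat 233826481728, Int.ofNat 432669081600, Int.negSucc 3240085847039, Int.ofNat 178121825280, Int.negSucc 126195148799, Int.ofNat 18027878400],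
  [Int.ofNat 570425587200, Int.negSucc 26453951999, Int.ofNat 94058496000, Int.negSucc 64077350399, Int.negSucc 88179839999, Int.negSucc 1406713029119, Int.ofNat 2884739235840, Int.negSucc 219469823999, Int.ofNat 206959513600, Int.negSucc 10973491199, Int.ofNat 714113003520, Int.negSucc 1838054332799, Int.negSucc 164602367999, Int.ofNat 1504935936000, Int.ofNat 74151897120, Int.ofNat 141087744000, Int.negSucc 1056584269439, Int.ofNat 57507770880, Int.negSucc 41150591999, Int.ofNat 5878656000],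
  [Int.ofNat 78676012800, Int.ofNat 0, Int.ofNat 12765081600, Int.negSucc 17635967999, Int.ofNat 0, Int.negSucc 190656426239, Int.ofNat 394157352960, Int.negSucc 29785190399, Int.ofNat 51921734400, Int.ofNat 0, Int.ofNat 96906378240, Int.negSucc 249165201599, Int.negSucc 22338892799, Int.ofNat 204241305600, Int.ofNat 9560286792, Int.ofNat 19147622400, Int.negSucc 143465878079, Int.ofNat 7685798400, Int.negSucc 5584723199, Int.ofNat 797817600],
  [Int.ofNat 138726604800, Int.negSucc 44590694399, Int.ofNat 26424115200, Int.ofNat 0, Int.ofNat 0, Int.negSucc 395627724799, Int.ofNat 801531494400, Int.negSucc 61656268799, Int.ofNat 0, Int.ofNat 0, Int.ofNat 200382873600, Int.negSucc 520224767999, Int.negSucc 46242201599, Int.ofNat 422785843200, Int.ofNat 21285863424, Int.ofNat 39636172800, Int.negSucc 296720793599, Int.ofNat 16698572800, Int.negSucc 11560550399, Int.ofNat 1651507200],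
  [Int.ofNat 821211955200, Int.negSucc 222953471999, Int.ofNat 158544691200, Int.ofNat 0, Int.ofNat 0, Int.negSucc 2373766348799, Int.ofNat 4809188966400, Int.negSucc 369937612799, Int.ofNat 2477260800, Int.ofNat 0, Int.ofNat 1203783598080, Int.negSucc 3117632716799, Int.negSucc 277453209599, Int.ofNat 2536715059200, Int.ofNat 131431071744, Int.ofNat 237817036800, Int.negSucc 1780324761599, Int.ofNat 99448258560, Int.negSucc 69363302399, Int.ofNat 9909043200],
  [Int.ofNat 2069751398400, Int.negSucc 445906943999, Int.ofNat 396361728000, Int.ofNat 2786918400, Int.negSucc 167215103999, Int.negSucc 5934415871999, Int.ofNat 12027431485440, Int.negSucc 924844031999, Int.ofNat 51093504000, Int.negSucc 14863564799, Int.ofNat 3012060119040, Int.negSucc 7783398604799, Int.negSucc 693633023999, Int.ofNat 6341787648000, Int.ofNat 337402920960, Int.ofNat 594542592000, Int.negSucc 4451044147199, Int.ofNat 246298214400, Int.negSucc 173408255999, Int.ofNat 24772608000],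
  [Int.ofNat 2773680537600, Int.negSucc 438939647999, Int.ofNat 520224768000, Int.negSucc 39016857599, Int.negSucc 418037759999, Int.negSucc 7789385318399, Int.ofNat 15804954869760, Int.negSucc 1213857791999, Int.ofNat 207069184000, Int.negSucc 44590694399, Int.ofNat 3955349422080, Int.negSucc 10191296102399, Int.negSucc 910393343999, Int.ofNat 8323596288000, Int.ofNat 450302146560, Int.ofNat 780337152000, Int.negSucc 5842387353599, Int.ofNat 320299499520, Int.negSucc 227598335999, Int.ofNat 32514048000],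
  [Int.ofNat 2057877964800, Int.negSucc 211631615999, Int.ofNat 376233984000, Int.negSucc 115482931199, Int.negSucc 344881151999, Int.negSucc 5634452275199, Int.ofNat 11460714209280, Int.negSucc 877879295999, Int.ofNat 349981184000, Int.negSucc 43197235199, Int.ofNat 2862049075200, Int.negSucc 7345373414399, Int.negSucc 658409471999, Int.ofNat 6019743744000, Int.ofNat 326392778880, Int.ofNat 564350976000, Int.negSucc 4224881203199, Int.ofNat 229647882240, Int.negSucc 164602367999, Int.ofNat 23514624000],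
  [Int.ofNat 796536115200, Int.negSucc 39974860799, Int.ofNat 142132838400, Int.negSucc 103464345599, Int.negSucc 94058495999, Int.negSucc 2129043087359, Int.ofNat 4349578383360, Int.negSucc 331643289599, Int.ofNat 271242854400, Int.negSucc 13586227199, Int.ofNat 1081800437760, Int.negSucc 2765203660799, Int.negSucc 248732467199, Int.ofNat 2274125414400, Int.ofNat 121266004608, Int.ofNat 213199257600, Int.negSucc 1595403371519, Int.ofNat 85912565760, Int.negSucc 62183116799, Int.ofNat 8883302400],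
  [Int.ofNat 125280691200, Int.ofNat 0, Int.ofNat 21946982400, Int.negSucc 29981145599, Int.ofNat 0, Int.negSucc 328725734399, Int.ofNat 675932221440, Int.negSucc 51209625599, Int.ofNat 79949094400, Int.ofNat 0, Int.ofNat 166953830400, Int.negSucc 426256991999, Int.negSucc 38407219199, Int.ofNat 351151718400, Int.ofNat 17965091088, Int.ofNat 32920473600, Int.negSucc 246319315199, Int.ofNat 13065131520, Int.negSucc 9601804799, Int.ofNat 1371686400],
  [Int.ofNat 202516070400, Int.negSucc 55738367999, Int.ofNat 39636172800, Int.ofNat 0, Int.ofNat 0, Int.negSucc 593441587199, Int.ofNat 1202297241600, Int.negSucc 92484403199, Int.ofNat 1238630400, Int.ofNat 0, Int.ofNat 301317488640, Int.negSucc 778479206399, Int.negSucc 69363302399, Int.ofNat 634178764800, Int.ofNat 33786740736, Int.ofNat 59454259200, Int.negSucc 445081190399, Int.ofNat 24676270080, Int.negSucc 17340825599, Int.ofNat 2477260800],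
  [Int.ofNat 904974336000, Int.negSucc 204374015999, Int.ofNat 181665792000, Int.ofNat 0, Int.ofNat 0, Int.negSucc 2719940607999, Int.ofNat 5510529024000, Int.negSucc 423886847999, Int.ofNat 10838016000, Int.ofNat 0, Int.ofNat 1384135065600, Int.negSucc 3560288255999, Int.negSucc 317915135999, Int.ofNat 2906652672000, Int.ofNat 162597335040, Int.ofNat 272498688000, Int.negSucc 2039955455999, Int.ofNat 111551283200, Int.negSucc 79478783999, Int.ofNat 11354112000],
  [Int.ofNat 1656939110400, Int.negSucc 282175487999, Int.ofNat 334430208000, Int.negSucc 22295347199, Int.negSucc 83607551999, Int.negSucc 5007860121599, Int.ofNat 10154415882240, Int.negSucc 780337151999, Int.ofNat 83349504000, Int.negSucc 11147673599, Int.ofNat 2550959308800, Int.negSucc 6534626918399, Int.negSucc 585252863999, Int.ofNat 5350883328000, Int.ofNat 310448194560, Int.ofNat 501645312000, Int.negSucc 3755256422399, Int.ofNat 202934108160, Int.negSucc 146313215999, Int.ofNat 20901888000],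
  [Int.ofNat 1531905177600, Int.negSucc 172440575999, Int.ofNat 306561024000, Int.negSucc 79601356799, Int.negSucc 135862271999, Int.negSucc 4593354393599, Int.ofNat 9330091868160, Int.negSucc 715309055999, Int.ofNat 210760704000, Int.negSucc 20437401599, Int.ofNat 2338921267200, Int.negSucc 5966661657599, Int.negSucc 536481791999, Int.ofNat 4904976384000, Int.ofNat 290015873280, Int.ofNat 459841536000, Int.negSucc 3441191039999, Int.ofNat 184428195840, Int.negSucc 134120447999, Int.ofNat 19160064000],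
  [Int.ofNat 707107968000, Int.negSucc 39191039999, Int.ofNat 139345920000, Int.negSucc 87004108799, Int.negSucc 54867455999, Int.negSucc 2090556518399, Int.ofNat 4259224166400, Int.negSucc 325140479999, Int.ofNat 214683392000, Int.negSucc 9231667199, Int.ofNat 1062733271040, Int.negSucc 2700966643199, Int.negSucc 243855359999, Int.ofNat 2229534720000, Int.ofNat 131467795200, Int.ofNat 209018880000, Int.negSucc 1562771750399, Int.ofNat 83181772800, Int.negSucc 60963839999, Int.ofNat 8709120000],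
  [Int.ofNat 129265113600, Int.ofNat 0, Int.ofNat 25082265600, Int.negSucc 29981145599, Int.ofNat 0, Int.negSucc 376789916159, Int.ofNat 771767377920, Int.negSucc 58525286399, Int.ofNat 77756044800, Int.ofNat 0, Int.ofNat 190996807680, Int.negSucc 484911100799, Int.negSucc 43893964799, Int.ofNat 401316249600, Int.ofNat 22980972672, Int.ofNat 37623398400, Int.negSucc 281071969919, Int.ofNat 14769216000, Int.negSucc 10973491199, Int.ofNat 1567641600],
  [Int.ofNat 159473664000, Int.negSucc 37158911999, Int.ofNat 33030144000, Int.ofNat 0, Int.ofNat 0, Int.negSucc 494534655999, Int.ofNat 1001914368000, Int.negSucc 77070335999, Int.ofNat 3096576000, Int.ofNat 0, Int.ofNat 252336537600, Int.negSucc 645636095999, Int.negSucc 57802751999, Int.ofNat 528482304000, Int.ofNat 31252193280, Int.ofNat 49545216000, Int.negSucc 370900991999, Int.ofNat 19944243200, Int.negSucc 14450687999, Int.ofNat 2064384000],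
  [Int.ofNat 538649395200, Int.negSucc 97542143999, Int.ofNat 115605504000, Int.ofNat 0, Int.ofNat 0, Int.negSucc 1731428679679, Int.ofNat 3509208514560, Int.negSucc 269746175999, Int.ofNat 17272012800, Int.ofNat 0, Int.ofNat 884013957120, Int.negSucc 2252759039999, Int.negSucc 202309631999, Int.ofNat 1849688064000, Int.ofNat 115653242880, Int.ofNat 173408256000, Int.negSucc 1297874780159, Int.ofNat 68968775680, Int.negSucc 50577407999, Int.ofNat 7225344000],
  [Int.ofNat 698181120000, Int.negSucc 85697740799, Int.ofNat 152351539200, Int.negSucc 18463334399, Int.negSucc 20901887999, Int.negSucc 2283816407039, Int.ofNat 4635891671040, Int.negSucc 355486924799, Int.ofNat 69991219200, Int.negSucc 3715891199, Int.ofNat 1163670036480, Int.negSucc 2956775270399, Int.negSucc 266615193599, Int.ofNat 2437624627200, Int.ofNat 157882120704, Int.ofNat 228527308800, Int.negSucc 1709451233279, Int.ofNat 90448404480, Int.negSucc 66653798399, Int.ofNat 9521971200],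
  [Int.ofNat 407819059200, Int.negSucc 25082265599, Int.ofNat 89181388800, Int.negSucc 36229939199, Int.negSucc 16721510399, Int.negSucc 1339586519039, Int.ofNat 2726244864000, Int.negSucc 208089907199, Int.ofNat 103571865600, Int.negSucc 3251404799, Int.ofNat 679485542400, Int.negSucc 1723012300799, Int.negSucc 156067430399, Int.ofNat 1426902220800, Int.ofNat 93438406656, Int.ofNat 133772083200, Int.negSucc 999319265279, Int.ofNat 52850810880, Int.negSucc 39016857599, Int.ofNat 5573836800],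
  [Int.ofNat 89718451200, Int.ofNat 0, Int.ofNat 19508428800, Int.negSucc 17374694399, Int.ofNat 0, Int.negSucc 293701524479, Int.ofNat 600882831360, Int.negSucc 45519667199, Int.ofNat 49117107200, Int.ofNat 0, Int.ofNat 148124712960, Int.negSucc 375620716799, Int.negSucc 34139750399, Int.ofNat 312134860800, Int.ofNat 20084029056, Int.ofNat 29262643200, Int.negSucc 218294818559, Int.ofNat 11454428160, Int.negSucc 8534937599, Int.ofNat 1219276800],
  [Int.ofNat 73234022400, Int.negSucc 13934591999, Int.ofNat 16515072000, Int.ofNat 0, Int.ofNat 0, Int.negSucc 247453122559, Int.ofNat 501793259520, Int.negSucc 38535167999, Int.ofNat 3692953600, Int.ofNat 0, Int.ofNat 126446960640, Int.negSucc 320495615999, Int.negSucc 28901375999, Int.ofNat 264241152000, Int.ofNat 17716285440, Int.ofNat 24772608000, Int.negSucc 185357598719, Int.ofNat 9693429760, Int.negSucc 7225343999, Int.ofNat 1032192000],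
  [Int.ofNat 178943385600, Int.negSucc 23688806399, Int.ofNat 42113433600, Int.ofNat 0, Int.ofNat 0, Int.negSucc 631785799679, Int.ofNat 1283084328960, Int.negSucc 98264678399, Int.ofNat 14089420800, Int.ofNat 0, Int.ofNat 321009131520, Int.negSucc 814012415999, Int.negSucc 73698508799, Int.ofNat 673814937600, Int.ofNat 47452511232, Int.ofNat 63170150400, Int.negSucc 472271708159, Int.ofNat 24848302080, Int.negSucc 18424627199, Int.ofNat 2632089600],
  [Int.ofNat 149042073600, Int.negSucc 10102579199, Int.ofNat 35920281600, Int.negSucc 5922201599, Int.negSucc 2090188799, Int.negSucc 540233379839, Int.ofNat 1099997982720, Int.negSucc 83813990399, Int.ofNat 30277632000, Int.negSucc 464486399, Int.ofNat 272081940480, Int.negSucc 691126732799, Int.negSucc 62860492799, Int.ofNat 574724505600, Int.ofNat 41389512192, Int.ofNat 53880422400, Int.negSucc 402141358079, Int.ofNat 21399060480, Int.negSucc 15715123199, Int.ofNat 2245017600],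
  [Int.ofNat 42021504000, Int.ofNat 0, Int.ofNat 10218700800, Int.negSucc 5399654399, Int.ofNat 0, Int.negSucc 154123038719, Int.ofNat 315575930880, Int.negSucc 23843635199, Int.ofNat 20118425600, Int.ofNat 0, Int.ofNat 76911206400, Int.negSucc 195839078399, Int.negSucc 17882726399, Int.ofNat 163499212800, Int.ofNat 11679002496, Int.ofNat 15328051200, Int.negSucc 114184304639, Int.ofNat 6074449920, Int.negSucc 4470681599, Int.ofNat 638668800],
  [Int.ofNat 19740672000, Int.negSucc 2786918399, Int.ofNat 4954521600, Int.ofNat 0, Int.ofNat 0, Int.negSucc 74458890239, Int.ofNat 151541268480, Int.negSucc 11560550399, Int.ofNat 2442854400, Int.ofNat 0, Int.ofNat 37525340160, Int.negSucc 95219711999, Int.negSucc 8670412799, Int.ofNat 79272345600, Int.ofNat 5965166592, Int.ofNat 7431782400, Int.negSucc 55495802879, Int.ofNat 2945187840, Int.negSucc 2167603199, Int.ofNat 309657600],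
  [Int.ofNat 31507660800, Int.negSucc 2322431999, Int.ofNat 8257536000, Int.ofNat 0, Int.ofNat 0, Int.negSucc 124469739519, Int.ofNat 253962240000, Int.negSucc 19267583999, Int.ofNat 5839257600, Int.ofNat 0, Int.ofNat 61830021120, Int.negSucc 157925375999, Int.negSucc 14450687999, Int.ofNat 132120576000, Int.ofNat 10251601920, Int.ofNat 12386304000, Int.negSucc 92307210239, Int.ofNat 5032509440, Int.negSucc 3612671999, Int.ofNat 516096000],
  [Int.ofNat 12860467200, Int.ofNat 0, Int.ofNat 3450470400, Int.negSucc 696729599, Int.ofNat 0, Int.negSucc 52206981119, Int.ofNat 106998312960, Int.negSucc 8051097599, Int.ofNat 5329920000, Int.ofNat 0, Int.ofNat 25597071360, Int.negSucc 65695795199, Int.negSucc 6038323199, Int.ofNat 55207526400, Int.ofNat 4274581248, Int.ofNat 5175705600, Int.negSucc 38473021439, Int.ofNat 2110832640, Int.negSucc 1509580799, Int.ofNat 215654400],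
  [Int.ofNat 2941747200, Int.negSucc 232243199, Int.ofNat 825753600, Int.ofNat 0, Int.ofNat 0, Int.negSucc 12502712319, Int.ofNat 25605242880, Int.negSucc 1926758399, Int.ofNat 849100800, Int.ofNat 0, Int.ofNat 6076170240, Int.negSucc 15676415999, Int.negSucc 1445068799, Int.ofNat 13212057600, Int.ofNat 1071608832, Int.ofNat 1238630400, Int.negSucc 9202851839, Int.ofNat 521830400, Int.negSucc 361267199, Int.ofNat 51609600],
  [Int.ofNat 2341785600, Int.ofNat 0, Int.ofNat 678297600, Int.ofNat 0, Int.ofNat 0, Int.negSucc 10329804799, Int.ofNat 21167247360, Int.negSucc 1582694399, Int.ofNat 967372800, Int.ofNat 0, Int.ofNat 4946350080, Int.negSucc 12802406399, Int.negSucc 1187020799, Int.ofNat 10852761600, Int.ofNat 880250112, Int.ofNat 1017446400, Int.negSucc 7529625599, Int.ofNat 428646400, Int.negSucc 296755199, Int.ofNat 42393600],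
  [Int.ofNat 193536000, Int.ofNat 0, Int.ofNat 58982400, Int.ofNat 0, Int.ofNat 0, Int.negSucc 906321919, Int.ofNat 1858805760, Int.negSucc 137625599, Int.ofNat 120627200, Int.ofNat 0, Int.ofNat 424058880, Int.negSucc 1103155199, Int.negSucc 103219199, Int.ofNat 943718400, Int.ofNat 76543488, Int.ofNat 88473600, Int.negSucc 650711039, Int.ofNat 37273600, Int.negSucc 25804799, Int.ofNat 3686400],
  [Int.ofNat 0, Int.ofNat 0, Int.ofNat 0, Int.ofNat 0, Int.ofNat 0, Int.ofNat 0, Int.ofNat 0, Int.ofNat 0, Int.ofNat 0, Int.ofNat 0, Int.ofNat 0, Int.ofNat 0, Int.ofNat 0, Int.ofNat 0, Int.ofNat 0, Int.ofNat 0, Int.ofNat 0, Int.ofNat 0, Int.ofNat 0, Int.ofNat 0],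
  [Int.ofNat 19818086400, Int.negSucc 7431782399, Int.ofNat 3774873600, Int.ofNat 0, Int.ofNat 0, Int.negSucc 56518246399, Int.ofNat 114504499200, Int.negSucc 8808038399, Int.ofNat 0, Int.ofNat 0, Int.ofNat 28626124800, Int.negSucc 74317823999, Int.negSucc 6606028799, Int.ofNat 60397977600, Int.ofNat 3040837632, Int.ofNat 5662310400, Int.negSucc 42388684799, Int.ofNat 2385510400, Int.negSucc 1651507199, Int.ofNat 235929600],
  [Int.ofNat 161641267200, Int.negSucc 50164531199, Int.ofNat 29727129600, Int.ofNat 8360755200, Int.negSucc 33443020799, Int.negSucc 445081190399, Int.ofNat 901722931200, Int.negSucc 69363302399, Int.ofNat 0, Int.ofNat 0, Int.ofNat 225430732800, Int.negSucc 587343052799, Int.negSucc 52022476799, Int.ofNat 475634073600, Int.ofNat 23946596352, Int.ofNat 44590694400, Int.negSucc 333810892799, Int.ofNat 18785894400, Int.negSucc 13005619199, Int.ofNat 1857945600],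
  [Int.ofNat 502574284800, Int.negSucc 125411327999, Int.ofNat 89181388800, Int.ofNat 39016857600, Int.negSucc 167215103999, Int.negSucc 1335243571199, Int.ofNat 2705168793600, Int.negSucc 208089907199, Int.ofNat 5883494400, Int.negSucc 3715891199, Int.ofNat 675920609280, Int.negSucc 1765048319999, Int.negSucc 156067430399, Int.ofNat 1426902220800, Int.ofNat 71839789056, Int.ofNat 133772083200, Int.negSucc 1001432678399, Int.ofNat 56264785920, Int.negSucc 39016857599, Int.ofNat 5573836800],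
  [Int.ofNat 813141504000, Int.negSucc 156764159999, Int.ofNat 139345920000, Int.ofNat 62705664000, Int.negSucc 313528319999, Int.negSucc 2086318079999, Int.ofNat 4229613158400, Int.negSucc 325140479999, Int.ofNat 33384960000, Int.negSucc 13934591999, Int.ofNat 1055429222400, Int.negSucc 2757017087999, Int.negSucc 243855359999, Int.ofNat 2229534720000, Int.ofNat 111959366400, Int.ofNat 209018880000, Int.negSucc 1564883711999, Int.ofNat 87623424000, Int.negSucc 60963839999, Int.ofNat 8709120000],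
  [Int.ofNat 755864524800, Int.negSucc 105815807999, Int.ofNat 125411328000, Int.ofNat 37623398400, Int.negSucc 282175487999, Int.negSucc 1877442416639, Int.ofNat 3814594560000, Int.negSucc 292626431999, Int.ofNat 73954406400, Int.negSucc 18811699199, Int.ofNat 949642444800, Int.negSucc 2475915724799, Int.negSucc 219469823999, Int.ofNat 2006581248000, Int.ofNat 99914290560, Int.ofNat 188116992000, Int.negSucc 1408691450879, Int.ofNat 78469171200, Int.negSucc 54867455999, Int.ofNat 7838208000],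
  [Int.ofNat 408076704000, Int.negSucc 37035532799, Int.ofNat 65840947200, Int.negSucc 2057529599, Int.negSucc 123451775999, Int.negSucc 985109610239, Int.ofNat 2010953226240, Int.negSucc 153628876799, Int.ofNat 81078771200, Int.negSucc 10973491199, Int.ofNat 498806138880, Int.negSucc 1295462548799, Int.negSucc 115221657599, Int.ofNat 1053455155200, Int.ofNat 51494822064, Int.ofNat 98761420800, Int.negSucc 739759366079, Int.ofNat 40911816960, Int.negSucc 28805414399, Int.ofNat 4115059200],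
  [Int.ofNat 119140761600, Int.negSucc 5290790399, Int.ofNat 18811699200, Int.negSucc 10581580799, Int.negSucc 21163161599, Int.negSucc 281083944959, Int.ofNat 578146222080, Int.negSucc 43893964799, Int.ofNat 44370470400, Int.negSucc 2351462399, Int.ofNat 142655385600, Int.negSucc 368918323199, Int.negSucc 32920473599, Int.ofNat 300987187200, Int.ofNat 14222918304, Int.ofNat 28217548800, Int.negSucc 211422597119, Int.ofNat 11574420480, Int.negSucc 8230118399, Int.ofNat 1175731200],
  [Int.ofNat 14549673600, Int.ofNat 0, Int.ofNat 2267481600, Int.negSucc 2976069599, Int.ofNat 0, Int.negSucc 33812069759, Int.ofNat 70191152640, Int.negSucc 5290790399, Int.ofNat 9747824400, Int.ofNat 0, Int.ofNat 17195068800, Int.negSucc 44420594399, Int.negSucc 3968092799, Int.ofNat 36279705600, Int.ofNat 1619891217, Int.ofNat 3401222400, Int.negSucc 25506018719, Int.ofNat 1374135840, Int.negSucc 992023199, Int.ofNat 141717600],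
  [Int.ofNat 39636172800, Int.negSucc 14863564799, Int.ofNat 7549747200, Int.ofNat 0, Int.ofNat 0, Int.negSucc 113036492799, Int.ofNat 229008998400, Int.negSucc 17616076799, Int.ofNat 0, Int.ofNat 0, Int.ofNat 57252249600, Int.negSucc 148635647999, Int.negSucc 13212057599, Int.ofNat 120795955200, Int.ofNat 6081675264, Int.ofNat 11324620800, Int.negSucc 84777369599, Int.ofNat 4771020800, Int.negSucc 3303014399, Int.ofNat 471859200],
  [Int.ofNat 346816512000, Int.negSucc 111476735999, Int.ofNat 66060288000, Int.ofNat 0, Int.ofNat 0, Int.negSucc 989069311999, Int.ofNat 2003828736000, Int.negSucc 154140671999, Int.ofNat 0, Int.ofNat 0, Int.ofNat 500957184000, Int.negSucc 1300561919999, Int.negSucc 115605503999, Int.ofNat 1056964608000, Int.ofNat 53214658560, Int.ofNat 99090432000, Int.negSucc 741801983999, Int.ofNat 41746432000, Int.negSucc 28901375999, Int.ofNat 4128768000],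
  [Int.ofNat 1278266572800, Int.negSucc 334430207999, Int.ofNat 237817036800, Int.ofNat 27869184000, Int.negSucc 167215103999, Int.negSucc 3560649523199, Int.ofNat 7213783449600, Int.negSucc 554906419199, Int.ofNat 13005619200, Int.negSucc 7431782399, Int.ofNat 1803445862400, Int.negSucc 4686203289599, Int.negSucc 416179814399, Int.ofNat 3805072588800, Int.ofNat 193430716416, Int.ofNat 356725555200, Int.negSucc 2670487142399, Int.ofNat 149729771520, Int.negSucc 104044953599, Int.ofNat 14863564800],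
  [Int.ofNat 2475248025600, Int.negSucc 501645311999, Int.ofNat 445906944000, Int.ofNat 73853337600, Int.negSucc 585252863999, Int.negSucc 6676217855999, Int.ofNat 13532532572160, Int.negSucc 1040449535999, Int.ofNat 92123136000, Int.negSucc 37158911999, Int.ofNat 3380717813760, Int.negSucc 8784831283199, Int.negSucc 780337151999, Int.ofNat 7134511104000, Int.ofNat 365469511680, Int.ofNat 668860416000, Int.negSucc 5007511756799, Int.ofNat 279233740800, Int.negSucc 195084287999, Int.ofNat 27869184000],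
  [Int.ofNat 2719277568000, Int.negSucc 399748607999, Int.ofNat 473776128000, Int.ofNat 33443020800, Int.negSucc 752467967999, Int.negSucc 7093133107199, Int.ofNat 14401865318400, Int.negSucc 1105477631999, Int.ofNat 249209856000, Int.negSucc 62705663999, Int.ofNat 3591873331200, Int.negSucc 9316610150399, Int.negSucc 829108223999, Int.ofNat 7580418048000, Int.ofNat 388427477760, Int.ofNat 710664192000, Int.negSucc 5321243289599, Int.ofNat 294790164480, Int.negSucc 207277055999, Int.ofNat 29611008000],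
  [Int.ofNat 1706769792000, Int.negSucc 162250905599, Int.ofNat 288446054400, Int.negSucc 58786559999, Int.negSucc 423263231999, Int.negSucc 4317279160319, Int.ofNat 8798301388800, Int.negSucc 673040793599, Int.ofNat 325098547200, Int.negSucc 43893964799, Int.ofNat 2187963187200, Int.negSucc 5654563084799, Int.negSucc 504780595199, Int.ofNat 4615136870400, Int.ofNat 233826481728, Int.ofNat 432669081600, Int.negSucc 3240085847039, Int.ofNat 178121825280, Int.negSucc 126195148799, Int.ofNat 18027878400],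
  [Int.ofNat 570425587200, Int.negSucc 26453951999, Int.ofNat 94058496000, Int.negSucc 64077350399, Int.negSucc 88179839999, Int.negSucc 1406713029119, Int.ofNat 2884739235840, Int.negSucc 219469823999, Int.ofNat 206959513600, Int.negSucc 10973491199, Int.ofNat 714113003520, Int.negSucc 1838054332799, Int.negSucc 164602367999, Int.ofNat 1504935936000, Int.ofNat 74151897120, Int.ofNat 141087744000, Int.negSucc 1056584269439, Int.ofNat 57507770880, Int.negSucc 41150591999, Int.ofNat 5878656000],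
  [Int.ofNat 78676012800, Int.ofNat 0, Int.ofNat 12765081600, Int.negSucc 17635967999, Int.ofNat 0, Int.negSucc 190656426239, Int.ofNat 394157352960, Int.negSucc 29785190399, Int.ofNat 51921734400, Int.ofNat 0, Int.ofNat 96906378240, Int.negSucc 249165201599, Int.negSucc 22338892799, Int.ofNat 204241305600, Int.ofNat 9560286792, Int.ofNat 19147622400, Int.negSucc 143465878079, Int.ofNat 7685798400, Int.negSucc 5584723199, Int.ofNat 797817600],
  [Int.ofNat 208089907200, Int.negSucc 66886041599, Int.ofNat 39636172800, Int.ofNat 0, Int.ofNat 0, Int.negSucc 593441587199, Int.ofNat 1202297241600, Int.negSucc 92484403199, Int.ofNat 0, Int.ofNat 0, Int.ofNat 300574310400, Int.negSucc 780337151999, Int.negSucc 69363302399, Int.ofNat 634178764800, Int.ofNat 31928795136, Int.ofNat 59454259200, Int.negSucc 445081190399, Int.ofNat 25047859200, Int.negSucc 17340825599, Int.ofNat 2477260800],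
  [Int.ofNat 1231817932800, Int.negSucc 334430207999, Int.ofNat 237817036800, Int.ofNat 0, Int.ofNat 0, Int.negSucc 3560649523199, Int.ofNat 7213783449600, Int.negSucc 554906419199, Int.ofNat 3715891200, Int.ofNat 0, Int.ofNat 1805675397120, Int.negSucc 4676449075199, Int.negSucc 416179814399, Int.ofNat 3805072588800, Int.ofNat 197146607616, Int.ofNat 356725555200, Int.negSucc 2670487142399, Int.ofNat 149172387840, Int.negSucc 104044953599, Int.ofNat 14863564800],
  [Int.ofNat 3104627097600, Int.negSucc 668860415999, Int.ofNat 594542592000, Int.ofNat 4180377600, Int.negSucc 250822655999, Int.negSucc 8901623807999, Int.ofNat 18041147228160, Int.negSucc 1387266047999, Int.ofNat 76640256000, Int.negSucc 22295347199, Int.ofNat 4518090178560, Int.negSucc 11675097907199, Int.negSucc 1040449535999, Int.ofNat 9512681472000, Int.ofNat 506104381440, Int.ofNat 891813888000, Int.negSucc 6676566220799, Int.ofNat 369447321600, Int.negSucc 260112383999, Int.ofNat 37158912000],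
  [Int.ofNat 4160520806400, Int.negSucc 658409471999, Int.ofNat 780337152000, Int.negSucc 58525286399, Int.negSucc 627056639999, Int.negSucc 11684077977599, Int.ofNat 23707432304640, Int.negSucc 1820786687999, Int.ofNat 310603776000, Int.negSucc 66886041599, Int.ofNat 5933024133120, Int.negSucc 15286944153599, Int.negSucc 1365590015999, Int.ofNat 12485394432000, Int.ofNat 675453219840, Int.ofNat 1170505728000, Int.negSucc 8763581030399, Int.ofNat 480449249280, Int.negSucc 341397503999, Int.ofNat 48771072000],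
  [Int.ofNat 3086816947200, Int.negSucc 317447423999, Int.ofNat 564350976000, Int.negSucc 173224396799, Int.negSucc 517321727999, Int.negSucc 8451678412799, Int.ofNat 17191071313920, Int.negSucc 1316818943999, Int.ofNat 524971776000, Int.negSucc 64795852799, Int.ofNat 4293073612800, Int.negSucc 11018060121599, Int.negSucc 987614207999, Int.ofNat 9029615616000, Int.ofNat 489589168320, Int.ofNat 846526464000, Int.negSucc 6337321804799, Int.ofNat 344471823360, Int.negSucc 246903551999, Int.ofNat 35271936000],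
  [Int.ofNat 1194804172800, Int.negSucc 59962291199, Int.ofNat 213199257600, Int.negSucc 155196518399, Int.negSucc 141087743999, Int.negSucc 3193564631039, Int.ofNat 6524367575040, Int.negSucc 497464934399, Int.ofNat 406864281600, Int.negSucc 20379340799, Int.ofNat 1622700656640, Int.negSucc 4147805491199, Int.negSucc 373098700799, Int.ofNat 3411188121600, Int.ofNat 181899006912, Int.ofNat 319798886400, Int.negSucc 2393105057279, Int.ofNat 128868848640, Int.negSucc 93274675199, Int.ofNat 13324953600],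
  [Int.ofNat 187921036800, Int.ofNat 0, Int.ofNat 32920473600, Int.negSucc 44971718399, Int.ofNat 0, Int.negSucc 493088601599, Int.ofNat 1013898332160, Int.negSucc 76814438399, Int.ofNat 119923641600, Int.ofNat 0, Int.ofNat 250430745600, Int.negSucc 639385487999, Int.negSucc 57610828799, Int.ofNat 526727577600, Int.ofNat 26947636632, Int.ofNat 49380710400, Int.negSucc 369478972799, Int.ofNat 19597697280, Int.negSucc 14402707199, Int.ofNat 2057529600],
  [Int.ofNat 405032140800, Int.negSucc 111476735999, Int.ofNat 79272345600, Int.ofNat 0, Int.ofNat 0, Int.negSucc 1186883174399, Int.ofNat 2404594483200, Int.negSucc 184968806399, Int.ofNat 2477260800, Int.ofNat 0, Int.ofNat 602634977280, Int.negSucc 1556958412799, Int.negSucc 138726604799, Int.ofNat 1268357529600, Int.ofNat 67573481472, Int.ofNat 118908518400, Int.negSucc 890162380799, Int.ofNat 49352540160, Int.negSucc 34681651199, Int.ofNat 4954521600],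
  [Int.ofNat 1809948672000, Int.negSucc 408748031999, Int.ofNat 363331584000, Int.ofNat 0, Int.ofNat 0, Int.negSucc 5439881215999, Int.ofNat 11021058048000, Int.negSucc 847773695999, Int.ofNat 21676032000, Int.ofNat 0, Int.ofNat 2768270131200, Int.negSucc 7120576511999, Int.negSucc 635830271999, Int.ofNat 5813305344000, Int.ofNat 325194670080, Int.ofNat 544997376000, Int.negSucc 4079910911999, Int.ofNat 223102566400, Int.negSucc 158957567999, Int.ofNat 22708224000],
  [Int.ofNat 3313878220800, Int.negSucc 564350975999, Int.ofNat 668860416000, Int.negSucc 44590694399, Int.negSucc 167215103999, Int.negSucc 10015720243199, Int.ofNat 20308831764480, Int.negSucc 1560674303999, Int.ofNat 166699008000, Int.negSucc 22295347199, Int.ofNat 5101918617600, Int.negSucc 13069253836799, Int.negSucc 1170505727999, Int.ofNat 10701766656000, Int.ofNat 620896389120, Int.ofNat 1003290624000, Int.negSucc 7510512844799, Int.ofNat 405868216320, Int.negSucc 292626431999, Int.ofNat 41803776000],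
  [Int.ofNat 3063810355200, Int.negSucc 344881151999, Int.ofNat 613122048000, Int.negSucc 159202713599, Int.negSucc 271724543999, Int.negSucc 9186708787199, Int.ofNat 18660183736320, Int.negSucc 1430618111999, Int.ofNat 421521408000, Int.negSucc 40874803199, Int.ofNat 4677842534400, Int.negSucc 11933323315199, Int.negSucc 1072963583999, Int.ofNat 9809952768000, Int.ofNat 580031746560, Int.ofNat 919683072000, Int.negSucc 6882382079999, Int.ofNat 368856391680, Int.negSucc 268240895999, Int.ofNat 38320128000],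
  [Int.ofNat 1414215936000, Int.negSucc 78382079999, Int.ofNat 278691840000, Int.negSucc 174008217599, Int.negSucc 109734911999, Int.negSucc 4181113036799, Int.ofNat 8518448332800, Int.negSucc 650280959999, Int.ofNat 429366784000, Int.negSucc 18463334399, Int.ofNat 2125466542080, Int.negSucc 5401933286399, Int.negSucc 487710719999, Int.ofNat 4459069440000, Int.ofNat 262935590400, Int.ofNat 418037760000, Int.negSucc 3125543500799, Int.ofNat 166363545600, Int.negSucc 121927679999, Int.ofNat 17418240000],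
  [Int.ofNat 258530227200, Int.ofNat 0, Int.ofNat 50164531200, Int.negSucc 59962291199, Int.ofNat 0, Int.negSucc 753579832319, Int.ofNat 1543534755840, Int.negSucc 117050572799, Int.ofNat 155512089600, Int.ofNat 0, Int.ofNat 381993615360, Int.negSucc 969822201599, Int.negSucc 87787929599, Int.ofNat 802632499200, Int.ofNat 45961945344, Int.ofNat 75246796800, Int.negSucc 562143939839, Int.ofNat 29538432000, Int.negSucc 21946982399, Int.ofNat 3135283200],
  [Int.ofNat 398684160000, Int.negSucc 92897279999, Int.ofNat 82575360000, Int.ofNat 0, Int.ofNat 0, Int.negSucc 1236336639999, Int.ofNat 2504785920000, Int.negSucc 192675839999, Int.ofNat 7741440000, Int.ofNat 0, Int.ofNat 630841344000, Int.negSucc 1614090239999, Int.negSucc 144506879999, Int.ofNat 1321205760000, Int.ofNat 78130483200, Int.ofNat 123863040000, Int.negSucc 927252479999, Int.ofNat 49860608000, Int.negSucc 36126719999, Int.ofNat 5160960000],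
  [Int.ofNat 1346623488000, Int.negSucc 243855359999, Int.ofNat 289013760000, Int.ofNat 0, Int.ofNat 0, Int.negSucc 4328571699199, Int.ofNat 8773021286400, Int.negSucc 674365439999, Int.ofNat 43180032000, Int.ofNat 0, Int.ofNat 2210034892800, Int.negSucc 5631897599999, Int.negSucc 505774079999, Int.ofNat 4624220160000, Int.ofNat 289133107200, Int.ofNat 433520640000, Int.negSucc 3244686950399, Int.ofNat 172421939200, Int.negSucc 126443519999, Int.ofNat 18063360000],
  [Int.ofNat 1745452800000, Int.negSucc 214244351999, Int.ofNat 380878848000, Int.negSucc 46158335999, Int.negSucc 52254719999, Int.negSucc 5709541017599, Int.ofNat 11589729177600, Int.negSucc 888717311999, Int.ofNat 174978048000, Int.negSucc 9289727999, Int.ofNat 2909175091200, Int.negSucc 7391938175999, Int.negSucc 666537983999, Int.ofNat 6094061568000, Int.ofNat 394705301760, Int.ofNat 571318272000, Int.negSucc 4273628083199, Int.ofNat 226121011200, Int.negSucc 166634495999, Int.ofNat 23804928000],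
  [Int.ofNat 1019547648000, Int.negSucc 62705663999, Int.ofNat 222953472000, Int.negSucc 90574847999, Int.negSucc 41803775999, Int.negSucc 3348966297599, Int.ofNat 6815612160000, Int.negSucc 520224767999, Int.ofNat 258929664000, Int.negSucc 8128511999, Int.ofNat 1698713856000, Int.negSucc 4307530751999, Int.negSucc 390168575999, Int.ofNat 3567255552000, Int.ofNat 233596016640, Int.ofNat 334430208000, Int.negSucc 2498298163199, Int.ofNat 132127027200, Int.negSucc 97542143999, Int.ofNat 13934592000],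
  [Int.ofNat 224296128000, Int.ofNat 0, Int.ofNat 48771072000, Int.negSucc 43436735999, Int.ofNat 0, Int.negSucc 734253811199, Int.ofNat 1502207078400, Int.negSucc 113799167999, Int.ofNat 122792768000, Int.ofNat 0, Int.ofNat 370311782400, Int.negSucc 939051791999, Int.negSucc 85349375999, Int.ofNat 780337152000, Int.ofNat 50210072640, Int.ofNat 73156608000, Int.negSucc 545737046399, Int.ofNat 28636070400, Int.negSucc 21337343999, Int.ofNat 3048192000],
  [Int.ofNat 219702067200, Int.negSucc 41803775999, Int.ofNat 49545216000, Int.ofNat 0, Int.ofNat 0, Int.negSucc 742359367679, Int.ofNat 1505379778560, Int.negSucc 115605503999, Int.ofNat 11078860800, Int.ofNat 0, Int.ofNat 379340881920, Int.negSucc 961486847999, Int.negSucc 86704127999, Int.ofNat 792723456000, Int.ofNat 53148856320, Int.ofNat 74317824000, Int.negSucc 556072796159, Int.ofNat 29080289280, Int.negSucc 21676031999, Int.ofNat 3096576000],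
  [Int.ofNat 536830156800, Int.negSucc 71066419199, Int.ofNat 126340300800, Int.ofNat 0, Int.ofNat 0, Int.negSucc 1895357399039, Int.ofNat 3849252986880, Int.negSucc 294794035199, Int.ofNat 42268262400, Int.ofNat 0, Int.ofNat 963027394560, Int.negSucc 2442037247999, Int.negSucc 221095526399, Int.ofNat 2021444812800, Int.ofNat 142357533696, Int.ofNat 189510451200, Int.negSucc 1416815124479, Int.ofNat 74544906240, Int.negSucc 55273881599, Int.ofNat 7896268800],
  [Int.ofNat 447126220800, Int.negSucc 30307737599, Int.ofNat 107760844800, Int.negSucc 17766604799, Int.negSucc 6270566399, Int.negSucc 1620700139519, Int.ofNat 3299993948160, Int.negSucc 251441971199, Int.ofNat 90832896000, Int.negSucc 1393459199, Int.ofNat 816245821440, Int.negSucc 2073380198399, Int.negSucc 188581478399, Int.ofNat 1724173516800, Int.ofNat 124168536576, Int.ofNat 161641267200, Int.negSucc 1206424074239, Int.ofNat 64197181440, Int.negSucc 47145369599, Int.ofNat 6735052800],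
  [Int.ofNat 126064512000, Int.ofNat 0, Int.ofNat 30656102400, Int.negSucc 16198963199, Int.ofNat 0, Int.negSucc 462369116159, Int.ofNat 946727792640, Int.negSucc 71530905599, Int.ofNat 60355276800, Int.ofNat 0, Int.ofNat 230733619200, Int.negSucc 587517235199, Int.negSucc 53648179199, Int.ofNat 490497638400, Int.ofNat 35037007488, Int.ofNat 45984153600, Int.negSucc 342552913919, Int.ofNat 18223349760, Int.negSucc 13412044799, Int.ofNat 1916006400],
  [Int.ofNat 69092352000, Int.negSucc 9754214399, Int.ofNat 17340825600, Int.ofNat 0, Int.ofNat 0, Int.negSucc 260606115839, Int.ofNat 530394439680, Int.negSucc 40461926399, Int.ofNat 8549990400, Int.ofNat 0, Int.ofNat 131338690560, Int.negSucc 333268991999, Int.negSucc 30346444799, Int.ofNat 277453209600, Int.ofNat 20878083072, Int.ofNat 26011238400, Int.negSucc 194235310079, Int.ofNat 10308157440, Int.negSucc 7586611199, Int.ofNat 1083801600],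
  [Int.ofNat 110276812800, Int.negSucc 8128511999, Int.ofNat 28901376000, Int.ofNat 0, Int.ofNat 0, Int.negSucc 435644088319, Int.ofNat 888867840000, Int.negSucc 67436543999, Int.ofNat 20437401600, Int.ofNat 0, Int.ofNat 216405073920, Int.negSucc 552738815999, Int.negSucc 50577407999, Int.ofNat 462422016000, Int.ofNat 35880606720, Int.ofNat 43352064000, Int.negSucc 323075235839, Int.ofNat 17613783040, Int.negSucc 12644351999, Int.ofNat 1806336000],
  [Int.ofNat 45011635200, Int.ofNat 0, Int.ofNat 12076646400, Int.negSucc 2438553599, Int.ofNat 0, Int.negSucc 182724433919, Int.ofNat 374494095360, Int.negSucc 28178841599, Int.ofNat 18654720000, Int.ofNat 0, Int.ofNat 89589749760, Int.negSucc 229935283199, Int.negSucc 21134131199, Int.ofNat 193226342400, Int.ofNat 14961034368, Int.ofNat 18114969600, Int.negSucc 134655575039, Int.ofNat 7387914240, Int.negSucc 5283532799, Int.ofNat 754790400],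
  [Int.ofNat 11766988800, Int.negSucc 928972799, Int.ofNat 3303014400, Int.ofNat 0, Int.ofNat 0, Int.negSucc 50010849279, Int.ofNat 102420971520, Int.negSucc 7707033599, Int.ofNat 3396403200, Int.ofNat 0, Int.ofNat 24304680960, Int.negSucc 62705663999, Int.negSucc 5780275199, Int.ofNat 52848230400, Int.ofNat 4286435328, Int.ofNat 4954521600, Int.negSucc 36811407359, Int.ofNat 2087321600, Int.negSucc 1445068799, Int.ofNat 206438400],
  [Int.ofNat 9367142400, Int.ofNat 0, Int.ofNat 2713190400, Int.ofNat 0, Int.ofNat 0, Int.negSucc 41319219199, Int.ofNat 84668989440, Int.negSucc 6330777599, Int.ofNat 3869491200, Int.ofNat 0, Int.ofNat 19785400320, Int.negSucc 51209625599, Int.negSucc 4748083199, Int.ofNat 43411046400, Int.ofNat 3521000448, Int.ofNat 4069785600, Int.negSucc 30118502399, Int.ofNat 1714585600, Int.negSucc 1187020799, Int.ofNat 169574400],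
  [Int.ofNat 870912000, Int.ofNat 0, Int.ofNat 265420800, Int.ofNat 0, Int.ofNat 0, Int.negSucc 4078448639, Int.ofNat 8364625920, Int.negSucc 619315199, Int.ofNat 542822400, Int.ofNat 0, Int.ofNat 1908264960, Int.negSucc 4964198399, Int.negSucc 464486399, Int.ofNat 4246732800, Int.ofNat 344445696, Int.ofNat 398131200, Int.negSucc 2928199679, Int.ofNat 167731200, Int.negSucc 116121599, Int.ofNat 16588800],
  [Int.ofNat 29727129600, Int.negSucc 11147673599, Int.ofNat 5662310400, Int.ofNat 0, Int.ofNat 0, Int.negSucc 84777369599, Int.ofNat 171756748800, Int.negSucc 13212057599, Int.ofNat 0, Int.ofNat 0, Int.ofNat 42939187200, Int.negSucc 111476735999, Int.negSucc 9909043199, Int.ofNat 90596966400, Int.ofNat 4561256448, Int.ofNat 8493465600, Int.negSucc 63583027199, Int.ofNat 3578265600, Int.negSucc 2477260799, Int.ofNat 353894400],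
  [Int.ofNat 185175244800, Int.negSucc 61312204799, Int.ofNat 36333158400, Int.negSucc 8360755199, Int.ofNat 33443020800, Int.negSucc 543988121599, Int.ofNat 1102105804800, Int.negSucc 84777369599, Int.ofNat 0, Int.ofNat 0, Int.ofNat 275526451200, Int.negSucc 713218867199, Int.negSucc 63583027199, Int.ofNat 581330534400, Int.ofNat 29268062208, Int.ofNat 54499737600, Int.negSucc 407991091199, Int.ofNat 22960537600, Int.negSucc 15895756799, Int.ofNat 2270822400],
  [Int.ofNat 524405145600, Int.negSucc 146313215999, Int.ofNat 104044953600, Int.negSucc 30656102399, Int.ofNat 83607552000, Int.negSucc 1557784166399, Int.ofNat 3156030259200, Int.negSucc 242771558399, Int.ofNat 4180377600, Int.negSucc 1857945599, Int.ofNat 789564948480, Int.negSucc 2038630809599, Int.negSucc 182078668799, Int.ofNat 1664719257600, Int.ofNat 85671032832, Int.ofNat 156067430400, Int.negSucc 1168338124799, Int.ofNat 65332592640, Int.negSucc 45519667199, Int.ofNat 6502809600],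
  [Int.ofNat 848965017600, Int.negSucc 188116991999, Int.ofNat 167215104000, Int.negSucc 51557990399, Int.ofNat 41803776000, Int.negSucc 2503581695999, Int.ofNat 5073306255360, Int.negSucc 390168575999, Int.ofNat 25353216000, Int.negSucc 9289727999, Int.ofNat 1269859368960, Int.negSucc 3270797107199, Int.negSucc 292626431999, Int.ofNat 2675441664000, Int.ofNat 141550778880, Int.ofNat 250822656000, Int.negSucc 1877744332799, Int.ofNat 103986892800, Int.negSucc 73156607999, Int.ofNat 10450944000],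
  [Int.ofNat 829616256000, Int.negSucc 135209087999, Int.ofNat 160247808000, Int.negSucc 60615475199, Int.negSucc 47029247999, Int.negSucc 2399527065599, Int.ofNat 4865378918400, Int.negSucc 373911551999, Int.ofNat 64323840000, Int.negSucc 15676415999, Int.ofNat 1217767219200, Int.negSucc 3126820838399, Int.negSucc 280433663999, Int.ofNat 2563964928000, Int.ofNat 138641751360, Int.ofNat 240371712000, Int.negSucc 1799514662399, Int.ofNat 98617236480, Int.negSucc 70108415999, Int.ofNat 10015488000],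
  [Int.ofNat 482539680000, Int.negSucc 51144307199, Int.ofNat 90923212800, Int.negSucc 52613971199, Int.negSucc 52907903999, Int.negSucc 1361950329599, Int.ofNat 2765441710080, Int.negSucc 212154163199, Int.ofNat 81862233600, Int.negSucc 10973491199, Int.ofNat 691544770560, Int.negSucc 1768175438399, Int.negSucc 159115622399, Int.ofNat 1454771404800, Int.ofNat 79342015536, Int.ofNat 136384819200, Int.negSucc 1020807748799, Int.ofNat 55386374400, Int.negSucc 39778905599, Int.ofNat 5682700800],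
  [Int.ofNat 153432921600, Int.negSucc 7936185599, Int.ofNat 28217548800, Int.negSucc 27041817599, Int.negSucc 14108774399, Int.negSucc 422919221759, Int.ofNat 861227458560, Int.negSucc 65840947199, Int.ofNat 51662867200, Int.negSucc 2743372799, Int.ofNat 214819153920, Int.negSucc 546840201599, Int.negSucc 49380710399, Int.ofNat 451480780800, Int.ofNat 24371683056, Int.ofNat 42326323200, Int.negSucc 316605179519, Int.ofNat 16997299200, Int.negSucc 12345177599, Int.ofNat 1763596800],
  [Int.ofNat 20477318400, Int.ofNat 0, Int.ofNat 3695155200, Int.negSucc 5731689599, Int.ofNat 0, Int.negSucc 55408147199, Int.ofNat 113392742400, Int.negSucc 8622028799, Int.ofNat 12930436800, Int.ofNat 0, Int.ofNat 28126103040, Int.negSucc 71482823999, Int.negSucc 6466521599, Int.ofNat 59122483200, Int.ofNat 3080721924, Int.ofNat 5542732800, Int.negSucc 41441803199, Int.ofNat 2189255040, Int.negSucc 1616630399, Int.ofNat 230947200],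
  [Int.ofNat 162260582400, Int.negSucc 55738367999, Int.ofNat 33030144000, Int.negSucc 16721510399, Int.ofNat 66886041600, Int.negSucc 494534655999, Int.ofNat 1001914368000, Int.negSucc 77070335999, Int.ofNat 0, Int.ofNat 0, Int.ofNat 250478592000, Int.negSucc 646100582399, Int.negSucc 57802751999, Int.ofNat 528482304000, Int.ofNat 26607329280, Int.ofNat 49545216000, Int.negSucc 370900991999, Int.ofNat 20873216000, Int.negSucc 14450687999, Int.ofNat 2064384000],
  [Int.ofNat 865802649600, Int.negSucc 250822655999, Int.ofNat 178362777600, Int.negSucc 122624409599, Int.ofNat 334430208000, Int.negSucc 2670487142399, Int.ofNat 5410337587200, Int.negSucc 416179814399, Int.ofNat 13005619200, Int.negSucc 7431782399, Int.ofNat 1352584396800, Int.negSucc 3478074163199, Int.negSucc 312134860799, Int.ofNat 2853804441600, Int.ofNat 145537523712, Int.ofNat 267544166400, Int.negSucc 2002865356799, Int.ofNat 112157982720, Int.negSucc 78033715199, Int.ofNat 11147673600],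
  [Int.ofNat 1989163008000, Int.negSucc 459841535999, Int.ofNat 408748032000, Int.negSucc 313528319999, Int.ofNat 501645312000, Int.negSucc 6119866367999, Int.ofNat 12398690304000, Int.negSucc 953745407999, Int.ofNat 75479040000, Int.negSucc 33443020799, Int.ofNat 3101066035200, Int.negSucc 7949684735999, Int.negSucc 715309055999, Int.ofNat 6539968512000, Int.ofNat 343200291840, Int.ofNat 613122048000, Int.negSucc 4589899775999, Int.ofNat 254474035200, Int.negSucc 178827263999, Int.ofNat 25546752000],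
  [Int.ofNat 2476409241600, Int.negSucc 423263231999, Int.ofNat 501645312000, Int.negSucc 426398515199, Int.ofNat 250822656000, Int.negSucc 7512138547199, Int.ofNat 15215599042560, Int.negSucc 1170505727999, Int.ofNat 203986944000, Int.negSucc 58525286399, Int.ofNat 3809113620480, Int.negSucc 9727622553599, Int.negSucc 877879295999, Int.ofNat 8026324992000, Int.ofNat 433680791040, Int.ofNat 752467968000, Int.negSucc 5632536268799, Int.ofNat 308488642560, Int.negSucc 219469823999, Int.ofNat 31352832000],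
  [Int.ofNat 1738579852800, Int.negSucc 193995647999, Int.ofNat 344881152000, Int.negSucc 352915315199, Int.negSucc 11757311999, Int.negSucc 5167824883199, Int.ofNat 10463345786880, Int.negSucc 804722687999, Int.ofNat 293650560000, Int.negSucc 44939059199, Int.ofNat 2622374092800, Int.negSucc 6663694262399, Int.negSucc 603542015999, Int.ofNat 5518098432000, Int.ofNat 303830987040, Int.ofNat 517321728000, Int.negSucc 3870755683199, Int.ofNat 209391920640, Int.negSucc 150885503999, Int.ofNat 21555072000],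
  [Int.ofNat 646390886400, Int.negSucc 35271935999, Int.ofNat 125411328000, Int.negSucc 169305292799, Int.negSucc 28217548799, Int.negSucc 1881466030079, Int.ofNat 3810361927680, Int.negSucc 292626431999, Int.ofNat 213090124800, Int.negSucc 12541132799, Int.ofNat 955129190400, Int.negSucc 2414276927999, Int.negSucc 219469823999, Int.ofNat 2006581248000, Int.ofNat 110561189760, Int.ofNat 188116992000, Int.negSucc 1406157096959, Int.ofNat 75098741760, Int.negSucc 54867455999, Int.ofNat 7838208000],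
  [Int.ofNat 98761420800, Int.ofNat 0, Int.ofNat 18811699200, Int.negSucc 35271935999, Int.ofNat 0, Int.negSucc 282625459199, Int.ofNat 573600061440, Int.negSucc 43893964799, Int.ofNat 61102473600, Int.ofNat 0, Int.ofNat 143334696960, Int.negSucc 361374047999, Int.negSucc 32920473599, Int.ofNat 300987187200, Int.ofNat 16182470304, Int.ofNat 28217548800, Int.negSucc 210706271999, Int.ofNat 11051873280, Int.negSucc 8230118399, Int.ofNat 1175731200],
  [Int.ofNat 379020902400, Int.negSucc 111476735999, Int.ofNat 79272345600, Int.negSucc 72459878399, Int.ofNat 167215104000, Int.negSucc 1186883174399, Int.ofNat 2404594483200, Int.negSucc 184968806399, Int.ofNat 13005619200, Int.negSucc 7431782399, Int.ofNat 601148620800, Int.negSucc 1539772415999, Int.negSucc 138726604799, Int.ofNat 1268357529600, Int.ofNat 65715535872, Int.ofNat 118908518400, Int.negSucc 890162380799, Int.ofNat 49538334720, Int.negSucc 34681651199, Int.ofNat 4954521600],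
  [Int.ofNat 1633134182400, Int.negSucc 390168575999, Int.ofNat 346816512000, Int.negSucc 352545177599, Int.ofNat 585252864000, Int.negSucc 5192613887999, Int.ofNat 10513412259840, Int.negSucc 809238527999, Int.ofNat 71995392000, Int.negSucc 37158911999, Int.ofNat 2631697367040, Int.negSucc 6715079884799, Int.negSucc 606928895999, Int.ofNat 5549064192000, Int.ofNat 298653143040, Int.ofNat 520224768000, Int.negSucc 3894112051199, Int.ofNat 214291660800, Int.negSucc 151732223999, Int.ofNat 21676032000],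
  [Int.ofNat 2880628531200, Int.negSucc 517321727999, Int.ofNat 613122048000, Int.negSucc 677221171199, Int.ofNat 627056640000, Int.negSucc 9181889740799, Int.ofNat 18575879454720, Int.negSucc 1430618111999, Int.ofNat 224630784000, Int.negSucc 75246796799, Int.ofNat 4655779430400, Int.negSucc 11831513702399, Int.negSucc 1072963583999, Int.ofNat 9809952768000, Int.ofNat 549201461760, Int.ofNat 919683072000, Int.negSucc 6882585292799, Int.ofNat 374012190720, Int.negSucc 268240895999, Int.ofNat 38320128000],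
  [Int.ofNat 2573893324800, Int.negSucc 305690111999, Int.ofNat 543449088000, Int.negSucc 682969190399, Int.ofNat 219469824000, Int.negSucc 8145146419199, Int.ofNat 16455917076480, Int.negSucc 1268047871999, Int.ofNat 399124992000, Int.negSucc 68279500799, Int.ofNat 4130677555200, Int.negSucc 10446139468799, Int.negSucc 951035903999, Int.ofNat 8695185408000, Int.ofNat 501328517760, Int.ofNat 815173632000, Int.negSucc 6096587212799, Int.ofNat 327515166720, Int.negSucc 237758975999, Int.ofNat 33965568000],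
  [Int.ofNat 1154067264000, Int.negSucc 67604543999, Int.ofNat 240371712000, Int.negSucc 369767462399, Int.ofNat 5878656000, Int.negSucc 3608964979199, Int.ofNat 7280737228800, Int.negSucc 560867327999, Int.ofNat 354826752000, Int.negSucc 22469529599, Int.ofNat 1829025515520, Int.negSucc 4601733897599, Int.negSucc 420650495999, Int.ofNat 3845947392000, Int.ofNat 224205135840, Int.ofNat 360557568000, Int.negSucc 2692901635199, Int.ofNat 143069068800, Int.negSucc 105162623999, Int.ofNat 15023232000],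
  [Int.ofNat 206046892800, Int.ofNat 0, Int.ofNat 42326323200, Int.negSucc 84652646399, Int.ofNat 0, Int.negSucc 636934959359, Int.ofNat 1285413857280, Int.negSucc 98761420799, Int.ofNat 121588320000, Int.ofNat 0, Int.ofNat 322089384960, Int.negSucc 808072977599, Int.negSucc 74071065599, Int.ofNat 677221171200, Int.ofNat 38908986984, Int.ofNat 63489484800, Int.negSucc 473428307519, Int.ofNat 24729546240, Int.negSucc 18517766399, Int.ofNat 2645395200],
  [Int.ofNat 457054617600, Int.negSucc 111476735999, Int.ofNat 99090432000, Int.negSucc 114263654399, Int.ofNat 167215104000, Int.negSucc 1483603967999, Int.ofNat 3001284034560, Int.negSucc 231211007999, Int.ofNat 26320896000, Int.negSucc 14863564799, Int.ofNat 752550543360, Int.negSucc 1910432563199, Int.negSucc 173408255999, Int.ofNat 1585446912000, Int.ofNat 89576202240, Int.ofNat 148635648000, Int.negSucc 1112470732799, Int.ofNat 60297216000, Int.negSucc 43352063999, Int.ofNat 6193152000],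
  [Int.ofNat 1524057292800, Int.negSucc 285659135999, Int.ofNat 338558976000, Int.negSucc 406890086399, Int.ofNat 418037760000, Int.negSucc 5070373683199, Int.ofNat 10245097390080, Int.negSucc 789970943999, Int.ofNat 107864064000, Int.negSucc 44590694399, Int.ofNat 2571121459200, Int.negSucc 6506061004799, Int.negSucc 592478207999, Int.ofNat 5416943616000, Int.ofNat 322309048320, Int.ofNat 507838464000, Int.negSucc 3799180492799, Int.ofNat 203638865920, Int.negSucc 148119551999, Int.ofNat 21159936000],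
  [Int.ofNat 1943236915200, Int.negSucc 245597183999, Int.ofNat 436617216000, Int.negSucc 571318271999, Int.ofNat 292626432000, Int.negSucc 6544445644799, Int.ofNat 13204132945920, Int.negSucc 1018773503999, Int.ofNat 255273984000, Int.negSucc 51093503999, Int.ofNat 3313452441600, Int.negSucc 8358142463999, Int.negSucc 764080127999, Int.ofNat 6985875456000, Int.ofNat 432463691520, Int.ofNat 654925824000, Int.negSucc 4895270553599, Int.ofNat 260694282240, Int.negSucc 191020031999, Int.ofNat 27288576000],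
  [Int.ofNat 1115115724800, Int.negSucc 70543871999, Int.ofNat 250822656000, Int.negSucc 384246374399, Int.ofNat 52254720000, Int.negSucc 3766984703999, Int.ofNat 7587071815680, Int.negSucc 585252863999, Int.ofNat 301529088000, Int.negSucc 20669644799, Int.ofNat 1901572485120, Int.negSucc 4781277849599, Int.negSucc 438939647999, Int.ofNat 4013162496000, Int.ofNat 253418699520, Int.ofNat 376233984000, Int.negSucc 2807471923199, Int.ofNat 148879503360, Int.negSucc 109734911999, Int.ofNat 15676416000],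
  [Int.ofNat 241126502400, Int.ofNat 0, Int.ofNat 53996544000, Int.negSucc 103790937599, Int.ofNat 0, Int.negSucc 813035059199, Int.ofNat 1637999677440, Int.negSucc 125991935999, Int.ofNat 130985792000, Int.ofNat 0, Int.ofNat 408672552960, Int.negSucc 1025869017599, Int.negSucc 94493951999, Int.ofNat 863944704000, Int.ofNat 54193542480, Int.ofNat 80994816000, Int.negSucc 603171878399, Int.ofNat 31614589440, Int.negSucc 23623487999, Int.ofNat 3374784000],
  [Int.ofNat 304974028800, Int.negSucc 59222015999, Int.ofNat 70189056000, Int.negSucc 89181388799, Int.ofNat 83607552000, Int.negSucc 1051582873599, Int.ofNat 2121264660480, Int.negSucc 163774463999, Int.ofNat 27611136000, Int.negSucc 11147673599, Int.ofNat 533010186240, Int.negSucc 1342597939199, Int.negSucc 122830847999, Int.ofNat 1123024896000, Int.ofNat 71578321920, Int.ofNat 105283584000, Int.negSucc 787119513599, Int.ofNat 41522216960, Int.negSucc 30707711999, Int.ofNat 4386816000],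
  [Int.ofNat 742684723200, Int.negSucc 99283967999, Int.ofNat 176504832000, Int.negSucc 226959667199, Int.ofNat 135862272000, Int.negSucc 2646182246399, Int.ofNat 5333043179520, Int.negSucc 411844607999, Int.ofNat 86940672000, Int.negSucc 20437401599, Int.ofNat 1334790696960, Int.negSucc 3364173388799, Int.negSucc 308883455999, Int.ofNat 2824077312000, Int.ofNat 189052496640, Int.ofNat 264757248000, Int.negSucc 1977313766399, Int.ofNat 104794583040, Int.negSucc 77220863999, Int.ofNat 11031552000],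
  [Int.ofNat 613905868800, Int.negSucc 41803775999, Int.ofNat 148635648000, Int.negSucc 210586521599, Int.ofNat 47029248000, Int.negSucc 2231966822399, Int.ofNat 4494366535680, Int.negSucc 346816511999, Int.ofNat 140775936000, Int.negSucc 10799308799, Int.ofNat 1118502604800, Int.negSucc 2821333939199, Int.negSucc 260112383999, Int.ofNat 2378170368000, Int.ofNat 163539855360, Int.ofNat 222953472000, Int.negSucc 1662188774399, Int.ofNat 88820121600, Int.negSucc 65028095999, Int.ofNat 9289728000],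
  [Int.ofNat 171293875200, Int.ofNat 0, Int.ofNat 41803776000, Int.negSucc 71458329599, Int.ofNat 0, Int.negSucc 629132313599, Int.ofNat 1268622673920, Int.negSucc 97542143999, Int.ofNat 82486656000, Int.ofNat 0, Int.ofNat 313081251840, Int.negSucc 790573996799, Int.negSucc 73156607999, Int.ofNat 668860416000, Int.ofNat 45940245120, Int.ofNat 62705664000, Int.negSucc 466456838399, Int.ofNat 24847119360, Int.negSucc 18289151999, Int.ofNat 2612736000],
  [Int.ofNat 114089472000, Int.negSucc 16024780799, Int.ofNat 28488499200, Int.negSucc 37275033599, Int.ofNat 20901888000, Int.negSucc 427523174399, Int.ofNat 860458475520, Int.negSucc 66473164799, Int.ofNat 18209587200, Int.negSucc 3715891199, Int.ofNat 214110167040, Int.negSucc 540110591999, Int.negSucc 49854873599, Int.ofNat 455815987200, Int.ofNat 32674005504, Int.ofNat 42732748800, Int.negSucc 318653798399, Int.ofNat 17004503040, Int.negSucc 12463718399, Int.ofNat 1780531200],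
  [Int.ofNat 182194790400, Int.negSucc 13237862399, Int.ofNat 47067955200, Int.negSucc 61312204799, Int.ofNat 16721510400, Int.negSucc 706778849279, Int.ofNat 1423512760320, Int.negSucc 109825228799, Int.ofNat 39266304000, Int.negSucc 3251404799, Int.ofNat 350162104320, Int.negSucc 888562483199, Int.negSucc 82368921599, Int.ofNat 753087283200, Int.ofNat 55740109824, Int.ofNat 70601932800, Int.negSucc 525700546559, Int.ofNat 28745687040, Int.negSucc 20592230399, Int.ofNat 2941747200],
  [Int.ofNat 74071065600, Int.ofNat 0, Int.ofNat 19508428800, Int.negSucc 28478822399, Int.ofNat 0, Int.negSucc 293454766079, Int.ofNat 592191129600, Int.negSucc 45519667199, Int.ofNat 31334553600, Int.ofNat 0, Int.ofNat 143973365760, Int.negSucc 366777331199, Int.negSucc 34139750399, Int.ofNat 312134860800, Int.ofNat 23139478656, Int.ofNat 29262643200, Int.negSucc 217383989759, Int.ofNat 11939235840, Int.negSucc 8534937599, Int.ofNat 1219276800],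
  [Int.ofNat 22701772800, Int.negSucc 1741823999, Int.ofNat 6193152000, Int.negSucc 8012390399, Int.ofNat 2090188800, Int.negSucc 93085224959, Int.ofNat 187684761600, Int.negSucc 14450687999, Int.ofNat 7018905600, Int.negSucc 464486399, Int.ofNat 45350645760, Int.negSucc 116150630399, Int.negSucc 10838015999, Int.ofNat 99090432000, Int.ofNat 7688701440, Int.ofNat 9289728000, Int.negSucc 69015582719, Int.ofNat 3913728000, Int.negSucc 2709503999, Int.ofNat 387072000],
  [Int.ofNat 18090777600, Int.ofNat 0, Int.ofNat 5057740800, Int.negSucc 6444748799, Int.ofNat 0, Int.negSucc 76190105599, Int.ofNat 153574901760, Int.negSucc 11801395199, Int.ofNat 7610265600, Int.ofNat 0, Int.ofNat 36734638080, Int.negSucc 94348799999, Int.negSucc 8851046399, Int.ofNat 80923852800, Int.ofNat 6287815296, Int.ofNat 7586611200, Int.negSucc 56184575999, Int.ofNat 3196211200, Int.negSucc 2212761599, Int.ofNat 316108800],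
  [Int.ofNat 1925683200, Int.ofNat 0, Int.ofNat 560332800, Int.negSucc 696729599, Int.ofNat 0, Int.negSucc 8470712319, Int.ofNat 17066434560, Int.negSucc 1307443199, Int.ofNat 1171660800, Int.ofNat 0, Int.ofNat 4016947200, Int.negSucc 10363852799, Int.negSucc 980582399, Int.ofNat 8965324800, Int.ofNat 698132736, Int.ofNat 840499200, Int.negSucc 6193367039, Int.ofNat 354099200, Int.negSucc 245145599, Int.ofNat 35020800],
  [Int.ofNat 46448640000, Int.negSucc 16721510399, Int.ofNat 9909043200, Int.negSucc 8360755199, Int.ofNat 33443020800, Int.negSucc 148360396799, Int.ofNat 300574310400, Int.negSucc 23121100799, Int.ofNat 0, Int.ofNat 0, Int.ofNat 75143577600, Int.negSucc 192994099199, Int.negSucc 17340825599, Int.ofNat 158544691200, Int.ofNat 7982198784, Int.ofNat 14863564800, Int.negSucc 111270297599, Int.ofNat 6261964800, Int.negSucc 4335206399, Int.ofNat 619315200],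
  [Int.ofNat 227598336000, Int.negSucc 69672959999, Int.ofNat 49545216000, Int.negSucc 61312204799, Int.ofNat 167215104000, Int.negSucc 741801983999, Int.ofNat 1502871552000, Int.negSucc 115605503999, Int.ofNat 5883494400, Int.negSucc 3715891199, Int.ofNat 375346298880, Int.negSucc 959628902399, Int.negSucc 86704127999, Int.ofNat 792723456000, Int.ofNat 39910993920, Int.ofNat 74317824000, Int.negSucc 556351487999, Int.ofNat 31216926720, Int.negSucc 21676031999, Int.ofNat 3096576000],
  [Int.ofNat 477143654400, Int.negSucc 118444031999, Int.ofNat 105283584000, Int.negSucc 157460889599, Int.ofNat 292626432000, Int.negSucc 1576329215999, Int.ofNat 3192487280640, Int.negSucc 245661695999, Int.ofNat 24966144000, Int.negSucc 13005619199, Int.ofNat 797517987840, Int.negSucc 2028992716799, Int.negSucc 184246271999, Int.ofNat 1684537344000, Int.ofNat 87249415680, Int.ofNat 157925376000, Int.negSucc 1182188851199, Int.ofNat 65662464000, Int.negSucc 46061567999, Int.ofNat 6580224000],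
  [Int.ofNat 544784486400, Int.negSucc 101896703999, Int.ofNat 120766464000, Int.negSucc 203445043199, Int.ofNat 229920768000, Int.negSucc 1808722943999, Int.ofNat 3656560803840, Int.negSucc 281788415999, Int.ofNat 50226176000, Int.negSucc 18114969599, Int.ofNat 915719454720, Int.negSucc 2315987251199, Int.negSucc 211341311999, Int.ofNat 1932263424000, Int.ofNat 104264858880, Int.ofNat 181149696000, Int.negSucc 1355671295999, Int.ofNat 74169446400, Int.negSucc 52835327999, Int.ofNat 7547904000],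
  [Int.ofNat 354820435200, Int.negSucc 44089919999, Int.ofNat 78382080000, Int.negSucc 147586924799, Int.ofNat 80341632000, Int.negSucc 1175299372799, Int.ofNat 2366494341120, Int.negSucc 182891519999, Int.ofNat 59329984000, Int.negSucc 11670220799, Int.ofNat 595674777600, Int.negSucc 1495503777599, Int.negSucc 137168639999, Int.ofNat 1254113280000, Int.ofNat 70317298800, Int.ofNat 117573120000, Int.negSucc 879157540799, Int.ofNat 47283989760, Int.negSucc 34292159999, Int.ofNat 4898880000],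
  [Int.ofNat 124061414400, Int.negSucc 7642252799, Int.ofNat 27172454400, Int.negSucc 58786559999, Int.ofNat 9405849600, Int.negSucc 408472243199, Int.ofNat 817786368000, Int.negSucc 63402393599, Int.ofNat 38734348800, Int.negSucc 2874009599, Int.ofNat 207114485760, Int.negSucc 515837548799, Int.negSucc 47551795199, Int.ofNat 434759270400, Int.ofNat 24964093728, Int.ofNat 40758681600, Int.negSucc 304227705599, Int.ofNat 16071229440, Int.negSucc 11887948799, Int.ofNat 1698278400],
  [Int.ofNat 18060537600, Int.ofNat 0, Int.ofNat 3919104000, Int.negSucc 10140681599, Int.ofNat 0, Int.negSucc 59131295999, Int.ofNat 117816975360, Int.negSucc 9144575999, Int.ofNat 10563963200, Int.ofNat 0, Int.ofNat 29928890880, Int.negSucc 74122775999, Int.negSucc 6858431999, Int.ofNat 62705664000, Int.ofNat 3599962380, Int.ofNat 5878656000, Int.negSucc 43773307199, Int.ofNat 2259653760, Int.negSucc 1714607999, Int.ofNat 244944000],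
  [Int.ofNat 176504832000, Int.negSucc 55738367999, Int.ofNat 39636172800, Int.negSucc 72459878399, Int.ofNat 167215104000, Int.negSucc 593441587199, Int.ofNat 1202297241600, Int.negSucc 92484403199, Int.ofNat 11766988800, Int.negSucc 7431782399, Int.ofNat 299831132160, Int.negSucc 761293209599, Int.negSucc 69363302399, Int.ofNat 634178764800, Int.ofNat 31928795136, Int.ofNat 59454259200, Int.negSucc 445081190399, Int.ofNat 24862064640, Int.negSucc 17340825599, Int.ofNat 2477260800],
  [Int.ofNat 728159846400, Int.negSucc 185794559999, Int.ofNat 165150720000, Int.negSucc 352545177599, Int.ofNat 585252864000, Int.negSucc 2472673279999, Int.ofNat 5002883235840, Int.negSucc 385351679999, Int.ofNat 61157376000, Int.negSucc 37158911999, Int.ofNat 1247562301440, Int.negSucc 3154791628799, Int.negSucc 289013759999, Int.ofNat 2642411520000, Int.ofNat 136055808000, Int.ofNat 247726080000, Int.negSucc 1854156595199, Int.ofNat 102740377600, Int.negSucc 72253439999, Int.ofNat 10321920000],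
  [Int.ofNat 1223689420800, Int.negSucc 235146239999, Int.ofNat 278691840000, Int.negSucc 654925823999, Int.ofNat 710664192000, Int.negSucc 4174029619199, Int.ofNat 8421463572480, Int.negSucc 650280959999, Int.ofNat 141281280000, Int.negSucc 64099123199, Int.ofNat 2104820121600, Int.negSucc 5296886783999, Int.negSucc 487710719999, Int.ofNat 4459069440000, Int.ofNat 238753267200, Int.ofNat 418037760000, Int.negSucc 3127328870399, Int.ofNat 171078082560, Int.negSucc 121927679999, Int.ofNat 17418240000],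
  [Int.ofNat 1041988147200, Int.negSucc 133249535999, Int.ofNat 236888064000, Int.negSucc 603367833599, Int.ofNat 355332096000, Int.negSucc 3551792025599, Int.ofNat 7125825208320, Int.negSucc 552738815999, Int.ofNat 188364288000, Int.negSucc 47842099199, Int.ofNat 1791756288000, Int.negSucc 4479477811199, Int.negSucc 414554111999, Int.ofNat 3790209024000, Int.ofNat 211312644480, Int.ofNat 355332096000, Int.negSucc 2655396172799, Int.ofNat 143086970880, Int.negSucc 103638527999, Int.ofNat 14805504000],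
  [Int.ofNat 446959296000, Int.negSucc 28413503999, Int.ofNat 101025792000, Int.negSucc 282763353599, Int.ofNat 60746112000, Int.negSucc 1518408460799, Int.ofNat 3021513062400, Int.negSucc 235726847999, Int.ofNat 140143360000, Int.negSucc 13237862399, Int.ofNat 766292244480, Int.negSucc 1900767254399, Int.negSucc 176795135999, Int.ofNat 1616412672000, Int.ofNat 92737340640, Int.ofNat 151538688000, Int.negSucc 1130129884799, Int.ofNat 59887296000, Int.negSucc 44198783999, Int.ofNat 6314112000],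
  [Int.ofNat 76781779200, Int.ofNat 0, Int.ofNat 17244057600, Int.negSucc 54671500799, Int.ofNat 0, Int.negSucc 260145043199, Int.ofNat 513646479360, Int.negSucc 40236134399, Int.ofNat 43832275200, Int.ofNat 0, Int.ofNat 131092577280, Int.negSucc 323161876799, Int.negSucc 30177100799, Int.ofNat 275904921600, Int.ofNat 15928014312, Int.ofNat 25866086400, Int.negSucc 192356337599, Int.ofNat 9960330240, Int.negSucc 7544275199, Int.ofNat 1077753600],
  [Int.ofNat 286897766400, Int.negSucc 74317823999, Int.ofNat 66060288000, Int.negSucc 171395481599, Int.ofNat 250822656000, Int.negSucc 989069311999, Int.ofNat 1997140131840, Int.negSucc 154140671999, Int.ofNat 31739904000, Int.negSucc 22295347199, Int.ofNat 497984471040, Int.negSucc 1251558604799, Int.negSucc 115605503999, Int.ofNat 1056964608000, Int.ofNat 56233820160, Int.ofNat 99090432000, Int.negSucc 741453619199, Int.ofNat 40585216000, Int.negSucc 28901375999, Int.ofNat 4128768000],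
  [Int.ofNat 939462451200, Int.negSucc 184633343999, Int.ofNat 218824704000, Int.negSucc 610335129599, Int.ofNat 627056640000, Int.negSucc 3276988825599, Int.ofNat 6594624798720, Int.negSucc 510590975999, Int.ofNat 118616064000, Int.negSucc 66886041599, Int.ofNat 1646647296000, Int.negSucc 4127193907199, Int.negSucc 382943231999, Int.ofNat 3501195264000, Int.ofNat 194330465280, Int.ofNat 328237056000, Int.negSucc 2454083788799, Int.ofNat 133036359680, Int.negSucc 95735807999, Int.ofNat 13676544000],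
  [Int.ofNat 1169402572800, Int.negSucc 154151423999, Int.ofNat 274046976000, Int.negSucc 810819071999, Int.ofNat 491194368000, Int.negSucc 4107127449599, Int.ofNat 8216470241280, Int.negSucc 639442943999, Int.ofNat 207932928000, Int.negSucc 67350527999, Int.ofNat 2061003571200, Int.negSucc 5145275519999, Int.negSucc 479582207999, Int.ofNat 4384751616000, Int.ofNat 253990235520, Int.ofNat 411070464000, Int.negSucc 3069277747199, Int.ofNat 164920412160, Int.negSucc 119895551999, Int.ofNat 17127936000],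
  [Int.ofNat 653125939200, Int.negSucc 43110143999, Int.ofNat 153280512000, Int.negSucc 485794713599, Int.ofNat 120185856000, Int.negSucc 2301510758399, Int.ofNat 4564995563520, Int.negSucc 357654527999, Int.ofNat 193363968000, Int.negSucc 22875955199, Int.ofNat 1153644871680, Int.negSucc 2864386022399, Int.negSucc 268240895999, Int.ofNat 2452488192000, Int.ofNat 146532032640, Int.ofNat 229920768000, Int.negSucc 1712909721599, Int.ofNat 91192227840, Int.negSucc 67060223999, Int.ofNat 9580032000],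
  [Int.ofNat 137393625600, Int.ofNat 0, Int.ofNat 32223744000, Int.negSucc 112249670399, Int.ofNat 0, Int.negSucc 485298777599, Int.ofNat 954792437760, Int.negSucc 75188735999, Int.ofNat 73685920000, Int.ofNat 0, Int.ofNat 242697047040, Int.negSucc 599751734399, Int.negSucc 56391551999, Int.ofNat 515579904000, Int.ofNat 31080241080, Int.ofNat 48335616000, Int.negSucc 359020771199, Int.ofNat 18785813760, Int.negSucc 14097887999, Int.ofNat 2013984000],
  [Int.ofNat 243777945600, Int.negSucc 48771071999, Int.ofNat 57802752000, Int.negSucc 178362777599, Int.ofNat 167215104000, Int.negSucc 865900134399, Int.ofNat 1733563023360, Int.negSucc 134873087999, Int.ofNat 36757504000, Int.negSucc 22295347199, Int.ofNat 433785569280, Int.negSucc 1082717798399, Int.negSucc 101154815999, Int.ofNat 924844032000, Int.ofNat 54575216640, Int.ofNat 86704128000, Int.negSucc 647451033599, Int.ofNat 34577285120, Int.negSucc 25288703999, Int.ofNat 3612672000],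
  [Int.ofNat 590652518400, Int.negSucc 80123903999, Int.ofNat 142442496000, Int.negSucc 453919334399, Int.ofNat 271724544000, Int.negSucc 2133435494399, Int.ofNat 4250664714240, Int.negSucc 332365823999, Int.ofNat 103434240000, Int.negSucc 40874803199, Int.ofNat 1064535736320, Int.negSucc 2658284697599, Int.negSucc 249274367999, Int.ofNat 2279079936000, Int.ofNat 140842437120, Int.ofNat 213663744000, Int.negSucc 1593268991999, Int.ofNat 85347655680, Int.negSucc 62318591999, Int.ofNat 8902656000],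
  [Int.ofNat 482601369600, Int.negSucc 33094655999, Int.ofNat 117669888000, Int.negSucc 391562035199, Int.ofNat 104509440000, Int.negSucc 1762766745599, Int.ofNat 3488743157760, Int.negSucc 274563071999, Int.ofNat 130163712000, Int.negSucc 19276185599, Int.ofNat 876595507200, Int.negSucc 2187034214399, Int.negSucc 205922303999, Int.ofNat 1882718208000, Int.ofNat 120132149760, Int.ofNat 176504832000, Int.negSucc 1313670758399, Int.ofNat 70644940800, Int.negSucc 51480575999, Int.ofNat 7354368000],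
  [Int.ofNat 132480230400, Int.ofNat 0, Int.ofNat 32514048000, Int.negSucc 115918387199, Int.ofNat 0, Int.negSucc 487649433599, Int.ofNat 959365693440, Int.negSucc 75866111999, Int.ofNat 64381184000, Int.ofNat 0, Int.ofNat 241606471680, Int.negSucc 601952601599, Int.negSucc 56899583999, Int.ofNat 520224768000, Int.ofNat 33485477760, Int.ofNat 48771072000, Int.negSucc 361992153599, Int.ofNat 19321989120, Int.negSucc 14224895999, Int.ofNat 2032128000],
  [Int.ofNat 112492800000, Int.negSucc 15676415999, Int.ofNat 27869184000, Int.negSucc 93187583999, Int.ofNat 52254720000, Int.negSucc 417292646399, Int.ofNat 825160089600, Int.negSucc 65028095999, Int.ofNat 24148992000, Int.negSucc 9289727999, Int.ofNat 206928691200, Int.negSucc 517103999999, Int.negSucc 48771071999, Int.ofNat 445906944000, Int.ofNat 29489806080, Int.ofNat 41803776000, Int.negSucc 311046220799, Int.ofNat 16740864000, Int.negSucc 12192767999, Int.ofNat 1741824000],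
  [Int.ofNat 179794944000, Int.negSucc 12773375999, Int.ofNat 45416448000, Int.negSucc 153280511999, Int.ofNat 41803776000, Int.negSucc 677836902399, Int.ofNat 1336612300800, Int.negSucc 105971711999, Int.ofNat 47072256000, Int.negSucc 8128511999, Int.ofNat 334392576000, Int.negSucc 839559167999, Int.negSucc 79478783999, Int.ofNat 726663168000, Int.ofNat 49648757760, Int.ofNat 68124672000, Int.negSucc 506563276799, Int.ofNat 27829760000, Int.negSucc 19869695999, Int.ofNat 2838528000],
  [Int.ofNat 72648576000, Int.ofNat 0, Int.ofNat 18579456000, Int.negSucc 65100671999, Int.ofNat 0, Int.negSucc 276825830399, Int.ofNat 544242585600, Int.negSucc 43352063999, Int.ofNat 31699584000, Int.ofNat 0, Int.ofNat 135959040000, Int.negSucc 342105119999, Int.negSucc 32514047999, Int.ofNat 297271296000, Int.ofNat 20446110720, Int.ofNat 27869184000, Int.negSucc 206821036799, Int.ofNat 11378304000, Int.negSucc 8128511999, Int.ofNat 1161216000],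
  [Int.ofNat 26920857600, Int.negSucc 1974067199, Int.ofNat 7018905600, Int.negSucc 24037171199, Int.ofNat 6270566400, Int.negSucc 104217702399, Int.ofNat 204580884480, Int.negSucc 16377446399, Int.ofNat 9169305600, Int.negSucc 1393459199, Int.ofNat 50985553920, Int.negSucc 128982067199, Int.negSucc 12283084799, Int.ofNat 112302489600, Int.ofNat 8063580672, Int.ofNat 10528358400, Int.negSucc 78206822399, Int.ofNat 4435558400, Int.negSucc 3070771199, Int.ofNat 438681600],
  [Int.ofNat 21487334400, Int.ofNat 0, Int.ofNat 5677056000, Int.negSucc 19334246399, Int.ofNat 0, Int.negSucc 83953049599, Int.ofNat 164383242240, Int.negSucc 13246463999, Int.ofNat 9287577600, Int.ofNat 0, Int.ofNat 40955013120, Int.negSucc 103812710399, Int.negSucc 9934847999, Int.ofNat 90832896000, Int.ofNat 6539944320, Int.ofNat 8515584000, Int.negSucc 63138969599, Int.ofNat 3587584000, Int.negSucc 2483711999, Int.ofNat 354816000],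
  [Int.ofNat 2675635200, Int.ofNat 0, Int.ofNat 722534400, Int.negSucc 2438553599, Int.ofNat 0, Int.negSucc 10614732799, Int.ofNat 20697600000, Int.negSucc 1685913599, Int.ofNat 1567641600, Int.ofNat 0, Int.ofNat 5154078720, Int.negSucc 13107225599, Int.negSucc 1264435199, Int.ofNat 11560550400, Int.ofNat 836051328, Int.ofNat 1083801600, Int.negSucc 8011852799, Int.ofNat 456601600, Int.negSucc 316108799, Int.ofNat 45158400],
  [Int.ofNat 31352832000, Int.negSucc 10450943999, Int.ofNat 7431782400, Int.negSucc 20901887999, Int.ofNat 41803776000, Int.negSucc 111270297599, Int.ofNat 225430732800, Int.negSucc 17340825599, Int.ofNat 4412620800, Int.negSucc 2786918399, Int.ofNat 56078991360, Int.negSucc 140739379199, Int.negSucc 13005619199, Int.ofNat 118908518400, Int.ofNat 5986649088, Int.ofNat 11147673600, Int.negSucc 83452723199, Int.ofNat 4626800640, Int.negSucc 3251404799, Int.ofNat 464486400],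
  [Int.ofNat 125508096000, Int.negSucc 33675263999, Int.ofNat 29933568000, Int.negSucc 97542143999, Int.ofNat 146313216000, Int.negSucc 448172031999, Int.ofNat 905197977600, Int.negSucc 69844991999, Int.ofNat 18095616000, Int.negSucc 12076646399, Int.ofNat 225022156800, Int.negSucc 562899455999, Int.negSucc 52383743999, Int.ofNat 478937088000, Int.ofNat 24403196160, Int.ofNat 44900352000, Int.negSucc 335983871999, Int.ofNat 18538956800, Int.negSucc 13095935999, Int.ofNat 1870848000],
  [Int.ofNat 203256345600, Int.negSucc 41150591999, Int.ofNat 48771072000, Int.negSucc 174879129599, Int.ofNat 182891520000, Int.negSucc 730472601599, Int.ofNat 1468311183360, Int.negSucc 113799167999, Int.ofNat 32971008000, Int.negSucc 18463334399, Int.ofNat 365620469760, Int.negSucc 911452953599, Int.negSucc 85349375999, Int.ofNat 780337152000, Int.ofNat 41177989440, Int.ofNat 73156608000, Int.negSucc 546910963199, Int.ofNat 29911956480, Int.negSucc 21337343999, Int.ofNat 3048192000],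
  [Int.ofNat 166173638400, Int.negSucc 22534847999, Int.ofNat 40061952000, Int.negSucc 154096991999, Int.ofNat 97324416000, Int.negSucc 600596639999, Int.ofNat 1196418263040, Int.negSucc 93477887999, Int.ofNat 34852160000, Int.negSucc 12250828799, Int.ofNat 300203366400, Int.negSucc 744235127999, Int.negSucc 70108415999, Int.ofNat 640991232000, Int.ofNat 35339023440, Int.ofNat 60092928000, Int.negSucc 448540545599, Int.ofNat 24259495680, Int.negSucc 17527103999, Int.ofNat 2503872000],
  [Int.ofNat 68402880000, Int.negSucc 4653935999, Int.ofNat 16547328000, Int.negSucc 67898476799, Int.ofNat 18615744000, Int.negSucc 248613926399, Int.ofNat 488523571200, Int.negSucc 38610431999, Int.ofNat 21653744000, Int.negSucc 3026419199, Int.ofNat 124253015040, Int.negSucc 305586691199, Int.negSucc 28957823999, Int.ofNat 264757248000, Int.ofNat 15163553160, Int.ofNat 24820992000, Int.negSucc 184780310399, Int.ofNat 9854611200, Int.negSucc 7239455999, Int.ofNat 1034208000],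
  [Int.ofNat 11300083200, Int.ofNat 0, Int.ofNat 2743372800, Int.negSucc 12124727999, Int.ofNat 0, Int.negSucc 41375577599, Int.ofNat 80097776640, Int.negSucc 6401203199, Int.ofNat 6070192800, Int.ofNat 0, Int.ofNat 20652952320, Int.negSucc 50396774399, Int.negSucc 4800902399, Int.ofNat 43893964800, Int.ofNat 2564063586, Int.ofNat 4115059200, Int.negSucc 30518207999, Int.ofNat 1590684480, Int.negSucc 1200225599, Int.ofNat 171460800],
  [Int.ofNat 94252032000, Int.negSucc 25546751999, Int.ofNat 22708224000, Int.negSucc 90574847999, Int.ofNat 125411328000, Int.negSucc 339992575999, Int.ofNat 683242291200, Int.negSucc 52985855999, Int.ofNat 14128128000, Int.negSucc 13005619199, Int.ofNat 169649356800, Int.negSucc 422102015999, Int.negSucc 39739391999, Int.ofNat 363331584000, Int.ofNat 18873146880, Int.ofNat 34062336000, Int.negSucc 254704127999, Int.ofNat 13943910400, Int.negSucc 9934847999, Int.ofNat 1419264000],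
  [Int.ofNat 303870873600, Int.negSucc 61834751999, Int.ofNat 73285632000, Int.negSucc 317708697599, Int.ofNat 313528320000, Int.negSucc 1096900403199, Int.ofNat 2193456168960, Int.negSucc 170999807999, Int.ofNat 51416064000, Int.negSucc 37623398399, Int.ofNat 545251983360, Int.negSucc 1355545497599, Int.negSucc 128249855999, Int.ofNat 1172570112000, Int.ofNat 62794448640, Int.ofNat 109928448000, Int.negSucc 820933478399, Int.ofNat 44605460480, Int.negSucc 32062463999, Int.ofNat 4580352000],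
  [Int.ofNat 370144857600, Int.negSucc 50295167999, Int.ofNat 89413632000, Int.negSucc 411397055999, Int.ofNat 252129024000, Int.negSucc 1338452236799, Int.ofNat 2652364431360, Int.negSucc 208631807999, Int.ofNat 79115904000, Int.negSucc 35649331199, Int.ofNat 664060723200, Int.negSucc 1646069039999, Int.negSucc 156473855999, Int.ofNat 1430618112000, Int.ofNat 79714484640, Int.ofNat 134120448000, Int.negSucc 999676943999, Int.ofNat 53936709120, Int.negSucc 39118463999, Int.ofNat 5588352000],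
  [Int.ofNat 201470976000, Int.negSucc 13716863999, Int.ofNat 48771072000, Int.negSucc 236278425599, Int.ofNat 65318400000, Int.negSucc 730617753599, Int.ofNat 1428266649600, Int.negSucc 113799167999, Int.ofNat 62733440000, Int.negSucc 11205734399, Int.ofNat 362479380480, Int.negSucc 893439590399, Int.negSucc 85349375999, Int.ofNat 780337152000, Int.ofNat 45046290240, Int.ofNat 73156608000, Int.negSucc 543840998399, Int.ofNat 29107814400, Int.negSucc 21337343999, Int.ofNat 3048192000],
  [Int.ofNat 41223168000, Int.ofNat 0, Int.ofNat 10015488000, Int.negSucc 51356591999, Int.ofNat 0, Int.negSucc 150324249599, Int.ofNat 289607270400, Int.negSucc 23369471999, Int.ofNat 21177016000, Int.ofNat 0, Int.ofNat 74528294400, Int.negSucc 182601215999, Int.negSucc 17527103999, Int.ofNat 160247808000, Int.ofNat 9423075060, Int.ofNat 15023232000, Int.negSucc 111273523199, Int.ofNat 5857488000, Int.negSucc 4381775999, Int.ofNat 625968000],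
  [Int.ofNat 115366809600, Int.negSucc 23514623999, Int.ofNat 27869184000, Int.negSucc 136559001599, Int.ofNat 125411328000, Int.negSucc 416915251199, Int.ofNat 826971586560, Int.negSucc 65028095999, Int.ofNat 23159808000, Int.negSucc 18114969599, Int.ofNat 205953269760, Int.negSucc 511341465599, Int.negSucc 48771071999, Int.ofNat 445906944000, Int.ofNat 25048154880, Int.ofNat 41803776000, Int.negSucc 311525222399, Int.ofNat 16717639680, Int.negSucc 12192767999, Int.ofNat 1741824000],
  [Int.ofNat 278038656000, Int.negSucc 37884671999, Int.ofNat 67350528000, Int.negSucc 345142425599, Int.ofNat 203793408000, Int.negSucc 1006296883199, Int.ofNat 1981827993600, Int.negSucc 157151231999, Int.ofNat 62151936000, Int.negSucc 32746291199, Int.ofNat 495657308160, Int.negSucc 1231839705599, Int.negSucc 117863423999, Int.ofNat 1077608448000, Int.ofNat 62908695360, Int.ofNat 101025792000, Int.negSucc 751282559999, Int.ofNat 40410639360, Int.negSucc 29465855999, Int.ofNat 4209408000],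
  [Int.ofNat 224542886400, Int.negSucc 15349823999, Int.ofNat 54577152000, Int.negSucc 290470924799, Int.ofNat 80341632000, Int.negSucc 814100313599, Int.ofNat 1586025584640, Int.negSucc 127346687999, Int.ofNat 67468800000, Int.negSucc 14805503999, Int.ofNat 400853698560, Int.negSucc 994536143999, Int.negSucc 95510015999, Int.ofNat 873234432000, Int.ofNat 52635471840, Int.ofNat 81865728000, Int.negSucc 607530671999, Int.ofNat 32763870720, Int.negSucc 23877503999, Int.ofNat 3411072000],
  [Int.ofNat 60626361600, Int.ofNat 0, Int.ofNat 14805504000, Int.negSucc 82170547199, Int.ofNat 0, Int.negSucc 220658860799, Int.ofNat 424958607360, Int.negSucc 34546175999, Int.ofNat 28948640000, Int.ofNat 0, Int.ofNat 108588211200, Int.negSucc 268682702399, Int.negSucc 25909631999, Int.ofNat 236888064000, Int.ofNat 14483470680, Int.ofNat 22208256000, Int.negSucc 164302084799, Int.ofNat 8793792000, Int.negSucc 6477407999, Int.ofNat 925344000],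
  [Int.ofNat 69992294400, Int.negSucc 9580031999, Int.ofNat 17031168000, Int.negSucc 93535948799, Int.ofNat 52254720000, Int.negSucc 253949337599, Int.ofNat 494247075840, Int.negSucc 39739391999, Int.ofNat 18274816000, Int.negSucc 9754214399, Int.ofNat 124484935680, Int.negSucc 309885004799, Int.negSucc 29804543999, Int.ofNat 272498688000, Int.ofNat 16890975360, Int.ofNat 25546752000, Int.negSucc 189329817599, Int.ofNat 10222786560, Int.negSucc 7451135999, Int.ofNat 1064448000],
  [Int.ofNat 111844454400, Int.negSucc 7693055999, Int.ofNat 27353088000, Int.negSucc 153280511999, Int.ofNat 41803776000, Int.negSucc 405240012799, Int.ofNat 784353239040, Int.negSucc 63823871999, Int.ofNat 33417216000, Int.negSucc 8476876799, Int.ofNat 198741688320, Int.negSucc 496332748799, Int.negSucc 47867903999, Int.ofNat 437649408000, Int.ofNat 27934623360, Int.ofNat 41029632000, Int.negSucc 304089676799, Int.ofNat 16699217920, Int.negSucc 11966975999, Int.ofNat 1709568000],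
  [Int.ofNat 44880998400, Int.ofNat 0, Int.ofNat 11031552000, Int.negSucc 63380620799, Int.ofNat 0, Int.negSucc 162597657599, Int.ofNat 312519997440, Int.negSucc 25740287999, Int.ofNat 19677504000, Int.ofNat 0, Int.ofNat 79794892800, Int.negSucc 199427961599, Int.negSucc 19305215999, Int.ofNat 176504832000, Int.ofNat 11362181040, Int.ofNat 16547328000, Int.negSucc 122441759999, Int.ofNat 6724569600, Int.negSucc 4826303999, Int.ofNat 689472000],
  [Int.ofNat 20926080000, Int.negSucc 1451519999, Int.ofNat 5160960000, Int.negSucc 29872281599, Int.ofNat 7838208000, Int.negSucc 75645337599, Int.ofNat 145053081600, Int.negSucc 12042239999, Int.ofNat 7571200000, Int.negSucc 1799884799, Int.ofNat 37128376320, Int.negSucc 93223871999, Int.negSucc 9031679999, Int.ofNat 82575360000, Int.ofNat 5521824000, Int.ofNat 7741440000, Int.negSucc 57379929599, Int.ofNat 3238215680, Int.negSucc 2257919999, Int.ofNat 322560000],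
  [Int.ofNat 16704576000, Int.ofNat 0, Int.ofNat 4128768000, Int.negSucc 23971852799, Int.ofNat 0, Int.negSucc 59951628799, Int.ofNat 114352896000, Int.negSucc 9633791999, Int.ofNat 7234752000, Int.ofNat 0, Int.ofNat 29550581760, Int.negSucc 74254319999, Int.negSucc 7225343999, Int.ofNat 66060288000, Int.ofNat 4425442560, Int.ofNat 6193152000, Int.negSucc 45867292799, Int.ofNat 2590282240, Int.negSucc 1806335999, Int.ofNat 258048000],
  [Int.ofNat 2496614400, Int.ofNat 0, Int.ofNat 619315200, Int.negSucc 3614284799, Int.ofNat 0, Int.negSucc 8851583999, Int.ofNat 16730542080, Int.negSucc 1445068799, Int.ofNat 1379660800, Int.ofNat 0, Int.ofNat 4394557440, Int.negSucc 11056953599, Int.negSucc 1083801599, Int.ofNat 9909043200, Int.ofNat 665812224, Int.ofNat 928972800, Int.negSucc 6870931199, Int.ofNat 388469760, Int.negSucc 270950399, Int.ofNat 38707200],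
  [Int.ofNat 12599193600, Int.negSucc 3483647999, Int.ofNat 3096576000, Int.negSucc 16721510399, Int.ofNat 20901888000, Int.negSucc 46362623999, Int.ofNat 92257320960, Int.negSucc 7225343999, Int.ofNat 2032128000, Int.negSucc 2786918399, Int.ofNat 22855311360, Int.negSucc 56260915199, Int.negSucc 5419007999, Int.ofNat 49545216000, Int.ofNat 2668619520, Int.ofNat 4644864000, Int.negSucc 34684876799, Int.ofNat 1869772800, Int.negSucc 1354751999, Int.ofNat 193536000],
  [Int.ofNat 40245811200, Int.negSucc 8273663999, Int.ofNat 9805824000, Int.negSucc 57131827199, Int.ofNat 52254720000, Int.negSucc 146571120639, Int.ofNat 290057994240, Int.negSucc 22880255999, Int.ofNat 7378022400, Int.negSucc 7664025599, Int.ofNat 71852605440, Int.negSucc 177637017599, Int.negSucc 17160191999, Int.ofNat 156893184000, Int.ofNat 8646583680, Int.ofNat 14708736000, Int.negSucc 109609006079, Int.ofNat 5877401600, Int.negSucc 4290047999, Int.ofNat 612864000],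
  [Int.ofNat 48353760000, Int.negSucc 6597158399, Int.ofNat 11728281600, Int.negSucc 72100627199, Int.ofNat 42456960000, Int.negSucc 175022910719, Int.ofNat 343094814720, Int.negSucc 27365990399, Int.ofNat 10735065600, Int.negSucc 6909235199, Int.ofNat 85502269440, Int.negSucc 211886539199, Int.negSucc 20524492799, Int.ofNat 187652505600, Int.ofNat 10682379792, Int.ofNat 17592422400, Int.negSucc 130746450239, Int.ofNat 7018986240, Int.negSucc 5131123199, Int.ofNat 733017600],
  [Int.ofNat 25866086400, Int.negSucc 1763596799, Int.ofNat 6270566400, Int.negSucc 40192588799, Int.ofNat 11234764800, Int.negSucc 93355960319, Int.ofNat 180487802880, Int.negSucc 14631321599, Int.ofNat 7770380800, Int.negSucc 2061158399, Int.ofNat 45589340160, Int.negSucc 112906483199, Int.negSucc 10973491199, Int.ofNat 100329062400, Int.ofNat 5887673568, Int.ofNat 9405849600, Int.negSucc 69712151039, Int.ofNat 3759436800, Int.negSucc 2743372799, Int.ofNat 391910400],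
  [Int.ofNat 5189184000, Int.ofNat 0, Int.ofNat 1262822400, Int.negSucc 8417908799, Int.ofNat 0, Int.negSucc 18754122239, Int.ofNat 35745131520, Int.negSucc 2946585599, Int.ofNat 2400613600, Int.ofNat 0, Int.ofNat 9158365440, Int.negSucc 22643711999, Int.negSucc 2209939199, Int.ofNat 20205158400, Int.ofNat 1205166438, Int.ofNat 1894233600, Int.negSucc 13991201279, Int.ofNat 752310720, Int.negSucc 552484799, Int.ofNat 78926400],
  [Int.ofNat 30094848000, Int.negSucc 6096383999, Int.ofNat 7225344000, Int.negSucc 47377612799, Int.ofNat 41803776000, Int.negSucc 107691745279, Int.ofNat 211086704640, Int.negSucc 16859135999, Int.ofNat 6627532800, Int.negSucc 6967295999, Int.ofNat 52283965440, Int.negSucc 130230374399, Int.negSucc 12644351999, Int.ofNat 115605504000, Int.ofNat 6618689280, Int.ofNat 10838016000, Int.negSucc 80478504959, Int.ofNat 4275712000, Int.negSucc 3161087999, Int.ofNat 451584000],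
  [Int.ofNat 72184089600, Int.negSucc 9667123199, Int.ofNat 17185996800, Int.negSucc 118182758399, Int.ofNat 67931136000, Int.negSucc 255472035839, Int.ofNat 498037800960, Int.negSucc 40100659199, Int.ofNat 17479526400, Int.negSucc 12308889599, Int.ofNat 123894005760, Int.negSucc 309703564799, Int.negSucc 30075494399, Int.ofNat 274975948800, Int.ofNat 16213732416, Int.ofNat 25778995200, Int.negSucc 190783918079, Int.ofNat 10160962560, Int.negSucc 7518873599, Int.ofNat 1074124800],
  [Int.ofNat 57763238400, Int.negSucc 3853785599, Int.ofNat 13702348800, Int.negSucc 97651007999, Int.ofNat 27041817600, Int.negSucc 202833630719, Int.ofNat 391652997120, Int.negSucc 31972147199, Int.ofNat 17525760000, Int.negSucc 5399654399, Int.ofNat 98596915200, Int.negSucc 246582403199, Int.negSucc 23979110399, Int.ofNat 219237580800, Int.ofNat 13264153056, Int.ofNat 20553523200, Int.negSucc 151765971839, Int.ofNat 8140930560, Int.negSucc 5994777599, Int.ofNat 856396800],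
  [Int.ofNat 15396998400, Int.ofNat 0, Int.ofNat 3657830400, Int.negSucc 26911180799, Int.ofNat 0, Int.negSucc 53895663359, Int.ofNat 103063726080, Int.negSucc 8534937599, Int.ofNat 6817260800, Int.ofNat 0, Int.ofNat 26240578560, Int.negSucc 65625940799, Int.negSucc 6401203199, Int.ofNat 58525286400, Int.ofNat 3580233048, Int.ofNat 5486745600, Int.negSucc 40398160319, Int.ofNat 2170022400, Int.negSucc 1600300799, Int.ofNat 228614400],
  [Int.ofNat 27041817600, Int.negSucc 3570739199, Int.ofNat 6347980800, Int.negSucc 47116339199, Int.ofNat 26127360000, Int.negSucc 93934417919, Int.ofNat 181407744000, Int.negSucc 14811955199, Int.ofNat 7538227200, Int.negSucc 5341593599, Int.ofNat 45468057600, Int.negSucc 114358003199, Int.negSucc 11108966399, Int.ofNat 101567692800, Int.ofNat 6285698496, Int.ofNat 9521971200, Int.negSucc 70066160639, Int.ofNat 3747394560, Int.negSucc 2777241599, Int.ofNat 396748800],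
  [Int.ofNat 43110144000, Int.negSucc 2830463999, Int.ofNat 10063872000, Int.negSucc 76640255999, Int.ofNat 20901888000, Int.negSucc 147845160959, Int.ofNat 284351477760, Int.negSucc 23482367999, Int.ofNat 13272268800, Int.negSucc 4586803199, Int.ofNat 71922493440, Int.negSucc 181309363199, Int.negSucc 17611775999, Int.ofNat 161021952000, Int.ofNat 10193480640, Int.ofNat 15095808000, Int.negSucc 111108856319, Int.ofNat 6025958400, Int.negSucc 4402943999, Int.ofNat 628992000],
  [Int.ofNat 17178739200, Int.ofNat 0, Int.ofNat 4006195200, Int.negSucc 31189535999, Int.ofNat 0, Int.negSucc 58432872959, Int.ofNat 111784458240, Int.negSucc 9347788799, Int.ofNat 7144032000, Int.ofNat 0, Int.ofNat 28528174080, Int.negSucc 72004463999, Int.negSucc 7010841599, Int.ofNat 64099123200, Int.ofNat 4077678024, Int.ofNat 6009292800, Int.negSucc 44169390719, Int.ofNat 2402507520, Int.negSucc 1752710399, Int.ofNat 250387200],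
  [Int.ofNat 10712217600, Int.negSucc 696729599, Int.ofNat 2477260800, Int.negSucc 19682611199, Int.ofNat 5225472000, Int.negSucc 35940495359, Int.ofNat 68629155840, Int.negSucc 5780275199, Int.ofNat 3822694400, Int.negSucc 1277337599, Int.ofNat 17636290560, Int.negSucc 44634239999, Int.negSucc 4335206399, Int.ofNat 39636172800, Int.ofNat 2605188096, Int.ofNat 3715891200, Int.negSucc 27361797119, Int.ofNat 1519042560, Int.negSucc 1083801599, Int.ofNat 154828800],
  [Int.ofNat 8525260800, Int.ofNat 0, Int.ofNat 1961164800, Int.negSucc 15719961599, Int.ofNat 0, Int.negSucc 28187263999, Int.ofNat 53514209280, Int.negSucc 4576051199, Int.ofNat 3504614400, Int.ofNat 0, Int.ofNat 13925775360, Int.negSucc 35232019199, Int.negSucc 3432038399, Int.ofNat 31378636800, Int.ofNat 2058811776, Int.ofNat 2941747200, Int.negSucc 21641222399, Int.ofNat 1201607680, Int.negSucc 858009599, Int.ofNat 122572800],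
  [Int.ofNat 1584576000, Int.ofNat 0, Int.ofNat 361267200, Int.negSucc 2939327999, Int.ofNat 0, Int.negSucc 5108508159, Int.ofNat 9599815680, Int.negSucc 842956799, Int.ofNat 796633600, Int.ofNat 0, Int.ofNat 2553815040, Int.negSucc 6457449599, Int.negSucc 632217599, Int.ofNat 5780275200, Int.ofNat 378108864, Int.ofNat 541900800, Int.negSucc 3980161919, Int.ofNat 221043200, Int.negSucc 158054399, Int.ofNat 22579200],
  [Int.ofNat 3323980800, Int.negSucc 653183999, Int.ofNat 774144000, Int.negSucc 6270566399, Int.ofNat 5225472000, Int.negSucc 11468728319, Int.ofNat 22019235840, Int.negSucc 1806335999, Int.ofNat 979507200, Int.negSucc 1045094399, Int.ofNat 5452554240, Int.negSucc 13803955199, Int.negSucc 1354751999, Int.ofNat 12386304000, Int.ofNat 765132480, Int.ofNat 1161216000, Int.negSucc 8558000639, Int.ofNat 445670400, Int.negSucc 338687999, Int.ofNat 48384000],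
  [Int.ofNat 7943443200, Int.negSucc 1023321599, Int.ofNat 1819238400, Int.negSucc 15360710399, Int.ofNat 8491392000, Int.negSucc 26816375039, Int.ofNat 51647662080, Int.negSucc 4244889599, Int.ofNat 2248153600, Int.negSucc 1799884799, Int.ofNat 12797245440, Int.negSucc 32605675199, Int.negSucc 3183667199, Int.ofNat 29107814400, Int.ofNat 1843784208, Int.ofNat 2728857600, Int.negSucc 20012489279, Int.ofNat 1047325440, Int.negSucc 795916799, Int.ofNat 113702400],
  [Int.ofNat 6321369600, Int.negSucc 402796799, Int.ofNat 1432166400, Int.negSucc 12454041599, Int.ofNat 3396556800, Int.negSucc 20933230079, Int.ofNat 40307097600, Int.negSucc 3341721599, Int.ofNat 1956729600, Int.negSucc 769305599, Int.ofNat 10070968320, Int.negSucc 25740892799, Int.negSucc 2506291199, Int.ofNat 22914662400, Int.ofNat 1477547568, Int.ofNat 2148249600, Int.negSucc 15732581759, Int.ofNat 833925120, Int.negSucc 626572799, Int.ofNat 89510400],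
  [Int.ofNat 1672876800, Int.ofNat 0, Int.ofNat 377395200, Int.negSucc 3358454399, Int.ofNat 0, Int.negSucc 5462472959, Int.ofNat 10524487680, Int.negSucc 880588799, Int.ofNat 672011200, Int.ofNat 0, Int.ofNat 2641282560, Int.negSucc 6779505599, Int.negSucc 660441599, Int.ofNat 6038323200, Int.ofNat 389966724, Int.ofNat 566092800, Int.negSucc 4138585919, Int.ofNat 221800320, Int.negSucc 165110399, Int.ofNat 23587200],
  [Int.ofNat 5914944000, Int.negSucc 740275199, Int.ofNat 1316044800, Int.negSucc 11909721599, Int.ofNat 6531840000, Int.negSucc 19226565119, Int.ofNat 37237616640, Int.negSucc 3070771199, Int.ofNat 1557785600, Int.negSucc 1509580799, Int.ofNat 9236828160, Int.negSucc 23799484799, Int.negSucc 2303078399, Int.ofNat 21056716800, Int.ofNat 1392170976, Int.ofNat 1974067200, Int.negSucc 14350976639, Int.ofNat 757639680, Int.negSucc 575769599, Int.ofNat 82252800],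
  [Int.ofNat 9386496000, Int.negSucc 580607999, Int.ofNat 2064384000, Int.negSucc 19160063999, Int.ofNat 5225472000, Int.negSucc 30043310079, Int.ofNat 58265088000, Int.negSucc 4816895999, Int.ofNat 2662374400, Int.negSucc 1277337599, Int.ofNat 14540144640, Int.negSucc 37514534399, Int.negSucc 3612671999, Int.ofNat 33030144000, Int.ofNat 2221793280, Int.ofNat 3096576000, Int.negSucc 22539740159, Int.ofNat 1202969600, Int.negSucc 903167999, Int.ofNat 129024000],
  [Int.ofNat 3715891200, Int.ofNat 0, Int.ofNat 812851200, Int.negSucc 7685798399, Int.ofNat 0, Int.negSucc 11763763199, Int.ofNat 22844989440, Int.negSucc 1896652799, Int.ofNat 1354147200, Int.ofNat 0, Int.ofNat 5711247360, Int.negSucc 14776473599, Int.negSucc 1422489599, Int.ofNat 13005619200, Int.ofNat 873424944, Int.ofNat 1219276800, Int.negSucc 8866367999, Int.ofNat 475937280, Int.negSucc 355622399, Int.ofNat 50803200],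
  [Int.ofNat 3471552000, Int.negSucc 210470399, Int.ofNat 748339200, Int.negSucc 7250342399, Int.ofNat 1959552000, Int.negSucc 10816744959, Int.ofNat 21027471360, Int.negSucc 1746124799, Int.ofNat 1104588800, Int.negSucc 522547199, Int.ofNat 5303316480, Int.negSucc 13715049599, Int.negSucc 1309593599, Int.ofNat 11973427200, Int.ofNat 829622304, Int.ofNat 1122508800, Int.negSucc 8188763519, Int.ofNat 445329920, Int.negSucc 327398399, Int.ofNat 46771200],
  [Int.ofNat 2744582400, Int.ofNat 0, Int.ofNat 587059200, Int.negSucc 5748019199, Int.ofNat 0, Int.negSucc 8456456959, Int.ofNat 16396584960, Int.negSucc 1369804799, Int.ofNat 990035200, Int.ofNat 0, Int.ofNat 4161561600, Int.negSucc 10754855999, Int.negSucc 1027353599, Int.ofNat 9392947200, Int.ofNat 647539704, Int.ofNat 880588800, Int.negSucc 6413104319, Int.ofNat 348490240, Int.negSucc 256838399, Int.ofNat 36691200],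
  [Int.ofNat 672537600, Int.ofNat 0, Int.ofNat 141926400, Int.negSucc 1415231999, Int.ofNat 0, Int.negSucc 2032056319, Int.ofNat 3921899520, Int.negSucc 331161599, Int.ofNat 291827200, Int.ofNat 0, Int.ofNat 1006602240, Int.negSucc 2598220799, Int.negSucc 248371199, Int.ofNat 2270822400, Int.ofNat 155152368, Int.ofNat 212889600, Int.negSucc 1545815039, Int.ofNat 83883520, Int.negSucc 62092799, Int.ofNat 8870400],
  [Int.ofNat 555206400, Int.negSucc 65318399, Int.ofNat 116121600, Int.negSucc 1208390399, Int.ofNat 653184000, Int.negSucc 1662393599, Int.ofNat 3261081600, Int.negSucc 270950399, Int.ofNat 123916800, Int.negSucc 174182399, Int.ofNat 810915840, Int.negSucc 2141899199, Int.negSucc 203212799, Int.ofNat 1857945600, Int.ofNat 134365392, Int.ofNat 174182400, Int.negSucc 1241351999, Int.ofNat 66850560, Int.negSucc 50803199, Int.ofNat 7257600],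
  [Int.ofNat 875750400, Int.negSucc 50803199, Int.ofNat 180633600, Int.negSucc 1916006399, Int.ofNat 522547200, Int.negSucc 2602879999, Int.ofNat 5130854400, Int.negSucc 421478399, Int.ofNat 201612800, Int.negSucc 145151999, Int.ofNat 1276907520, Int.negSucc 3363897599, Int.negSucc 316108799, Int.ofNat 2890137600, Int.ofNat 212641632, Int.ofNat 270950400, Int.negSucc 1944902399, Int.ofNat 105441280, Int.negSucc 79027199, Int.ofNat 11289600],
  [Int.ofNat 344736000, Int.ofNat 0, Int.ofNat 70502400, Int.negSucc 756604799, Int.ofNat 0, Int.negSucc 1020015359, Int.ofNat 2016645120, Int.negSucc 164505599, Int.ofNat 98894400, Int.ofNat 0, Int.ofNat 499806720, Int.negSucc 1316347199, Int.negSucc 123379199, Int.ofNat 1128038400, Int.ofNat 82421388, Int.ofNat 105753600, Int.negSucc 759568319, Int.ofNat 40924800, Int.negSucc 30844799, Int.ofNat 4406400],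
  [Int.ofNat 641088000, Int.negSucc 36287999, Int.ofNat 129024000, Int.negSucc 1415231999, Int.ofNat 391910400, Int.negSucc 1880972799, Int.ofNat 3739545600, Int.negSucc 301055999, Int.ofNat 155392000, Int.negSucc 116121599, Int.ofNat 931983360, Int.negSucc 2443996799, Int.negSucc 225791999, Int.ofNat 2064384000, Int.ofNat 156552480, Int.ofNat 193536000, Int.negSucc 1407100799, Int.ofNat 77181440, Int.negSucc 56447999, Int.ofNat 8064000],
  [Int.ofNat 501984000, Int.ofNat 0, Int.ofNat 100454400, Int.negSucc 1110412799, Int.ofNat 0, Int.negSucc 1468463359, Int.ofNat 2925189120, Int.negSucc 234393599, Int.ofNat 140742400, Int.ofNat 0, Int.ofNat 726942720, Int.negSucc 1906027199, Int.negSucc 175795199, Int.ofNat 1607270400, Int.ofNat 121291128, Int.ofNat 150681600, Int.negSucc 1095904319, Int.ofNat 59852800, Int.negSucc 43948799, Int.ofNat 6278400],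
  [Int.ofNat 181440000, Int.ofNat 0, Int.ofNat 35942400, Int.negSucc 402796799, Int.ofNat 0, Int.negSucc 527976959, Int.ofNat 1055416320, Int.negSucc 83865599, Int.ofNat 63046400, Int.ofNat 0, Int.ofNat 260951040, Int.negSucc 684028799, Int.negSucc 62899199, Int.ofNat 575078400, Int.ofNat 43014888, Int.ofNat 53913600, Int.negSucc 392353919, Int.ofNat 21262080, Int.negSucc 15724799, Int.ofNat 2246400],
  [Int.ofNat 50803200, Int.negSucc 2721599, Int.ofNat 9676800, Int.negSucc 114307199, Int.ofNat 32659200, Int.negSucc 144883199, Int.ofNat 293529600, Int.negSucc 22579199, Int.ofNat 13646400, Int.negSucc 10886399, Int.ofNat 73382400, Int.negSucc 190511999, Int.negSucc 16934399, Int.ofNat 154828800, Int.ofNat 12557916, Int.ofNat 14515200, Int.negSucc 108662399, Int.ofNat 6115200, Int.negSucc 4233599, Int.ofNat 604800],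
  [Int.ofNat 39312000, Int.ofNat 0, Int.ofNat 7488000, Int.negSucc 88451999, Int.ofNat 0, Int.negSucc 112111999, Int.ofNat 227136000, Int.negSucc 17471999, Int.ofNat 10462000, Int.ofNat 0, Int.ofNat 56784000, Int.negSucc 147419999, Int.negSucc 13103999, Int.ofNat 119808000, Int.ofNat 9717435, Int.ofNat 11232000, Int.negSucc 84083999, Int.ofNat 4732000, Int.negSucc 3275999, Int.ofNat 468000],
  [Int.ofNat 27820800, Int.ofNat 0, Int.ofNat 5299200, Int.negSucc 62596799, Int.ofNat 0, Int.negSucc 79340799, Int.ofNat 160742400, Int.negSucc 12364799, Int.ofNat 7277600, Int.ofNat 0, Int.ofNat 40185600, Int.negSucc 104327999, Int.negSucc 9273599, Int.ofNat 84787200, Int.ofNat 6876954, Int.ofNat 7948800, Int.negSucc 59505599, Int.ofNat 3348800, Int.negSucc 2318399, Int.ofNat 331200],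
  [Int.ofNat 1814400, Int.ofNat 0, Int.ofNat 345600, Int.negSucc 4082399, Int.ofNat 0, Int.negSucc 5174399, Int.ofNat 10483200, Int.negSucc 806399, Int.ofNat 454800, Int.ofNat 0, Int.ofNat 2620800, Int.negSucc 6803999, Int.negSucc 604799, Int.ofNat 5529600, Int.ofNat 448497, Int.ofNat 518400, Int.negSucc 3880799, Int.ofNat 218400, Int.negSucc 151199, Int.ofNat 21600]]

theorem c2_TM : stackF c2Ms = c2TM := by decide +kernel

theorem c2_TG : stackF c2Gs = c2TG := by decide +kernel

theorem c2_check : allChk c2TM c2TG = true := by decide +kernel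

end Vale.Agent.Lib.P154.Q4
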