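import Vale.Agent.Lib.P154.Q4.Inv

noncomputable section

namespace Vale.Agent.Lib.P154.Q4

def Uzc2 (z : ℝ) : ℝ := (1)*z^0 + (-1)*z^1 + (1)*z^2 + (-1)*z^3 + (8/5)*z^4 + (-4/5)*z^5

def gttc2 (t : ℝ) : ℝ := (-1/2)*t^3 + (1/3)*t^4 + (-1/4)*t^5 + (13/81)*t^6 + (-11/162)*t^7 + (1/63)*t^8 + (-1/648)*t^9

def cInvc2 (I Y E : ℝ) : ℝ := (16/9)*E + (64/189)*E^2 + (-4)*Y + (-1232/243)*Y*E + (832/81)*Y^2 + (-64/81)*Y^3 + (208/81)*I*E + (-20/3)*I*Y + (-16/27)*I*Y*E + (1024/189)*I*Y^2 + (4/9)*I^2 + (32/63)*I^2*E + (-308/81)*I^2*Y + (52/243)*I^3 + (-4/27)*I^3*Y + (4/189)*I^4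

theorem cInvc2_eq (P1 P2 P3 : ℝ) : (1/3)*(gttc2 (P1+P2+P3)+gttc2 (P1-P2-P3)+gttc2 (-P1+P2-P3)+gttc2 (-P1-P2+P3)) = cInvc2 (inI P1 P2 P3) (inY P1 P2 P3) (inE P1 P2 P3) := by
  simp only [gttc2, cInvc2, inI, inY, inE]
  ring

def Tsumc2 (I Y E I1 Y1 E1 : ℝ) : ℝ :=
  E1*((-22/3)*E + (8)*Y + (10/3)*I*E + (-16/3)*I*Y + (2)*I^2 + (-2/3)*I^3)
  + Y1*((8)*E + (6)*Y + (-4)*I + (-6)*I*Y)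
  + Y1*E1*((704/15)*E^2 + (2192/15)*Y*E + (-448/5)*Y^2 + (-32/5)*I*E + (-1232/15)*I*Y*E + (512/15)*I*Y^2 + (-64/5)*I^2*E + (-656/15)*I^2*Y + (32/15)*I^3 + (112/5)*I^3*Y)
  + Y1^2*((-896/5)*Y*E + (-1428/5)*Y^2 + (188/5)*I*E + (256/5)*I*Y + (924/5)*I*Y^2 + (-84/5)*I^2*E + (128/5)*I^2*Y + (-24/5)*I^3 + (8/5)*I^4)
  + I1*((1)*1 + (-4)*Y + (1/3)*I^2)
  + I1*E1*((16/3)*E + (-64/5)*Y*E + (188/5)*Y^2 + (-84/5)*I*E + (128/15)*I*Y + (-84/5)*I*Y^2 + (-16/15)*I^2 + (44/5)*I^2*E + (-64/15)*I^2*Y + (56/15)*I^3 + (-8/5)*I^4)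
  + I1*Y1*((-16/3)*E + (-6)*Y + (32)*Y^2 + (16/3)*I*E + (14/3)*I*Y + (-4/3)*I^2 + (-20/3)*I^2*Y)
  + I1^2*((2)*E + (1/3)*I + (-2/3)*I*E + (-4/3)*I*Y + (-2/3)*I^2 + (1/3)*I^3)
  + I1^2*Y1*((-64/5)*E^2 + (-656/15)*Y*E + (64/5)*Y^2 + (-32/15)*I*E + (-16/3)*I*Y + (112/5)*I*Y*E + (128/5)*I*Y^2 + (32/5)*I^2*E + (248/15)*I^2*Y + (-16/15)*I^3 + (-56/5)*I^3*Y)
  + I1^3*((-16/15)*E + (64/15)*Y*E + (-24/5)*Y^2 + (56/15)*I*E + (8/5)*I*Y^2 + (8/15)*I^2 + (-8/5)*I^2*E + (-32/15)*I^2*Y + (-16/15)*I^3 + (8/15)*I^4)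

theorem orb_Uc2 (P1 P2 P3 W1 W2 W3 : ℝ) : orb (fun a b c => dd P1 P2 P3 a b c * Uzc2 (zz P1 P2 P3 a b c)) W1 W2 W3 = 24 * Tsumc2 (inI P1 P2 P3) (inY P1 P2 P3) (inE P1 P2 P3) (inI W1 W2 W3) (inY W1 W2 W3) (inE W1 W2 W3) := by
  have h : orb (fun a b c => dd P1 P2 P3 a b c * Uzc2 (zz P1 P2 P3 a b c)) W1 W2 W3 = (1)*orb (fun a b c => dd P1 P2 P3 a b c * zz P1 P2 P3 a b c ^ 0) W1 W2 W3 + (-1)*orb (fun a b c => dd P1 P2 P3 a b c * zz P1 P2 P3 a b c ^ 1) W1 W2 W3 + (1)*orb (fun a b c => dd P1 P2 P3 a b c * zz P1 P2 P3 a b c ^ 2) W1 W2 W3 + (-1)*orb (fun a b c => dd P1 P2 P3 a b c * zz P1 P2 P3 a b c ^ 3) W1 W2 W3 + (8/5)*orb (fun a b c => dd P1 P2 P3 a b c * zz P1 P2 P3 a b c ^ 4) W1 W2 W3 + (-4/5)*orb (fun a b c => dd P1 P2 P3 a b c * zz P1 P2 P3 a b c ^ 5)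 W1 W2 W3 := by
    simp only [orb, Uzc2]
    ring
  rw [h]
  rw [orb_T0]
  rw [orb_T1]
  rw [orb_T2]
  rw [orb_T3]
  rw [orb_T4]
  rw [orb_T5]
  simp only [Tsumc2]
  ring

/-- The polynomial in the invariants whose nonnegativity is the product inequality. -/
def Dtilc2 (I Y E I1 Y1 E1 : ℝ) : ℝ :=
  I1 + I1 * cInvc2 I Y E + I * ((1/8) * cInvc2 ((4)*I1) ((8)*Y1) ((16)*E1)) - Tsumc2 I Y E I1 Y1 E1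

end Vale.Agent.Lib.P154.Q4
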