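import Vale.Agent.Lib.P154.Q4.Cert2
import Vale.Agent.Lib.P154.Q4.Dtil2
import Vale.Agent.Lib.P154.Q4.Amgm

noncomputable section

namespace Vale.Agent.Lib.P154.Q4

/-- A monomial in the invariants. -/
def mn (I Y E x : ℝ) (a b c w : ℕ) : ℝ := I ^ a * Y ^ b * E ^ c * x ^ w

theorem c2_ident (I Y E IR YR ER d4 e4 : ℝ) :
  (mn IR YR ER e4 0 0 1 0)*((1247400:ℝ)*(mn I Y E d4 0 0 1 0) + (-1360800:ℝ)*(mn I Y E d4 0 1 0 0) + (604800:ℝ)*(mn I Y E d4 1 0 0 0) + (-567000:ℝ)*(mn I Y E d4 1 0 1 0) + (907200:ℝ)*(mn I Y E d4 1 1 0 0) + (-340200:ℝ)*(mn I Y E d4 2 0 0 0) + (113400:ℝ)*(mn I Y E d4 3 0 0 0)) + (mn IR YR ER e4 0 0 1 1)*((-907200:ℝ)*(mn I Y E d4 1 0 0 1)) + (mn IR YR ER e4 0 0 2 0)*((115200:ℝ)*(mn I Y E d4 1 0 0 0)) + (mn IR YR ER e4 0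 1 0 0)*((-2721600:ℝ)*(mn I Y E d4 0 0 1 0) + (-2041200:ℝ)*(mn I Y E d4 0 1 0 0) + (2041200:ℝ)*(mn I Y E d4 1 1 0 0)) + (mn IR YR ER e4 0 1 0 1)*((32659200:ℝ)*(mn I Y E d4 0 1 0 1)) + (mn IR YR ER e4 0 1 1 0)*((-997920:ℝ)*(mn I Y E d4 0 0 2 0) + (-3107160:ℝ)*(mn I Y E d4 0 1 1 0) + (1905120:ℝ)*(mn I Y E d4 0 2 0 0) + (-1724800:ℝ)*(mn I Y E d4 1 0 0 0) + (136080:ℝ)*(mn I Y E d4 1 0 1 0) + (1746360:ℝ)*(mn I Y E d4 1 1 1 0) + (-725760:ℝ)*(mn I Y E d4 1 2 0 0) + (272160:ℝ)*(mn I Y E d4 2 0 1 0) + (929880:ℝ)*(mn I Y E d4 2 1 0 0) + (-45360:ℝ)*(mn I Y E d4 3 0 0 0) + (-476280:ℝ)*(mn I Y E d4 3 1 0 0)) + (mn IR YR ER e4 0 2 0 0)*((7620480:ℝ)*(mn I Y E d4 0 1 1 0) + (12145140:ℝ)*(mn I Y E d4 0 2 0 0) + (3494400:ℝ)*(mn I Y E d4 1 0 0 0) + (-1598940:ℝ)*(mn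 I Y E d4 1 0 1 0) + (-2177280:ℝ)*(mn I Y E d4 1 1 0 0) + (-7858620:ℝ)*(mn I Y E d4 1 2 0 0) + (714420:ℝ)*(mn I Y E d4 2 0 1 0) + (-1088640:ℝ)*(mn I Y E d4 2 1 0 0) + (204120:ℝ)*(mn I Y E d4 3 0 0 0) + (-68040:ℝ)*(mn I Y E d4 4 0 0 0)) + (mn IR YR ER e4 0 3 0 0)*((-268800:ℝ)*(mn I Y E d4 1 0 0 0)) + (mn IR YR ER e4 1 0 0 0)*((1209600:ℝ)*(mn I Y E d4 0 0 1 0) + (230400:ℝ)*(mn I Y E d4 0 0 2 0) + (-3449600:ℝ)*(mn I Y E d4 0 1 1 0) + (6988800:ℝ)*(mn I Y E d4 0 2 0 0) + (-537600:ℝ)*(mn I Y E d4 0 3 0 0) + (1747200:ℝ)*(mn I Y E d4 1 0 1 0) + (-4536000:ℝ)*(mn I Y E d4 1 1 0 0) + (-403200:ℝ)*(mn I Y E d4 1 1 1 0) + (3686400:ℝ)*(mn I Y E d4 1 2 0 0) + (75600:ℝ)*(mn I Y E d4 2 0 0 0) + (345600:ℝ)*(mn I Y E d4 2 0 1 0) + (-2587200:ℝ)*(mn I Y E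 d4 2 1 0 0) + (145600:ℝ)*(mn I Y E d4 3 0 0 0) + (-100800:ℝ)*(mn I Y E d4 3 1 0 0) + (14400:ℝ)*(mn I Y E d4 4 0 0 0)) + (mn IR YR ER e4 1 0 0 1)*((-3628800:ℝ)*(mn I Y E d4 0 0 1 1)) + (mn IR YR ER e4 1 0 1 0)*((-226800:ℝ)*(mn I Y E d4 0 0 1 0) + (544320:ℝ)*(mn I Y E d4 0 1 1 0) + (-1598940:ℝ)*(mn I Y E d4 0 2 0 0) + (873600:ℝ)*(mn I Y E d4 1 0 0 0) + (714420:ℝ)*(mn I Y E d4 1 0 1 0) + (-362880:ℝ)*(mn I Y E d4 1 1 0 0) + (714420:ℝ)*(mn I Y E d4 1 2 0 0) + (45360:ℝ)*(mn I Y E d4 2 0 0 0) + (-374220:ℝ)*(mn I Y E d4 2 0 1 0) + (181440:ℝ)*(mn I Y E d4 2 1 0 0) + (-158760:ℝ)*(mn I Y E d4 3 0 0 0) + (68040:ℝ)*(mn I Y E d4 4 0 0 0)) + (mn IR YR ER e4 1 1 0 0)*((453600:ℝ)*(mn I Y E d4 0 0 1 0) + (510300:ℝ)*(mn I Y E d4 0 1 0 0) + (-2721600:ℝ)*(mn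 I Y E d4 0 2 0 0) + (-2268000:ℝ)*(mn I Y E d4 1 0 0 0) + (-453600:ℝ)*(mn I Y E d4 1 0 1 0) + (-396900:ℝ)*(mn I Y E d4 1 1 0 0) + (113400:ℝ)*(mn I Y E d4 2 0 0 0) + (567000:ℝ)*(mn I Y E d4 2 1 0 0)) + (mn IR YR ER e4 1 1 1 0)*((-201600:ℝ)*(mn I Y E d4 1 0 0 0)) + (mn IR YR ER e4 1 2 0 0)*((1843200:ℝ)*(mn I Y E d4 1 0 0 0)) + (mn IR YR ER e4 2 0 0 0)*((-340200:ℝ)*(mn I Y E d4 0 0 1 0) + (92799:ℝ)*(mn I Y E d4 1 0 0 0) + (113400:ℝ)*(mn I Y E d4 1 0 1 0) + (226800:ℝ)*(mn I Y E d4 1 1 0 0) + (113400:ℝ)*(mn I Y E d4 2 0 0 0) + (-56700:ℝ)*(mn I Y E d4 3 0 0 0)) + (mn IR YR ER e4 2 0 1 0)*((172800:ℝ)*(mn I Y E d4 1 0 0 0)) + (mn IR YR ER e4 2 1 0 0)*((272160:ℝ)*(mn I Y E d4 0 0 2 0) + (929880:ℝ)*(mn I Y E d4 0 1 1 0) + (-272160:ℝ)*(mn I Y E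 d4 0 2 0 0) + (-1293600:ℝ)*(mn I Y E d4 1 0 0 0) + (45360:ℝ)*(mn I Y E d4 1 0 1 0) + (113400:ℝ)*(mn I Y E d4 1 1 0 0) + (-476280:ℝ)*(mn I Y E d4 1 1 1 0) + (-544320:ℝ)*(mn I Y E d4 1 2 0 0) + (-136080:ℝ)*(mn I Y E d4 2 0 1 0) + (-351540:ℝ)*(mn I Y E d4 2 1 0 0) + (22680:ℝ)*(mn I Y E d4 3 0 0 0) + (238140:ℝ)*(mn I Y E d4 3 1 0 0)) + (mn IR YR ER e4 3 0 0 0)*((45360:ℝ)*(mn I Y E d4 0 0 1 0) + (-181440:ℝ)*(mn I Y E d4 0 1 1 0) + (204120:ℝ)*(mn I Y E d4 0 2 0 0) + (72800:ℝ)*(mn I Y E d4 1 0 0 0) + (-158760:ℝ)*(mn I Y E d4 1 0 1 0) + (-68040:ℝ)*(mn I Y E d4 1 2 0 0) + (-22680:ℝ)*(mn I Y E d4 2 0 0 0) + (68040:ℝ)*(mn I Y E d4 2 0 1 0) + (90720:ℝ)*(mn I Y E d4 2 1 0 0) + (45360:ℝ)*(mn I Y E d4 3 0 0 0) + (-22680:ℝ)*(mn I Y E d4 4 0 0 0)) +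 (mn IR YR ER e4 3 1 0 0)*((-50400:ℝ)*(mn I Y E d4 1 0 0 0)) + (mn IR YR ER e4 4 0 0 0)*((7200:ℝ)*(mn I Y E d4 1 0 0 0)) = 2721600 * (Dtilc2 I Y E ((1/4)*IR) ((1/8)*YR) ((1/16)*ER) - (1/100)*I*((1/4)*IR)^2 - (16*d4*e4)*(1/3)*(E*((1/4)*IR)+I*((1/16)*ER)-18*Y*((1/8)*YR))) := by
  simp only [mn, Dtilc2, Tsumc2, cInvc2]
  ring


theorem c2_sorted (d1 d2 d3 d4 e1 e2 e3 e4 : ℝ) (hd1 : 0 ≤ d1) (hd2 : 0 ≤ d2) (hd3 : 0 ≤ d3) (hd4 : 0 ≤ d4)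
    (he1 : 0 ≤ e1) (he2 : 0 ≤ e2) (he3 : 0 ≤ e3) (he4 : 0 ≤ e4)
    (hd : d1 + 2 * d2 + 3 * d3 + 4 * d4 = 1) (he : e1 + 2 * e2 + 3 * e3 + 4 * e4 = 1) :
    0 ≤ Dtilc2 (inI (d1 + 2 * d2 + d3) (d1 + d3) (d1 - d3)) (inY (d1 + 2 * d2 + d3) (d1 + d3) (d1 - d3))
        (inE (d1 + 2 * d2 + d3) (d1 + d3) (d1 - d3))
        ((1/4) * inI (e1 + 2 * e2 + e3) (e1 + e3) (e1 - e3)) ((1/8) * inY (e1 + 2 * e2 + e3) (e1 + e3) (e1 - e3))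
        ((1/16) * inE (e1 + 2 * e2 + e3) (e1 + e3) (e1 - e3))
      - (1/100) * inI (d1 + 2 * d2 + d3) (d1 + d3) (d1 - d3) * ((1/4) * inI (e1 + 2 * e2 + e3) (e1 + e3) (e1 - e3)) ^ 2 := by
  have key := bilin_nonneg c2Ms c2Gs c2TM c2TG c2_TM c2_TG c2_check (mons9 e1 e2 e3 e4) (mons9 d1 d2 d3 d4)
    (mons9_nonneg _ _ _ _ he1 he2 he3 he4) (mons9_nonneg _ _ _ _ hd1 hd2 hd3 hd4)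
  simp only [c2Ms, c2Gs, List.map_cons, List.map_nil, sumProd, dotR_linF_cons, dotR_linF_nil, cF_0_0_1_0_eq _ _ _ _ hd, cF_0_0_1_0_eq _ _ _ _ he, cF_0_0_1_1_eq _ _ _ _ hd, cF_0_0_1_1_eq _ _ _ _ he, cF_0_0_2_0_eq _ _ _ _ hd, cF_0_0_2_0_eq _ _ _ _ he, cF_0_1_0_0_eq _ _ _ _ hd, cF_0_1_0_0_eq _ _ _ _ he, cF_0_1_0_1_eq _ _ _ _ hd, cF_0_1_0_1_eq _ _ _ _ he, cF_0_1_1_0_eq _ _ _ _ hd, cF_0_1_1_0_eq _ _ _ _ he, cF_0_2_0_0_eq _ _ _ _ hd, cF_0_2_0_0_eq _ _ _ _ he, cF_0_3_0_0_eq _ _ _ _ hd, cF_0_3_0_0_eq _ _ _ _ he, cF_1_0_0_0_eq _ _ _ _ hd, cF_1_0_0_0_eq _ _ _ _ he, cF_1_0_0_1_eq _ _ _ _ hd, cF_1_0_0_1_eq _ _ _ _ he, cF_1_0_1_0_eq _ _ _ _ hd, cF_1_0_1_0_eq _ _ _ _ he, cF_1_1_0_0_eq _ _ _ _ hd, cF_1_1_0_0_eq _ _ _ _ he, cF_1_1_1_0_eq _ _ _ _ hd,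 cF_1_1_1_0_eq _ _ _ _ he, cF_1_2_0_0_eq _ _ _ _ hd, cF_1_2_0_0_eq _ _ _ _ he, cF_2_0_0_0_eq _ _ _ _ hd, cF_2_0_0_0_eq _ _ _ _ he, cF_2_0_1_0_eq _ _ _ _ hd, cF_2_0_1_0_eq _ _ _ _ he, cF_2_1_0_0_eq _ _ _ _ hd, cF_2_1_0_0_eq _ _ _ _ he, cF_3_0_0_0_eq _ _ _ _ hd, cF_3_0_0_0_eq _ _ _ _ he, cF_3_1_0_0_eq _ _ _ _ hd, cF_3_1_0_0_eq _ _ _ _ he, cF_4_0_0_0_eq _ _ _ _ hd, cF_4_0_0_0_eq _ _ _ _ he] at key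
  push_cast at key
  have h3 := amgm_scaled (d1 + 2 * d2 + d3) (d1 + d3) (d1 - d3) (e1 + 2 * e2 + e3) (e1 + e3) (e1 - e3) ((1/2))
  have h4 : 0 ≤ (16 * d4 * e4) * (1/3 : ℝ) := by positivity
  have h5 := mul_nonneg h4 h3
  have h2 := c2_ident (inI (d1 + 2 * d2 + d3) (d1 + d3) (d1 - d3)) (inY (d1 + 2 * d2 + d3) (d1 + d3) (d1 - d3)) (inE (d1 + 2 * d2 + d3) (d1 + d3) (d1 - d3)) (inI (e1 + 2 * e2 + e3) (e1 + e3) (e1 - e3)) (inY (e1 + 2 * e2 + e3) (e1 + e3) (e1 - e3)) (inE (e1 + 2 * e2 + e3) (e1 + e3) (e1 - e3)) d4 e4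
  generalize inI (d1 + 2 * d2 + d3) (d1 + d3) (d1 - d3) = I at *
  generalize inY (d1 + 2 * d2 + d3) (d1 + d3) (d1 - d3) = Y at *
  generalize inE (d1 + 2 * d2 + d3) (d1 + d3) (d1 - d3) = E at *
  generalize inI (e1 + 2 * e2 + e3) (e1 + e3) (e1 - e3) = IR at *
  generalize inY (e1 + 2 * e2 + e3) (e1 + e3) (e1 - e3) = YR at *
  generalize inE (e1 + 2 * e2 + e3) (e1 + e3) (e1 - e3) = ER at *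
  have h6 : (0:ℝ) ≤ 2721600 * (Dtilc2 I Y E ((1/4)*IR) ((1/8)*YR) ((1/16)*ER) - (1/100)*I*((1/4)*IR)^2 - (16*d4*e4)*(1/3)*(E*((1/4)*IR)+I*((1/16)*ER)-18*Y*((1/8)*YR))) := by
    rw [← h2]
    simp only [mn]
    convert key using 1
    ring
  generalize Dtilc2 I Y E ((1/4)*IR) ((1/8)*YR) ((1/16)*ER) = DD at *
  have h7 : (16 * d4 * e4) * (1/3 : ℝ) * (E * ((1/2) ^ 2 * IR) + I * ((1/2) ^ 4 * ER) - 18 * Y * ((1/2) ^ 3 * YR)) = (16*d4*e4)*(1/3)*(E*((1/4)*IR)+I*((1/16)*ER)-18*Y*((1/8)*YR)) := by ring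
  rw [h7] at h5
  linarith

end Vale.Agent.Lib.P154.Q4
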