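import Mathlib

/-!
Invariants of the signed permutation group on three coordinates, and the averages that enter the
product inequality.
-/

namespace Vale.Agent.Lib.P154.Q4


def inI (a b c : ℝ) : ℝ := a^2+b^2+c^2
def inY (a b c : ℝ) : ℝ := a*b*c
def inE (a b c : ℝ) : ℝ := a^2*b^2+a^2*c^2+b^2*c^2
def zz (P1 P2 P3 W1 W2 W3 : ℝ) : ℝ := P1*W1+P2*W2+P3*W3
def del1 (P1 P2 P3 W1 W2 W3 : ℝ) : ℝ := (1-P1^2)*W1+(P3-P1*P2)*W2+(P2-P1*P3)*W3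
def del2 (P1 P2 P3 W1 W2 W3 : ℝ) : ℝ := (P3-P1*P2)*W1+(1-P2^2)*W2+(P1-P2*P3)*W3
def del3 (P1 P2 P3 W1 W2 W3 : ℝ) : ℝ := (P2-P1*P3)*W1+(P1-P2*P3)*W2+(1-P3^2)*W3
def dd (P1 P2 P3 W1 W2 W3 : ℝ) : ℝ := del1 P1 P2 P3 W1 W2 W3^2+del2 P1 P2 P3 W1 W2 W3^2+del3 P1 P2 P3 W1 W2 W3^2
/-- Sum over the orbit of the signed permutations with an even number of sign changes. -/
def orb (f : ℝ → ℝ → ℝ → ℝ) (a b c : ℝ) : ℝ :=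

  f a b c + f a (-b) (-c) + f (-a) b (-c) + f (-a) (-b) c + f a c b + f a (-c) (-b) + f (-a) c (-b) + f (-a) (-c) b + f b a c + f b (-a) (-c) + f (-b) a (-c) + f (-b) (-a) c + f b c a + f b (-c) (-a) + f (-b) c (-a) + f (-b) (-c) a + f c a b + f c (-a) (-b) + f (-c) a (-b) + f (-c) (-a) b + f c b a + f c (-b) (-a) + f (-c) b (-a) + f (-c) (-b) a

theorem orb_T0 (P1 P2 P3 W1 W2 W3 : ℝ) : orb (fun a b c => dd P1 P2 P3 a b c * zz P1 P2 P3 a b c ^ 0) W1 W2 W3 = 24*((inI W1 W2 W3)*((1)*1 + (-4)*(inY P1 P2 P3) + (1/3)*(inI P1 P2 P3)^2)) := by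
  simp only [orb, dd, del1, del2, del3, zz, inI, inY, inE]
  ring

theorem orb_T1 (P1 P2 P3 W1 W2 W3 : ℝ) : orb (fun a b c => dd P1 P2 P3 a b c * zz P1 P2 P3 a b c ^ 1) W1 W2 W3 = 24*((inY W1 W2 W3)*((-8)*(inE P1 P2 P3) + (-6)*(inY P1 P2 P3) + (4)*(inI P1 P2 P3) + (6)*(inI P1 P2 P3)*(inY P1 P2 P3))) := by
  simp only [orb, dd, del1, del2, del3, zz, inI, inY, inE]
  ring

theorem orb_T2 (P1 P2 P3 W1 W2 W3 : ℝ) : orb (fun a b c => dd P1 P2 P3 a b c * zz P1 P2 P3 a b c ^ 2) W1 W2 W3 = 24*((inE W1 W2 W3)*((-22/3)*(inE P1 P2 P3) + (8)*(inY P1 P2 P3) + (10/3)*(inI P1 P2 P3)*(inE P1 P2 P3) + (-16/3)*(inI P1 P2 P3)*(inY P1 P2 P3) + (2)*(inI P1 P2 P3)^2 + (-2/3)*(inI P1 P2 P3)^3) + (inI W1 W2 W3)^2*((2)*(inE P1 P2 P3) + (1/3)*(inI P1 P2 P3) + (-2/3)*(inI P1 P2 P3)*(inE P1 P2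 P3) + (-4/3)*(inI P1 P2 P3)*(inY P1 P2 P3) + (-2/3)*(inI P1 P2 P3)^2 + (1/3)*(inI P1 P2 P3)^3)) := by
  simp only [orb, dd, del1, del2, del3, zz, inI, inY, inE]
  ring

theorem orb_T3 (P1 P2 P3 W1 W2 W3 : ℝ) : orb (fun a b c => dd P1 P2 P3 a b c * zz P1 P2 P3 a b c ^ 3) W1 W2 W3 = 24*((inI W1 W2 W3)*(inY W1 W2 W3)*((16/3)*(inE P1 P2 P3) + (6)*(inY P1 P2 P3) + (-32)*(inY P1 P2 P3)^2 + (-16/3)*(inI P1 P2 P3)*(inE P1 P2 P3) + (-14/3)*(inI P1 P2 P3)*(inY P1 P2 P3) + (4/3)*(inI P1 P2 P3)^2 + (20/3)*(inI P1 P2 P3)^2*(inY P1 P2 P3))) := by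
  simp only [orb, dd, del1, del2, del3, zz, inI, inY, inE]
  ring

theorem orb_T4 (P1 P2 P3 W1 W2 W3 : ℝ) : orb (fun a b c => dd P1 P2 P3 a b c * zz P1 P2 P3 a b c ^ 4) W1 W2 W3 = 24*((inY W1 W2 W3)^2*((-112)*(inY P1 P2 P3)*(inE P1 P2 P3) + (-357/2)*(inY P1 P2 P3)^2 + (47/2)*(inI P1 P2 P3)*(inE P1 P2 P3) + (32)*(inI P1 P2 P3)*(inY P1 P2 P3) + (231/2)*(inI P1 P2 P3)*(inY P1 P2 P3)^2 + (-21/2)*(inI P1 P2 P3)^2*(inE P1 P2 P3) + (16)*(inI P1 P2 P3)^2*(inY P1 P2 P3) + (-3)*(inI P1 P2 P3)^3 + (1)*(inI P1 P2 P3)^4) + (inI W1 W2 W3)*(inE W1 W2 W3)*((10/3)*(inE P1 P2 P3) + (-8)*(inY P1 P2 P3)*(inE P1 P2 P3) + (47/2)*(inY P1 P2 P3)^2 + (-21/2)*(inI P1 P2 P3)*(inE P1 P2 P3) + (16/3)*(inI P1 P2 P3)*(inY P1 P2 P3) + (-21/2)*(inI P1 P2 P3)*(inY P1 P2 P3)^2 + (-2/3)*(inI P1 P2 P3)^2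 + (11/2)*(inI P1 P2 P3)^2*(inE P1 P2 P3) + (-8/3)*(inI P1 P2 P3)^2*(inY P1 P2 P3) + (7/3)*(inI P1 P2 P3)^3 + (-1)*(inI P1 P2 P3)^4) + (inI W1 W2 W3)^3*((-2/3)*(inE P1 P2 P3) + (8/3)*(inY P1 P2 P3)*(inE P1 P2 P3) + (-3)*(inY P1 P2 P3)^2 + (7/3)*(inI P1 P2 P3)*(inE P1 P2 P3) + (1)*(inI P1 P2 P3)*(inY P1 P2 P3)^2 + (1/3)*(inI P1 P2 P3)^2 + (-1)*(inI P1 P2 P3)^2*(inE P1 P2 P3) + (-4/3)*(inI P1 P2 P3)^2*(inY P1 P2 P3) + (-2/3)*(inI P1 P2 P3)^3 + (1/3)*(inI P1 P2 P3)^4)) := by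
  simp only [orb, dd, del1, del2, del3, zz, inI, inY, inE]
  ring

theorem orb_T5 (P1 P2 P3 W1 W2 W3 : ℝ) : orb (fun a b c => dd P1 P2 P3 a b c * zz P1 P2 P3 a b c ^ 5) W1 W2 W3 = 24*((inY W1 W2 W3)*(inE W1 W2 W3)*((-176/3)*(inE P1 P2 P3)^2 + (-548/3)*(inY P1 P2 P3)*(inE P1 P2 P3) + (112)*(inY P1 P2 P3)^2 + (8)*(inI P1 P2 P3)*(inE P1 P2 P3) + (308/3)*(inI P1 P2 P3)*(inY P1 P2 P3)*(inE P1 P2 P3) + (-128/3)*(inI P1 P2 P3)*(inY P1 P2 P3)^2 + (16)*(inI P1 P2 P3)^2*(inE P1 P2 P3) + (164/3)*(inI P1 P2 P3)^2*(inY P1 P2 P3) + (-8/3)*(inI P1 P2 P3)^3 + (-28)*(inI P1 P2 P3)^3*(inY P1 P2 P3)) + (inI W1 W2 W3)^2*(inY W1 W2 W3)*((16)*(inE P1 P2 P3)^2 + (164/3)*(inY P1 P2 P3)*(inE P1 P2 P3) + (-16)*(inY P1 P2 P3)^2 + (8/3)*(inI P1 P2 P3)*(inE P1 P2 P3) + (20/3)*(inI P1 P2 P3)*(inY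 P1 P2 P3) + (-28)*(inI P1 P2 P3)*(inY P1 P2 P3)*(inE P1 P2 P3) + (-32)*(inI P1 P2 P3)*(inY P1 P2 P3)^2 + (-8)*(inI P1 P2 P3)^2*(inE P1 P2 P3) + (-62/3)*(inI P1 P2 P3)^2*(inY P1 P2 P3) + (4/3)*(inI P1 P2 P3)^3 + (14)*(inI P1 P2 P3)^3*(inY P1 P2 P3))) := by
  simp only [orb, dd, del1, del2, del3, zz, inI, inY, inE]
  ring

end Vale.Agent.Lib.P154.Q4
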