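import Vale.Agent.Lib.P154.Q4.Bilin
import Vale.Agent.Lib.P154.Q4.Inv

noncomputable section

namespace Vale.Agent.Lib.P154.Q4

/-- The exponents of the monomials of degree 9 in four variables. -/
def idx9 : List (Nat × Nat × Nat × Nat) := [(0,0,0,9), (0,0,1,8), (0,0,2,7), (0,0,3,6), (0,0,4,5), (0,0,5,4), (0,0,6,3), (0,0,7,2), (0,0,8,1), (0,0,9,0), (0,1,0,8), (0,1,1,7), (0,1,2,6), (0,1,3,5), (0,1,4,4), (0,1,5,3), (0,1,6,2), (0,1,7,1), (0,1,8,0), (0,2,0,7), (0,2,1,6), (0,2,2,5), (0,2,3,4), (0,2,4,3), (0,2,5,2), (0,2,6,1), (0,2,7,0), (0,3,0,6), (0,3,1,5), (0,3,2,4), (0,3,3,3), (0,3,4,2), (0,3,5,1), (0,3,6,0), (0,4,0,5), (0,4,1,4), (0,4,2,3), (0,4,3,2), (0,4,4,1), (0,4,5,0), (0,5,0,4), (0,5,1,3), (0,5,2,2), (0,5,3,1), (0,5,4,0), (0,6,0,3), (0,6,1,2), (0,6,2,1), (0,6,3,0), (0,7,0,2), (0,7,1,1), (0,7,2,0), (0,8,0,1),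 (0,8,1,0), (0,9,0,0), (1,0,0,8), (1,0,1,7), (1,0,2,6), (1,0,3,5), (1,0,4,4), (1,0,5,3), (1,0,6,2), (1,0,7,1), (1,0,8,0), (1,1,0,7), (1,1,1,6), (1,1,2,5), (1,1,3,4), (1,1,4,3), (1,1,5,2), (1,1,6,1), (1,1,7,0), (1,2,0,6), (1,2,1,5), (1,2,2,4), (1,2,3,3), (1,2,4,2), (1,2,5,1), (1,2,6,0), (1,3,0,5), (1,3,1,4), (1,3,2,3), (1,3,3,2), (1,3,4,1), (1,3,5,0), (1,4,0,4), (1,4,1,3), (1,4,2,2), (1,4,3,1), (1,4,4,0), (1,5,0,3), (1,5,1,2), (1,5,2,1), (1,5,3,0), (1,6,0,2), (1,6,1,1), (1,6,2,0), (1,7,0,1), (1,7,1,0), (1,8,0,0), (2,0,0,7), (2,0,1,6), (2,0,2,5), (2,0,3,4), (2,0,4,3), (2,0,5,2), (2,0,6,1), (2,0,7,0), (2,1,0,6), (2,1,1,5), (2,1,2,4), (2,1,3,3), (2,1,4,2), (2,1,5,1), (2,1,6,0), (2,2,0,5), (2,2,1,4), (2,2,2,3), (2,2,3,2), (2,2,4,1), (2,2,5,0), (2,3,0,4), (2,3,1,3), (2,3,2,2), (2,3,3,1), (2,3,4,0), (2,4,0,3), (2,4,1,2),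 (2,4,2,1), (2,4,3,0), (2,5,0,2), (2,5,1,1), (2,5,2,0), (2,6,0,1), (2,6,1,0), (2,7,0,0), (3,0,0,6), (3,0,1,5), (3,0,2,4), (3,0,3,3), (3,0,4,2), (3,0,5,1), (3,0,6,0), (3,1,0,5), (3,1,1,4), (3,1,2,3), (3,1,3,2), (3,1,4,1), (3,1,5,0), (3,2,0,4), (3,2,1,3), (3,2,2,2), (3,2,3,1), (3,2,4,0), (3,3,0,3), (3,3,1,2), (3,3,2,1), (3,3,3,0), (3,4,0,2), (3,4,1,1), (3,4,2,0), (3,5,0,1), (3,5,1,0), (3,6,0,0), (4,0,0,5), (4,0,1,4), (4,0,2,3), (4,0,3,2), (4,0,4,1), (4,0,5,0), (4,1,0,4), (4,1,1,3), (4,1,2,2), (4,1,3,1), (4,1,4,0), (4,2,0,3), (4,2,1,2), (4,2,2,1), (4,2,3,0), (4,3,0,2), (4,3,1,1), (4,3,2,0), (4,4,0,1), (4,4,1,0), (4,5,0,0), (5,0,0,4), (5,0,1,3), (5,0,2,2), (5,0,3,1), (5,0,4,0), (5,1,0,3), (5,1,1,2), (5,1,2,1), (5,1,3,0), (5,2,0,2), (5,2,1,1), (5,2,2,0), (5,3,0,1), (5,3,1,0), (5,4,0,0), (6,0,0,3), (6,0,1,2), (6,0,2,1),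 (6,0,3,0), (6,1,0,2), (6,1,1,1), (6,1,2,0), (6,2,0,1), (6,2,1,0), (6,3,0,0), (7,0,0,2), (7,0,1,1), (7,0,2,0), (7,1,0,1), (7,1,1,0), (7,2,0,0), (8,0,0,1), (8,0,1,0), (8,1,0,0), (9,0,0,0)]

/-- The monomials of degree 9 in four variables. -/
def mons9 (x1 x2 x3 x4 : ℝ) : List ℝ := idx9.map (mon x1 x2 x3 x4)

theorem mons9_nonneg (x1 x2 x3 x4 : ℝ) (h1 : 0 ≤ x1) (h2 : 0 ≤ x2) (h3 : 0 ≤ x3) (h4 : 0 ≤ x4) : ∀ r ∈ mons9 x1 x2 x3 x4, 0 ≤ r :=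
  monsL_nonneg x1 x2 x3 x4 h1 h2 h3 h4 idx9

def cF_0_0_1_0 : List Int := [0, 0, 0, 0, 3072, 11520, 17280, 12960, 4860, 729, 0, 0, 0, 8192, 38400, 69120, 60480, 25920, 4374, 0, 0, 8192, 51200, 115200, 120960, 60480, 11664, 0, 0, 20480, 81920, 119040, 74880, 17280, 0, 0, 20480, 56320, 50880, 15120, 0, 0, 10240, 17920, 7776, 0, 0, 2560, 2176, 0, 0, 256, 0, 0, 0, 0, 0, 0, 4096, 19200, 34560, 30240, 12960, 2187, 0, 0, 8192, 51200, 115200, 120960, 60480, 11664, 0, 0, 30720, 122880, 178560, 112320, 25920, 0, 0, 40960, 112640, 101760, 30240, 0, 0, 25600, 44800, 19440, 0, 0, 7680, 6528, 0, 0, 896, 0, 0, 0, 0, 0, 2048, 12800, 28800, 30240, 15120, 2916, 0, 8192, 46080, 107520, 123840, 69120, 14904, 8192, 51200, 138240, 188160, 123840, 31104, 20480, 81920, 140800, 113920, 34560, 20480, 56320, 59520, 22560, 10240, 17920, 9024,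 2560, 2176, 256, 0, 4096, 17920, 33280, 32160, 15840, 3132, 8192, 51200, 117760, 131840, 72960, 15984, 30720, 122880, 185600, 126080, 32400, 40960, 112640, 106240, 34240, 25600, 44800, 20320, 7680, 6528, 896, 3072, 16640, 33920, 33760, 16680, 3294, 17920, 69120, 98240, 61760, 14580, 33280, 90240, 81600, 24720, 26880, 46720, 20480, 9920, 8400, 1376, 3840, 14080, 19040, 11360, 2538, 12800, 33920, 29760, 8688, 14720, 25280, 10848, 7040, 5920, 1200, 1920, 4960, 4240, 1204, 4160, 7040, 2968, 2880, 2400, 640, 480, 800, 332, 640, 528, 208, 60, 49, 38, 3]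

set_option maxRecDepth 100000 in
theorem cF_0_0_1_0_eq (x1 x2 x3 x4 : ℝ) (hS : x1 + 2 * x2 + 3 * x3 + 4 * x4 = 1) :
    dotR cF_0_0_1_0 (mons9 x1 x2 x3 x4) = inI (x1 + 2 * x2 + x3) (x1 + x3) (x1 - x3) ^ 0 * inY (x1 + 2 * x2 + x3) (x1 + x3) (x1 - x3) ^ 0 * inE (x1 + 2 * x2 + x3) (x1 + x3) (x1 - x3) ^ 1 * x4 ^ 0 := by
  have h : dotR cF_0_0_1_0 (mons9 x1 x2 x3 x4) = inI (x1 + 2 * x2 + x3) (x1 + x3) (x1 - x3) ^ 0 * inY (x1 + 2 * x2 + x3) (x1 + x3) (x1 - x3) ^ 0 * inE (x1 + 2 * x2 + x3) (x1 + x3) (x1 - x3) ^ 1 * x4 ^ 0 * (x1 + 2 * x2 + 3 * x3 + 4 * x4) ^ 5 := by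
    simp only [cF_0_0_1_0, mons9, idx9, List.map_cons, List.map_nil, mon, dotR, inI, inY, inE]
    push_cast
    ring
  rw [h, hS]
  ring

def cF_0_0_1_1 : List Int := [0, 0, 0, 0, 768, 2304, 2592, 1296, 243, 0, 0, 0, 0, 2048, 7680, 10368, 6048, 1296, 0, 0, 0, 2048, 10240, 17280, 12096, 3024, 0, 0, 0, 4096, 12288, 11904, 3744, 0, 0, 0, 3072, 5632, 2544, 0, 0, 0, 1024, 896, 0, 0, 0, 128, 0, 0, 0, 0, 0, 0, 0, 0, 0, 0, 1024, 3840, 5184, 3024, 648, 0, 0, 0, 2048, 10240, 17280, 12096, 3024, 0, 0, 0, 6144, 18432, 17856, 5616, 0, 0, 0, 6144, 11264, 5088, 0, 0, 0, 2560, 2240, 0, 0, 0, 384, 0, 0, 0, 0, 0, 0, 0, 0, 0, 512, 2560, 4320, 3024, 756, 0, 0, 2048, 9216, 16128, 12384, 3456, 0, 2048, 10240, 20736, 18816, 6192, 0, 4096, 12288, 14080, 5696, 0, 3072, 5632, 2976, 0, 1024, 896, 0, 128, 0, 0, 0, 1024, 3584, 4992, 3216,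 792, 0, 2048, 10240, 17664, 13184, 3648, 0, 6144, 18432, 18560, 6304, 0, 6144, 11264, 5312, 0, 2560, 2240, 0, 384, 0, 0, 768, 3328, 5088, 3376, 834, 0, 3584, 10368, 9824, 3088, 0, 4992, 9024, 4080, 0, 2688, 2336, 0, 496, 0, 0, 768, 2112, 1904, 568, 0, 1920, 3392, 1488, 0, 1472, 1264, 0, 352, 0, 0, 288, 496, 212, 0, 416, 352, 0, 144, 0, 0, 48, 40, 0, 32, 0, 0, 3, 0, 0, 0]

set_option maxRecDepth 100000 in
theorem cF_0_0_1_1_eq (x1 x2 x3 x4 : ℝ) (hS : x1 + 2 * x2 + 3 * x3 + 4 * x4 = 1) :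
    dotR cF_0_0_1_1 (mons9 x1 x2 x3 x4) = inI (x1 + 2 * x2 + x3) (x1 + x3) (x1 - x3) ^ 0 * inY (x1 + 2 * x2 + x3) (x1 + x3) (x1 - x3) ^ 0 * inE (x1 + 2 * x2 + x3) (x1 + x3) (x1 - x3) ^ 1 * x4 ^ 1 := by
  have h : dotR cF_0_0_1_1 (mons9 x1 x2 x3 x4) = inI (x1 + 2 * x2 + x3) (x1 + x3) (x1 - x3) ^ 0 * inY (x1 + 2 * x2 + x3) (x1 + x3) (x1 - x3) ^ 0 * inE (x1 + 2 * x2 + x3) (x1 + x3) (x1 - x3) ^ 1 * x4 ^ 1 * (x1 + 2 * x2 + 3 * x3 + 4 * x4) ^ 4 := by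
    simp only [cF_0_0_1_1, mons9, idx9, List.map_cons, List.map_nil, mon, dotR, inI, inY, inE]
    push_cast
    ring
  rw [h, hS]
  ring

def cF_0_0_2_0 : List Int := [0, 0, 0, 0, 0, 0, 0, 0, 36, 27, 0, 0, 0, 0, 0, 0, 0, 192, 162, 0, 0, 0, 0, 0, 0, 448, 432, 0, 0, 0, 0, 0, 512, 608, 0, 0, 0, 0, 256, 448, 0, 0, 0, 0, 128, 0, 0, 0, 0, 0, 0, 0, 0, 0, 0, 0, 0, 0, 0, 0, 0, 0, 96, 81, 0, 0, 0, 0, 0, 0, 448, 432, 0, 0, 0, 0, 0, 768, 912, 0, 0, 0, 0, 512, 896, 0, 0, 0, 0, 320, 0, 0, 0, 0, 0, 0, 0, 0, 0, 0, 0, 0, 0, 0, 0, 0, 112, 108, 0, 0, 0, 0, 0, 576, 600, 0, 0, 0, 0, 1088, 1296, 0, 0, 0, 1024, 1440, 0, 0, 512, 896, 0, 0, 256, 0, 0, 0, 0, 0, 0, 0, 0, 160, 148, 0, 0, 0, 0, 832, 848, 0, 0, 0, 1536, 1840, 0, 0, 1024, 1792, 0, 0, 640, 0, 0, 0, 0, 0, 0, 0, 216, 202, 0, 0, 0, 832, 940, 0, 0, 1088, 1616, 0, 512, 1184, 256,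 448, 128, 0, 0, 0, 160, 174, 0, 0, 576, 720, 0, 768, 1136, 512, 896, 320, 0, 0, 112, 124, 0, 448, 536, 448, 752, 352, 0, 96, 100, 192, 304, 208, 36, 51, 66, 9]

set_option maxRecDepth 100000 in
theorem cF_0_0_2_0_eq (x1 x2 x3 x4 : ℝ) (hS : x1 + 2 * x2 + 3 * x3 + 4 * x4 = 1) :
    dotR cF_0_0_2_0 (mons9 x1 x2 x3 x4) = inI (x1 + 2 * x2 + x3) (x1 + x3) (x1 - x3) ^ 0 * inY (x1 + 2 * x2 + x3) (x1 + x3) (x1 - x3) ^ 0 * inE (x1 + 2 * x2 + x3) (x1 + x3) (x1 - x3) ^ 2 * x4 ^ 0 := by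
  have h : dotR cF_0_0_2_0 (mons9 x1 x2 x3 x4) = inI (x1 + 2 * x2 + x3) (x1 + x3) (x1 - x3) ^ 0 * inY (x1 + 2 * x2 + x3) (x1 + x3) (x1 - x3) ^ 0 * inE (x1 + 2 * x2 + x3) (x1 + x3) (x1 - x3) ^ 2 * x4 ^ 0 * (x1 + 2 * x2 + 3 * x3 + 4 * x4) ^ 1 := by
    simp only [cF_0_0_2_0, mons9, idx9, List.map_cons, List.map_nil, mon, dotR, inI, inY, inE]
    push_cast
    ring
  rw [h, hS]
  ring

def cF_0_1_0_0 : List Int := [0, 0, 0, -4096, -18432, -34560, -34560, -19440, -5832, -729, 0, 0, -8192, -49152, -115200, -138240, -90720, -31104, -4374, 0, 0, -24576, -107520, -184320, -155520, -64800, -10692, 0, 0, -30720, -102400, -126720, -69120, -14040, 0, 0, -20480, -49920, -40320, -10800, 0, 0, -7680, -12288, -4896, 0, 0, -1536, -1216, 0, 0, -128, 0, 0, 0, 0, 0, -4096, -24576, -57600, -69120, -45360, -15552, -2187, 0, 0, -24576,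 -107520, -184320, -155520, -64800, -10692, 0, 0, -46080, -153600, -190080, -103680, -21060, 0, 0, -40960, -99840, -80640, -21600, 0, 0, -19200, -30720, -12240, 0, 0, -4608, -3648, 0, 0, -448, 0, 0, 0, 0, 4096, 12288, 7680, -11520, -19440, -10368, -1944, 8192, 49152, 92160, 61440, -4320, -20736, -6156, 24576, 107520, 153600, 80640, 4320, -5508, 30720, 102400, 107520, 38400, 1800, 20480, 49920, 34560, 6240, 7680, 12288, 4224, 1536, 1216, 128, 4096, 24576, 53760, 56320, 29520, 6912, 432, 24576, 107520, 174080, 130560, 44640, 5292, 46080, 153600, 180480, 88320, 14940, 40960, 99840, 76800, 18560, 19200, 30720, 11680, 4608, 3648, 448, 6144, 26880, 44800, 35760, 13680, 1998, 23040, 76800, 92640, 48000, 9000, 30720, 74880, 59040, 15060, 19200, 30720, 11960, 5760, 4560, 672, 3840, 12800, 15600, 8256, 1602, 10240, 24960,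 19872, 5172, 9600, 15360, 6036, 3840, 3040, 560, 1280, 3120, 2496, 656, 2400, 3840, 1516, 1440, 1140, 280, 240, 384, 152, 288, 228, 84, 24, 19, 14, 1]

set_option maxRecDepth 100000 in
theorem cF_0_1_0_0_eq (x1 x2 x3 x4 : ℝ) (hS : x1 + 2 * x2 + 3 * x3 + 4 * x4 = 1) :
    dotR cF_0_1_0_0 (mons9 x1 x2 x3 x4) = inI (x1 + 2 * x2 + x3) (x1 + x3) (x1 - x3) ^ 0 * inY (x1 + 2 * x2 + x3) (x1 + x3) (x1 - x3) ^ 1 * inE (x1 + 2 * x2 + x3) (x1 + x3) (x1 - x3) ^ 0 * x4 ^ 0 := by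
  have h : dotR cF_0_1_0_0 (mons9 x1 x2 x3 x4) = inI (x1 + 2 * x2 + x3) (x1 + x3) (x1 - x3) ^ 0 * inY (x1 + 2 * x2 + x3) (x1 + x3) (x1 - x3) ^ 1 * inE (x1 + 2 * x2 + x3) (x1 + x3) (x1 - x3) ^ 0 * x4 ^ 0 * (x1 + 2 * x2 + 3 * x3 + 4 * x4) ^ 6 := by
    simp only [cF_0_1_0_0, mons9, idx9, List.map_cons, List.map_nil, mon, dotR, inI, inY, inE]
    push_cast
    ring
  rw [h, hS]
  ring

def cF_0_1_0_1 : List Int := [0, 0, 0, -1024, -3840, -5760, -4320, -1620, -243, 0, 0, 0, -2048, -10240, -19200, -17280, -7560, -1296, 0, 0, 0, -5120, -17920, -23040, -12960, -2700, 0, 0, 0, -5120, -12800, -10560, -2880, 0, 0, 0, -2560, -4160, -1680, 0, 0, 0, -640, -512, 0, 0, 0, -64, 0, 0, 0, 0, 0, 0, 0, 0, 0, -1024, -5120, -9600, -8640, -3780, -648, 0, 0, 0, -5120, -17920, -23040, -12960, -2700, 0, 0, 0, -7680, -19200, -15840, -4320,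 0, 0, 0, -5120, -8320, -3360, 0, 0, 0, -1600, -1280, 0, 0, 0, -192, 0, 0, 0, 0, 0, 0, 0, 0, 1024, 2560, 1280, -1440, -1620, -432, 0, 2048, 10240, 15360, 7680, -360, -864, 0, 5120, 17920, 19200, 6720, 180, 0, 5120, 12800, 8960, 1600, 0, 2560, 4160, 1440, 0, 640, 512, 0, 64, 0, 0, 1024, 5120, 8960, 7040, 2460, 288, 0, 5120, 17920, 21760, 10880, 1860, 0, 7680, 19200, 15040, 3680, 0, 5120, 8320, 3200, 0, 1600, 1280, 0, 192, 0, 0, 1280, 4480, 5600, 2980, 570, 0, 3840, 9600, 7720, 2000, 0, 3840, 6240, 2460, 0, 1600, 1280, 0, 240, 0, 0, 640, 1600, 1300, 344, 0, 1280, 2080, 828, 0, 800, 640, 0, 160, 0, 0, 160, 260, 104, 0, 200, 160, 0, 60, 0, 0, 20, 16, 0, 12, 0, 0, 1, 0, 0, 0]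

set_option maxRecDepth 100000 in
theorem cF_0_1_0_1_eq (x1 x2 x3 x4 : ℝ) (hS : x1 + 2 * x2 + 3 * x3 + 4 * x4 = 1) :
    dotR cF_0_1_0_1 (mons9 x1 x2 x3 x4) = inI (x1 + 2 * x2 + x3) (x1 + x3) (x1 - x3) ^ 0 * inY (x1 + 2 * x2 + x3) (x1 + x3) (x1 - x3) ^ 1 * inE (x1 + 2 * x2 + x3) (x1 + x3) (x1 - x3) ^ 0 * x4 ^ 1 := by
  have h : dotR cF_0_1_0_1 (mons9 x1 x2 x3 x4) = inI (x1 + 2 * x2 + x3) (x1 + x3) (x1 - x3) ^ 0 * inY (x1 + 2 * x2 + x3) (x1 + x3) (x1 - x3) ^ 1 * inE (x1 + 2 * x2 + x3) (x1 + x3) (x1 - x3) ^ 0 * x4 ^ 1 * (x1 + 2 * x2 + 3 * x3 + 4 * x4) ^ 5 := by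
    simp only [cF_0_1_0_1, mons9, idx9, List.map_cons, List.map_nil, mon, dotR, inI, inY, inE]
    push_cast
    ring
  rw [h, hS]
  ring

def cF_0_1_1_0 : List Int := [0, 0, 0, 0, 0, 0, 0, -48, -72, -27, 0, 0, 0, 0, 0, 0, -224, -384, -162, 0, 0, 0, 0, 0, -384, -800, -396, 0, 0, 0, 0, -256, -768, -488, 0, 0, 0, 0, -256, -288, 0, 0, 0, 0, -64, 0, 0, 0, 0, 0, 0, 0, 0, 0, 0, 0, 0, 0, 0, 0, 0, -112, -192, -81, 0, 0, 0, 0, 0, -384, -800, -396, 0, 0, 0, 0, -384, -1152, -732, 0, 0, 0, 0, -512, -576, 0, 0, 0, 0, -160, 0, 0, 0, 0, 0, 0, 0, 0, 0, 0, 0, 0, 0, 0, 0, -48, -128, -72, 0, 0, 0, 0, -96, -384, -276, 0, 0, 0, 0, -288, -348, 0, 0, 0, 0, -136, 0, 0, 0, 0, 0, 0, 0, 0, 0, 0, 0, 0, 0, 0, 16, 0, -16, 0, 0, 0, 0, -32, -60, 0, 0, 0, 0, -44, 0, 0, 0, 0, 0, 0, 0, 0, 0, 0, 0, 0, 0, -16, -16, -6, 0, 0, 96, 128, 40, 0, 384, 672,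 284, 256, 768, 456, 256, 288, 64, 0, 0, 48, 64, 22, 0, 384, 672, 284, 384, 1152, 684, 512, 576, 160, 0, 112, 192, 80, 224, 640, 372, 416, 460, 168, 48, 128, 72, 160, 172, 92, 24, 25, 26, 3]

set_option maxRecDepth 100000 in
theorem cF_0_1_1_0_eq (x1 x2 x3 x4 : ℝ) (hS : x1 + 2 * x2 + 3 * x3 + 4 * x4 = 1) :
    dotR cF_0_1_1_0 (mons9 x1 x2 x3 x4) = inI (x1 + 2 * x2 + x3) (x1 + x3) (x1 - x3) ^ 0 * inY (x1 + 2 * x2 + x3) (x1 + x3) (x1 - x3) ^ 1 * inE (x1 + 2 * x2 + x3) (x1 + x3) (x1 - x3) ^ 1 * x4 ^ 0 := by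
  have h : dotR cF_0_1_1_0 (mons9 x1 x2 x3 x4) = inI (x1 + 2 * x2 + x3) (x1 + x3) (x1 - x3) ^ 0 * inY (x1 + 2 * x2 + x3) (x1 + x3) (x1 - x3) ^ 1 * inE (x1 + 2 * x2 + x3) (x1 + x3) (x1 - x3) ^ 1 * x4 ^ 0 * (x1 + 2 * x2 + 3 * x3 + 4 * x4) ^ 2 := by
    simp only [cF_0_1_1_0, mons9, idx9, List.map_cons, List.map_nil, mon, dotR, inI, inY, inE]
    push_cast
    ring
  rw [h, hS]
  ring

def cF_0_2_0_0 : List Int := [0, 0, 0, 0, 0, 0, 64, 144, 108, 27, 0, 0, 0, 0, 0, 256, 672, 576, 162, 0, 0, 0, 0, 256, 960, 1056, 360, 0, 0, 0, 0, 384, 768, 368, 0, 0, 0, 0, 192, 176, 0, 0, 0, 0, 32, 0, 0, 0, 0, 0, 0, 0, 0, 0, 0, 0, 0, 0, 0, 0, 128, 336, 288, 81, 0, 0, 0, 0, 256, 960, 1056, 360, 0, 0, 0, 0, 576, 1152, 552, 0, 0, 0, 0, 384, 352, 0, 0, 0, 0, 80, 0, 0, 0, 0, 0, 0, 0, 0, 0, 0, 0, 0, 0, 0, -64, -48, 48, 36, 0, 0, 0, -512,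 -1056, -576, -48, 0, 0, -512, -1920, -1824, -456, 0, 0, -768, -1536, -656, 0, 0, -384, -352, 0, 0, -64, 0, 0, 0, 0, 0, 0, -256, -624, -480, -116, 0, 0, -512, -1920, -2016, -632, 0, 0, -1152, -2304, -1064, 0, 0, -768, -704, 0, 0, -160, 0, 0, 0, 0, 0, -64, -336, -408, -142, 0, 256, 96, -576, -380, 256, 960, 480, -168, 384, 768, 208, 192, 176, 32, 0, 128, 240, 96, -10, 256, 960, 864, 184, 576, 1152, 472, 384, 352, 80, 64, 240, 240, 68, 288, 576, 256, 288, 264, 80, 48, 96, 44, 96, 88, 40, 12, 11, 10, 1]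

set_option maxRecDepth 100000 in
theorem cF_0_2_0_0_eq (x1 x2 x3 x4 : ℝ) (hS : x1 + 2 * x2 + 3 * x3 + 4 * x4 = 1) :
    dotR cF_0_2_0_0 (mons9 x1 x2 x3 x4) = inI (x1 + 2 * x2 + x3) (x1 + x3) (x1 - x3) ^ 0 * inY (x1 + 2 * x2 + x3) (x1 + x3) (x1 - x3) ^ 2 * inE (x1 + 2 * x2 + x3) (x1 + x3) (x1 - x3) ^ 0 * x4 ^ 0 := by
  have h : dotR cF_0_2_0_0 (mons9 x1 x2 x3 x4) = inI (x1 + 2 * x2 + x3) (x1 + x3) (x1 - x3) ^ 0 * inY (x1 + 2 * x2 + x3) (x1 + x3) (x1 - x3) ^ 2 * inE (x1 + 2 * x2 + x3) (x1 + x3) (x1 - x3) ^ 0 * x4 ^ 0 * (x1 + 2 * x2 + 3 * x3 + 4 * x4) ^ 3 := by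
    simp only [cF_0_2_0_0, mons9, idx9, List.map_cons, List.map_nil, mon, dotR, inI, inY, inE]
    push_cast
    ring
  rw [h, hS]
  ring

def cF_0_3_0_0 : List Int := [0, 0, 0, 0, 0, 0, 0, 0, 0, -1, 0, 0, 0, 0, 0, 0, 0, 0, -6, 0, 0, 0, 0, 0, 0, 0, -12, 0, 0, 0, 0, 0, 0, -8, 0, 0, 0, 0, 0, 0, 0, 0, 0, 0, 0, 0, 0, 0, 0, 0, 0, 0, 0, 0, 0, 0, 0, 0, 0, 0, 0, 0, 0, -3, 0, 0, 0, 0, 0, 0, 0, -12, 0, 0, 0, 0, 0, 0, -12, 0, 0, 0, 0, 0, 0, 0, 0, 0, 0, 0, 0, 0, 0, 0, 0, 0, 0, 0, 0, 0, 0, 0, 0, 0, 0, 0, 0, 0, 0, 0, 0, 0, 0, 0, 12, 0, 0, 0, 0, 0, 36, 0, 0, 0, 0, 24, 0, 0, 0, 0, 0, 0, 0, 0, 0, 0, 0, 0, 0, 0, 0, 0, 8, 0, 0, 0, 0, 0, 36, 0, 0, 0, 0, 36, 0, 0, 0, 0, 0, 0, 0, 0, 0, 0, 0, 0, 0, 0, 0, 6, 0, 0, 0, 0, 0, 0, 0, 0, -36, 0, 0, -24, 0, 0, 0, 0, 0, 0, 0, -6, 0, 0, 0, -36, 0, 0, -36, 0, 0, 0, 0, 0, 0, -8, 0, 0, -12, 0, 12,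 8, 0, 0, 0, 0, 12, 12, 0, 3, 6, 1]

set_option maxRecDepth 100000 in
theorem cF_0_3_0_0_eq (x1 x2 x3 x4 : ℝ) (hS : x1 + 2 * x2 + 3 * x3 + 4 * x4 = 1) :
    dotR cF_0_3_0_0 (mons9 x1 x2 x3 x4) = inI (x1 + 2 * x2 + x3) (x1 + x3) (x1 - x3) ^ 0 * inY (x1 + 2 * x2 + x3) (x1 + x3) (x1 - x3) ^ 3 * inE (x1 + 2 * x2 + x3) (x1 + x3) (x1 - x3) ^ 0 * x4 ^ 0 := by
  have h : dotR cF_0_3_0_0 (mons9 x1 x2 x3 x4) = inI (x1 + 2 * x2 + x3) (x1 + x3) (x1 - x3) ^ 0 * inY (x1 + 2 * x2 + x3) (x1 + x3) (x1 - x3) ^ 3 * inE (x1 + 2 * x2 + x3) (x1 + x3) (x1 - x3) ^ 0 * x4 ^ 0 * (x1 + 2 * x2 + 3 * x3 + 4 * x4) ^ 0 := by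
    simp only [cF_0_3_0_0, mons9, idx9, List.map_cons, List.map_nil, mon, dotR, inI, inY, inE]
    push_cast
    ring
  rw [h, hS]
  ring

def cF_1_0_0_0 : List Int := [0, 0, 49152, 258048, 580608, 725760, 544320, 244944, 61236, 6561, 0, 65536, 516096, 1548288, 2419200, 2177280, 1143072, 326592, 39366, 65536, 573440, 2064384, 3870720, 4112640, 2503872, 816480, 110808, 229376, 1376256, 3440640, 4515840, 3265920, 1233792, 190512, 344064, 1576960, 2903040, 2661120, 1209600, 217728, 286720, 1003520, 1322496, 774144, 169344, 143360, 365568, 311808, 88704, 43008, 71680, 29952, 7168, 5888, 512, 0, 32768, 258048, 774144, 1209600, 1088640, 571536, 163296, 19683, 65536, 573440, 2064384, 3870720, 4112640, 2503872, 816480, 110808, 344064, 2064384, 5160960, 6773760, 4898880, 1850688, 285768, 688128, 3153920, 5806080, 5322240,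 2419200, 435456, 716800, 2508800, 3306240, 1935360, 423360, 430080, 1096704, 935424, 266112, 150528, 250880, 104832, 28672, 23552, 2304, 49152, 315392, 903168, 1451520, 1391040, 789264, 244944, 32076, 286720, 1548288, 3548160, 4354560, 2993760, 1088640, 163296, 688128, 3010560, 5322240, 4717440, 2086560, 367416, 860160, 2938880, 3790080, 2177280, 468720, 609280, 1532160, 1290240, 362880, 247296, 408576, 169344, 53760, 43904, 4864, 86016, 430080, 913920, 1048320, 680400, 235872, 34020, 344064, 1433600, 2419200, 2056320, 876960, 149688, 573440, 1899520, 2378880, 1330560, 279720, 501760, 1236480, 1021440, 282240, 241920, 394240, 161280, 60928, 49280, 6272, 64512, 259840, 423360, 347760, 143640, 23814, 197120, 636160, 776160, 423360, 86940, 241920, 584640, 473760, 128520, 147840, 237440, 95760, 44800, 35840, 5376, 26880,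 85120, 101808, 54432, 10962, 62720, 149184, 118944, 31752, 55104, 87360, 34776, 21504, 17024, 3136, 6720, 15792, 12432, 3276, 11424, 17920, 7056, 6496, 5096, 1232, 1008, 1568, 612, 1120, 872, 312, 84, 65, 46, 3]

set_option maxRecDepth 100000 in
theorem cF_1_0_0_0_eq (x1 x2 x3 x4 : ℝ) (hS : x1 + 2 * x2 + 3 * x3 + 4 * x4 = 1) :
    dotR cF_1_0_0_0 (mons9 x1 x2 x3 x4) = inI (x1 + 2 * x2 + x3) (x1 + x3) (x1 - x3) ^ 1 * inY (x1 + 2 * x2 + x3) (x1 + x3) (x1 - x3) ^ 0 * inE (x1 + 2 * x2 + x3) (x1 + x3) (x1 - x3) ^ 0 * x4 ^ 0 := by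
  have h : dotR cF_1_0_0_0 (mons9 x1 x2 x3 x4) = inI (x1 + 2 * x2 + x3) (x1 + x3) (x1 - x3) ^ 1 * inY (x1 + 2 * x2 + x3) (x1 + x3) (x1 - x3) ^ 0 * inE (x1 + 2 * x2 + x3) (x1 + x3) (x1 - x3) ^ 0 * x4 ^ 0 * (x1 + 2 * x2 + 3 * x3 + 4 * x4) ^ 7 := by
    simp only [cF_1_0_0_0, mons9, idx9, List.map_cons, List.map_nil, mon, dotR, inI, inY, inE]
    push_cast
    ring
  rw [h, hS]
  ring

def cF_1_0_0_1 : List Int := [0, 0, 12288, 55296, 103680, 103680, 58320, 17496, 2187, 0, 0, 16384, 110592, 276480, 345600, 233280, 81648, 11664, 0, 16384, 122880, 368640, 552960, 440640, 178848, 29160, 0, 49152, 245760, 491520, 483840, 233280, 44064, 0, 61440, 225280, 311040, 190080, 43200, 0, 40960, 107520, 94464, 27648, 0, 15360, 26112, 11136, 0, 3072, 2560, 0, 256, 0, 0, 0, 8192, 55296, 138240, 172800, 116640, 40824, 5832, 0, 16384,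 122880, 368640, 552960, 440640, 178848, 29160, 0, 73728, 368640, 737280, 725760, 349920, 66096, 0, 122880, 450560, 622080, 380160, 86400, 0, 102400, 268800, 236160, 69120, 0, 46080, 78336, 33408, 0, 10752, 8960, 0, 1024, 0, 0, 12288, 67584, 161280, 207360, 149040, 56376, 8748, 0, 61440, 276480, 506880, 466560, 213840, 38880, 0, 122880, 430080, 570240, 336960, 74520, 0, 122880, 314880, 270720, 77760, 0, 65280, 109440, 46080, 0, 17664, 14592, 0, 1920, 0, 0, 18432, 76800, 130560, 112320, 48600, 8424, 0, 61440, 204800, 259200, 146880, 31320, 0, 81920, 203520, 169920, 47520, 0, 53760, 88320, 36480, 0, 17280, 14080, 0, 2176, 0, 0, 11520, 37120, 45360, 24840, 5130, 0, 28160, 68160, 55440, 15120, 0, 25920, 41760, 16920, 0, 10560, 8480, 0, 1600, 0, 0, 3840, 9120, 7272, 1944, 0, 6720, 10656, 4248, 0, 3936, 3120, 0, 768, 0,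 0, 720, 1128, 444, 0, 816, 640, 0, 232, 0, 0, 72, 56, 0, 40, 0, 0, 3, 0, 0, 0]

set_option maxRecDepth 100000 in
theorem cF_1_0_0_1_eq (x1 x2 x3 x4 : ℝ) (hS : x1 + 2 * x2 + 3 * x3 + 4 * x4 = 1) :
    dotR cF_1_0_0_1 (mons9 x1 x2 x3 x4) = inI (x1 + 2 * x2 + x3) (x1 + x3) (x1 - x3) ^ 1 * inY (x1 + 2 * x2 + x3) (x1 + x3) (x1 - x3) ^ 0 * inE (x1 + 2 * x2 + x3) (x1 + x3) (x1 - x3) ^ 0 * x4 ^ 1 := by
  have h : dotR cF_1_0_0_1 (mons9 x1 x2 x3 x4) = inI (x1 + 2 * x2 + x3) (x1 + x3) (x1 - x3) ^ 1 * inY (x1 + 2 * x2 + x3) (x1 + x3) (x1 - x3) ^ 0 * inE (x1 + 2 * x2 + x3) (x1 + x3) (x1 - x3) ^ 0 * x4 ^ 1 * (x1 + 2 * x2 + 3 * x3 + 4 * x4) ^ 6 := by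
    simp only [cF_1_0_0_1, mons9, idx9, List.map_cons, List.map_nil, mon, dotR, inI, inY, inE]
    push_cast
    ring
  rw [h, hS]
  ring

def cF_1_0_1_0 : List Int := [0, 0, 0, 0, 0, 0, 576, 1296, 972, 243, 0, 0, 0, 0, 0, 2304, 6048, 5184, 1458, 0, 0, 0, 0, 4352, 13248, 12960, 4104, 0, 0, 0, 4096, 15744, 18432, 6768, 0, 0, 2048, 10752, 15936, 7056, 0, 0, 3072, 7680, 4576, 0, 0, 1536, 1664, 0, 0, 256, 0, 0, 0, 0, 0, 0, 0, 0, 1152, 3024, 2592, 729, 0, 0, 0, 0, 4352, 13248, 12960, 4104, 0, 0, 0, 6144, 23616, 27648, 10152, 0, 0, 4096, 21504, 31872, 14112, 0, 0, 7680, 19200, 11440, 0, 0, 4608, 4992, 0, 0, 896, 0, 0, 0, 0, 0, 0, 0, 1472, 4176, 3888, 1188, 0, 0, 0, 5632, 18144, 19008, 6480, 0, 0, 7680, 30336, 37728, 14904, 0, 4096, 23808, 38400, 18544, 2048, 10752, 21888, 13472, 3072, 7680, 5952, 1536, 1664, 256, 0, 0,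 0, 1792, 5136, 4896, 1548, 0, 0, 5632, 19584, 21792, 7848, 0, 6144, 28032, 38400, 16376, 4096, 21504, 36096, 18624, 7680, 19200, 12640, 4608, 4992, 896, 0, 0, 1472, 4656, 4776, 1602, 0, 4352, 16224, 19392, 7460, 4352, 20928, 30816, 14136, 9600, 23040, 13904, 6720, 7120, 1504, 0, 1152, 3696, 3936, 1382, 2304, 10176, 13536, 5656, 6720, 15360, 8664, 5760, 5920, 1520, 576, 2160, 2544, 964, 2592, 5568, 2944, 2976, 2952, 976, 432, 864, 428, 864, 824, 392, 108, 99, 90, 9]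

set_option maxRecDepth 100000 in
theorem cF_1_0_1_0_eq (x1 x2 x3 x4 : ℝ) (hS : x1 + 2 * x2 + 3 * x3 + 4 * x4 = 1) :
    dotR cF_1_0_1_0 (mons9 x1 x2 x3 x4) = inI (x1 + 2 * x2 + x3) (x1 + x3) (x1 - x3) ^ 1 * inY (x1 + 2 * x2 + x3) (x1 + x3) (x1 - x3) ^ 0 * inE (x1 + 2 * x2 + x3) (x1 + x3) (x1 - x3) ^ 1 * x4 ^ 0 := by
  have h : dotR cF_1_0_1_0 (mons9 x1 x2 x3 x4) = inI (x1 + 2 * x2 + x3) (x1 + x3) (x1 - x3) ^ 1 * inY (x1 + 2 * x2 + x3) (x1 + x3) (x1 - x3) ^ 0 * inE (x1 + 2 * x2 + x3) (x1 + x3) (x1 - x3) ^ 1 * x4 ^ 0 * (x1 + 2 * x2 + 3 * x3 + 4 * x4) ^ 3 := by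
    simp only [cF_1_0_1_0, mons9, idx9, List.map_cons, List.map_nil, mon, dotR, inI, inY, inE]
    push_cast
    ring
  rw [h, hS]
  ring

def cF_1_1_0_0 : List Int := [0, 0, 0, 0, 0, -768, -2304, -2592, -1296, -243, 0, 0, 0, 0, -2560, -9216, -12096, -6912, -1458, 0, 0, 0, -3072, -14336, -23040, -15552, -3780, 0, 0, -2048, -12288, -24576, -19968, -5688, 0, 0, -4096, -13824, -15104, -5328, 0, 0, -3072, -6144, -3040, 0, 0, -1024, -960, 0, 0, -128, 0, 0, 0, 0, 0, 0, 0, -1280, -4608, -6048, -3456, -729, 0, 0, 0, -3072, -14336, -23040, -15552, -3780, 0, 0, -3072, -18432, -36864, -29952, -8532, 0, 0, -8192, -27648, -30208, -10656, 0, 0, -7680, -15360, -7600, 0, 0, -3072, -2880, 0, 0, -448, 0, 0, 0, 0, 0, 0, -512, -2816, -4896, -3456, -864, 0, 0, 0, -4096, -12096, -11520, -3564, 0, 3072, 6144, -3072, -11712, -5508, 2048,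 12288, 15360, 2048, -2968, 4096, 13824, 10752, 1312, 3072, 6144, 2304, 1024, 960, 128, 0, 0, 512, 1024, 96, -768, -360, 0, 3072, 10240, 10752, 3392, -180, 3072, 18432, 30720, 18432, 3148, 8192, 27648, 26624, 7424, 7680, 15360, 6880, 3072, 2880, 448, 0, 1280, 4352, 5280, 2656, 450, 2560, 13312, 22080, 14592, 3280, 8192, 26112, 25536, 7764, 9216, 17920, 8216, 4352, 4016, 736, 768, 3584, 5664, 3712, 862, 4096, 12288, 11712, 3572, 6144, 11520, 5220, 3584, 3232, 720, 768, 2208, 2048, 616, 2112, 3840, 1708, 1728, 1524, 440, 288, 512, 224, 448, 388, 164, 48, 41, 34, 3]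

set_option maxRecDepth 100000 in
theorem cF_1_1_0_0_eq (x1 x2 x3 x4 : ℝ) (hS : x1 + 2 * x2 + 3 * x3 + 4 * x4 = 1) :
    dotR cF_1_1_0_0 (mons9 x1 x2 x3 x4) = inI (x1 + 2 * x2 + x3) (x1 + x3) (x1 - x3) ^ 1 * inY (x1 + 2 * x2 + x3) (x1 + x3) (x1 - x3) ^ 1 * inE (x1 + 2 * x2 + x3) (x1 + x3) (x1 - x3) ^ 0 * x4 ^ 0 := by
  have h : dotR cF_1_1_0_0 (mons9 x1 x2 x3 x4) = inI (x1 + 2 * x2 + x3) (x1 + x3) (x1 - x3) ^ 1 * inY (x1 + 2 * x2 + x3) (x1 + x3) (x1 - x3) ^ 1 * inE (x1 + 2 * x2 + x3) (x1 + x3) (x1 - x3) ^ 0 * x4 ^ 0 * (x1 + 2 * x2 + 3 * x3 + 4 * x4) ^ 4 := by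
    simp only [cF_1_1_0_0, mons9, idx9, List.map_cons, List.map_nil, mon, dotR, inI, inY, inE]
    push_cast
    ring
  rw [h, hS]
  ring

def cF_1_1_1_0 : List Int := [0, 0, 0, 0, 0, 0, 0, 0, 0, -9, 0, 0, 0, 0, 0, 0, 0, 0, -54, 0, 0, 0, 0, 0, 0, 0, -140, 0, 0, 0, 0, 0, 0, -200, 0, 0, 0, 0, 0, -160, 0, 0, 0, 0, -64, 0, 0, 0, 0, 0, 0, 0, 0, 0, 0, 0, 0, 0, 0, 0, 0, 0, 0, -27, 0, 0, 0, 0, 0, 0, 0, -140, 0, 0, 0, 0, 0, 0, -300, 0, 0, 0, 0, 0, -320, 0, 0, 0, 0, -160, 0, 0, 0, 0, 0, 0, 0, 0, 0, 0, 0, 0, 0, 0, 0, 0, 0, -32, 0, 0, 0, 0, 0, 0, -148, 0, 0, 0, 0, 0, -252, 0, 0, 0, 0, -168, 0, 0, 0, 0, 0, 0, 0, 0, 0, 0, 0, 0, 0, 0, 0, 0, -24, 0, 0, 0, 0, 0, -92, 0, 0, 0, 0, -92, 0, 0, 0, 0, 0, 0, 0, 0, 0, 0, 0, 0, 0, 0, 0, -10, 0, 0, 0, 0, 0, 0, 0, 0, 92, 0, 0, 168, 0, 160, 64, 0, 0, 0, 0, 10, 0, 0, 0, 92, 0, 0, 252, 0, 320,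 160, 0, 0, 0, 24, 0, 0, 148, 0, 300, 200, 0, 0, 32, 0, 140, 140, 0, 27, 54, 9]

set_option maxRecDepth 100000 in
theorem cF_1_1_1_0_eq (x1 x2 x3 x4 : ℝ) (hS : x1 + 2 * x2 + 3 * x3 + 4 * x4 = 1) :
    dotR cF_1_1_1_0 (mons9 x1 x2 x3 x4) = inI (x1 + 2 * x2 + x3) (x1 + x3) (x1 - x3) ^ 1 * inY (x1 + 2 * x2 + x3) (x1 + x3) (x1 - x3) ^ 1 * inE (x1 + 2 * x2 + x3) (x1 + x3) (x1 - x3) ^ 1 * x4 ^ 0 := by
  have h : dotR cF_1_1_1_0 (mons9 x1 x2 x3 x4) = inI (x1 + 2 * x2 + x3) (x1 + x3) (x1 - x3) ^ 1 * inY (x1 + 2 * x2 + x3) (x1 + x3) (x1 - x3) ^ 1 * inE (x1 + 2 * x2 + x3) (x1 + x3) (x1 - x3) ^ 1 * x4 ^ 0 * (x1 + 2 * x2 + 3 * x3 + 4 * x4) ^ 0 := by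
    simp only [cF_1_1_1_0, mons9, idx9, List.map_cons, List.map_nil, mon, dotR, inI, inY, inE]
    push_cast
    ring
  rw [h, hS]
  ring

def cF_1_2_0_0 : List Int := [0, 0, 0, 0, 0, 0, 0, 0, 12, 9, 0, 0, 0, 0, 0, 0, 0, 64, 54, 0, 0, 0, 0, 0, 0, 128, 128, 0, 0, 0, 0, 0, 128, 160, 0, 0, 0, 0, 64, 112, 0, 0, 0, 0, 32, 0, 0, 0, 0, 0, 0, 0, 0, 0, 0, 0, 0, 0, 0, 0, 0, 0, 32, 27, 0, 0, 0, 0, 0, 0, 128, 128, 0, 0, 0, 0, 0, 192, 240, 0, 0, 0, 0, 128, 224, 0, 0, 0, 0, 80, 0, 0, 0, 0, 0, 0, 0, 0, 0, 0, 0, 0, 0, 0, 0, 0, 16, 20, 0, 0, 0, 0, 0, 0, 40, 0, 0, 0, 0, -128, -48, 0, 0, 0, -256, -224, 0, 0, -128, -224, 0, 0, -64, 0, 0, 0, 0, 0, 0, 0, 0, -32, -20, 0, 0, 0, 0, -192, -160, 0, 0, 0, -384, -416, 0, 0, -256, -448, 0, 0, -160, 0, 0, 0, 0, 0, 0, 0, -56, -50, 0, 0, 0, -192, -220, 0, 0, -128, -288, 0, 128, -32, 64, 112, 32,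 0, 0, 0, -32, -38, 0, 0, 0, -64, 0, 192, 112, 128, 224, 80, 0, 0, 16, 4, 0, 128, 104, 128, 208, 96, 0, 32, 28, 64, 96, 64, 12, 17, 22, 3]

set_option maxRecDepth 100000 in
theorem cF_1_2_0_0_eq (x1 x2 x3 x4 : ℝ) (hS : x1 + 2 * x2 + 3 * x3 + 4 * x4 = 1) :
    dotR cF_1_2_0_0 (mons9 x1 x2 x3 x4) = inI (x1 + 2 * x2 + x3) (x1 + x3) (x1 - x3) ^ 1 * inY (x1 + 2 * x2 + x3) (x1 + x3) (x1 - x3) ^ 2 * inE (x1 + 2 * x2 + x3) (x1 + x3) (x1 - x3) ^ 0 * x4 ^ 0 := by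
  have h : dotR cF_1_2_0_0 (mons9 x1 x2 x3 x4) = inI (x1 + 2 * x2 + x3) (x1 + x3) (x1 - x3) ^ 1 * inY (x1 + 2 * x2 + x3) (x1 + x3) (x1 - x3) ^ 2 * inE (x1 + 2 * x2 + x3) (x1 + x3) (x1 - x3) ^ 0 * x4 ^ 0 * (x1 + 2 * x2 + 3 * x3 + 4 * x4) ^ 1 := by
    simp only [cF_1_2_0_0, mons9, idx9, List.map_cons, List.map_nil, mon, dotR, inI, inY, inE]
    push_cast
    ring
  rw [h, hS]
  ring

def cF_2_0_0_0 : List Int := [0, 0, 0, 0, 9216, 34560, 51840, 38880, 14580, 2187, 0, 0, 0, 24576, 115200, 207360, 181440, 77760, 13122, 0, 0, 40960, 215040, 437760, 432000, 207360, 38880, 0, 32768, 225280, 552960, 633600, 345600, 72576, 16384, 143360, 440320, 606720, 385920, 92448, 40960, 204800, 373760, 291840, 82368, 40960, 133120, 143360, 50688, 20480, 40960, 20480, 5120, 4864, 512, 0, 0, 0, 12288, 57600, 103680, 90720, 38880, 6561,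 0, 0, 40960, 215040, 437760, 432000, 207360, 38880, 0, 49152, 337920, 829440, 950400, 518400, 108864, 32768, 286720, 880640, 1213440, 771840, 184896, 102400, 512000, 934400, 729600, 205920, 122880, 399360, 430080, 152064, 71680, 143360, 71680, 20480, 19456, 2304, 0, 0, 22528, 99840, 178560, 159840, 71280, 12636, 0, 40960, 261120, 599040, 648000, 336960, 68040, 40960, 317440, 906240, 1186560, 725760, 168480, 143360, 675840, 1180160, 890880, 244800, 194560, 611840, 641280, 221760, 128000, 250880, 123264, 40960, 38400, 5120, 0, 12288, 74240, 161280, 165600, 82080, 15876, 24576, 174080, 465920, 579840, 339840, 76032, 112640, 501760, 835840, 606720, 161280, 184320, 558080, 565760, 190080, 140800, 268800, 128960, 51200, 47104, 7168, 9216, 49920, 112000, 124320, 67320, 14202, 53760, 217600, 335680, 229440, 58140, 110080,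 316800, 307200, 99360, 101120, 186880, 87040, 42880, 38560, 6848, 11520, 42240, 59680, 37920, 9054, 38400, 104320, 96000, 29664, 46720, 83200, 37440, 24320, 21312, 4576, 5760, 14880, 13040, 3852, 12480, 21440, 9320, 8960, 7648, 2112, 1440, 2400, 1012, 1920, 1600, 640, 180, 147, 114, 9]

set_option maxRecDepth 100000 in
theorem cF_2_0_0_0_eq (x1 x2 x3 x4 : ℝ) (hS : x1 + 2 * x2 + 3 * x3 + 4 * x4 = 1) :
    dotR cF_2_0_0_0 (mons9 x1 x2 x3 x4) = inI (x1 + 2 * x2 + x3) (x1 + x3) (x1 - x3) ^ 2 * inY (x1 + 2 * x2 + x3) (x1 + x3) (x1 - x3) ^ 0 * inE (x1 + 2 * x2 + x3) (x1 + x3) (x1 - x3) ^ 0 * x4 ^ 0 := by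
  have h : dotR cF_2_0_0_0 (mons9 x1 x2 x3 x4) = inI (x1 + 2 * x2 + x3) (x1 + x3) (x1 - x3) ^ 2 * inY (x1 + 2 * x2 + x3) (x1 + x3) (x1 - x3) ^ 0 * inE (x1 + 2 * x2 + x3) (x1 + x3) (x1 - x3) ^ 0 * x4 ^ 0 * (x1 + 2 * x2 + 3 * x3 + 4 * x4) ^ 5 := by
    simp only [cF_2_0_0_0, mons9, idx9, List.map_cons, List.map_nil, mon, dotR, inI, inY, inE]
    push_cast
    ring
  rw [h, hS]
  ring

def cF_2_0_1_0 : List Int := [0, 0, 0, 0, 0, 0, 0, 0, 108, 81, 0, 0, 0, 0, 0, 0, 0, 576, 486, 0, 0, 0, 0, 0, 0, 1536, 1440, 0, 0, 0, 0, 0, 2432, 2592, 0, 0, 0, 0, 2496, 3088, 0, 0, 0, 1536, 2400, 0, 0, 512, 1152, 0, 0, 256, 0, 0, 0, 0, 0, 0, 0, 0, 0, 0, 288, 243, 0, 0, 0, 0, 0, 0, 1536, 1440, 0, 0, 0, 0, 0, 3648, 3888, 0, 0, 0, 0, 4992, 6176, 0, 0, 0, 3840, 6000, 0, 0, 1536, 3456, 0, 0, 896, 0, 0, 0, 0, 0, 0, 0, 0, 0, 528, 468, 0, 0,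 0, 0, 0, 2688, 2664, 0, 0, 0, 0, 5888, 6672, 0, 0, 0, 6912, 9376, 0, 0, 4736, 7968, 0, 1536, 3904, 512, 1152, 256, 0, 0, 0, 0, 0, 736, 684, 0, 0, 0, 0, 3392, 3584, 0, 0, 0, 6528, 8064, 0, 0, 6912, 10176, 0, 3840, 7520, 1536, 3456, 896, 0, 0, 0, 0, 776, 766, 0, 0, 0, 3392, 3780, 0, 0, 5888, 7744, 0, 4992, 8416, 2496, 5328, 1632, 0, 0, 0, 736, 746, 0, 0, 2688, 3232, 0, 3648, 5552, 2432, 4896, 1840, 0, 0, 528, 580, 0, 1536, 2088, 1536, 2832, 1376, 0, 288, 348, 576, 960, 672, 108, 153, 198, 27]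

set_option maxRecDepth 100000 in
theorem cF_2_0_1_0_eq (x1 x2 x3 x4 : ℝ) (hS : x1 + 2 * x2 + 3 * x3 + 4 * x4 = 1) :
    dotR cF_2_0_1_0 (mons9 x1 x2 x3 x4) = inI (x1 + 2 * x2 + x3) (x1 + x3) (x1 - x3) ^ 2 * inY (x1 + 2 * x2 + x3) (x1 + x3) (x1 - x3) ^ 0 * inE (x1 + 2 * x2 + x3) (x1 + x3) (x1 - x3) ^ 1 * x4 ^ 0 := by
  have h : dotR cF_2_0_1_0 (mons9 x1 x2 x3 x4) = inI (x1 + 2 * x2 + x3) (x1 + x3) (x1 - x3) ^ 2 * inY (x1 + 2 * x2 + x3) (x1 + x3) (x1 - x3) ^ 0 * inE (x1 + 2 * x2 + x3) (x1 + x3) (x1 - x3) ^ 1 * x4 ^ 0 * (x1 + 2 * x2 + 3 * x3 + 4 * x4) ^ 1 := by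
    simp only [cF_2_0_1_0, mons9, idx9, List.map_cons, List.map_nil, mon, dotR, inI, inY, inE]
    push_cast
    ring
  rw [h, hS]
  ring

def cF_2_1_0_0 : List Int := [0, 0, 0, 0, 0, 0, 0, -144, -216, -81, 0, 0, 0, 0, 0, 0, -672, -1152, -486, 0, 0, 0, 0, 0, -1408, -2784, -1332, 0, 0, 0, 0, -1792, -4096, -2232, 0, 0, 0, -1280, -3712, -2416, 0, 0, -512, -2048, -1696, 0, 0, -512, -704, 0, 0, -128, 0, 0, 0, 0, 0, 0, 0, 0, 0, -336, -576, -243, 0, 0, 0, 0, 0, -1408, -2784, -1332, 0, 0, 0, 0, -2688, -6144, -3348, 0, 0, 0, -2560, -7424, -4832, 0, 0, -1280, -5120, -4240, 0, 0, -1536, -2112, 0, 0, -448, 0, 0, 0, 0, 0, 0, 0, 0, -400, -768, -360, 0, 0, 0, 0, -1312, -3072, -1692, 0, 0, 0, -1280, -4576, -3252, 0, 0, 0, -2560, -3032, 0, 1280, 1280, -800, 512, 2048, 896, 512, 704, 128, 0, 0, 0, 0, -208, -512, -288, 0, 0, 0, 0,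 -864, -836, 0, 0, 1280, 1280, -308, 0, 2560, 5120, 1920, 1280, 5120, 3360, 1536, 2112, 448, 0, 0, 0, 208, 208, 14, 0, 0, 1312, 2176, 760, 0, 2688, 5984, 2948, 1792, 6656, 4632, 2432, 3216, 800, 0, 0, 400, 704, 290, 0, 1408, 3168, 1636, 1408, 4864, 3364, 2304, 2912, 880, 0, 336, 704, 352, 672, 2048, 1340, 1376, 1636, 632, 144, 384, 232, 480, 532, 292, 72, 75, 78, 9]

set_option maxRecDepth 100000 in
theorem cF_2_1_0_0_eq (x1 x2 x3 x4 : ℝ) (hS : x1 + 2 * x2 + 3 * x3 + 4 * x4 = 1) :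
    dotR cF_2_1_0_0 (mons9 x1 x2 x3 x4) = inI (x1 + 2 * x2 + x3) (x1 + x3) (x1 - x3) ^ 2 * inY (x1 + 2 * x2 + x3) (x1 + x3) (x1 - x3) ^ 1 * inE (x1 + 2 * x2 + x3) (x1 + x3) (x1 - x3) ^ 0 * x4 ^ 0 := by
  have h : dotR cF_2_1_0_0 (mons9 x1 x2 x3 x4) = inI (x1 + 2 * x2 + x3) (x1 + x3) (x1 - x3) ^ 2 * inY (x1 + 2 * x2 + x3) (x1 + x3) (x1 - x3) ^ 1 * inE (x1 + 2 * x2 + x3) (x1 + x3) (x1 - x3) ^ 0 * x4 ^ 0 * (x1 + 2 * x2 + 3 * x3 + 4 * x4) ^ 2 := by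
    simp only [cF_2_1_0_0, mons9, idx9, List.map_cons, List.map_nil, mon, dotR, inI, inY, inE]
    push_cast
    ring
  rw [h, hS]
  ring

def cF_3_0_0_0 : List Int := [0, 0, 0, 0, 0, 0, 1728, 3888, 2916, 729, 0, 0, 0, 0, 0, 6912, 18144, 15552, 4374, 0, 0, 0, 0, 16128, 46656, 44064, 13608, 0, 0, 0, 22528, 74880, 79488, 27216, 0, 0, 21504, 82176, 99072, 38016, 0, 12288, 59904, 86016, 38016, 4096, 27648, 50688, 27008, 6144, 18432, 13056, 3072, 3840, 512, 0, 0, 0, 0, 0, 3456, 9072, 7776, 2187, 0, 0, 0, 0, 16128, 46656, 44064, 13608, 0, 0, 0, 33792, 112320, 119232, 40824, 0, 0, 43008, 164352, 198144, 76032, 0, 30720, 149760, 215040, 95040, 12288, 82944, 152064, 81024, 21504, 64512, 45696, 12288, 15360, 2304, 0, 0, 0, 0, 7488, 19440, 16848, 4860, 0, 0, 0, 26112, 82080, 82944, 27216, 0, 0, 47616, 171648, 197856, 73224,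 0, 43008, 200448, 277248, 118800, 21504, 135936, 239616, 124032, 41472, 119808, 82560, 26112, 31872, 5376, 0, 0, 0, 7424, 22320, 21600, 6804, 0, 0, 26112, 89472, 98784, 35208, 0, 33792, 150912, 200832, 83160, 22528, 133632, 225792, 113024, 49920, 138240, 92160, 35328, 41856, 8064, 0, 0, 7488, 22416, 22392, 7398, 0, 16128, 67104, 83904, 32940, 16128, 85824, 135648, 64632, 41088, 107136, 68208, 33024, 37632, 8448, 0, 3456, 13392, 15648, 5778, 6912, 32832, 48096, 21624, 22464, 54720, 33000, 21504, 23424, 6336, 1728, 6480, 8208, 3356, 7776, 17280, 9696, 9504, 9816, 3376, 1296, 2592, 1332, 2592, 2520, 1224, 324, 297, 270, 27]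

set_option maxRecDepth 100000 in
theorem cF_3_0_0_0_eq (x1 x2 x3 x4 : ℝ) (hS : x1 + 2 * x2 + 3 * x3 + 4 * x4 = 1) :
    dotR cF_3_0_0_0 (mons9 x1 x2 x3 x4) = inI (x1 + 2 * x2 + x3) (x1 + x3) (x1 - x3) ^ 3 * inY (x1 + 2 * x2 + x3) (x1 + x3) (x1 - x3) ^ 0 * inE (x1 + 2 * x2 + x3) (x1 + x3) (x1 - x3) ^ 0 * x4 ^ 0 := by
  have h : dotR cF_3_0_0_0 (mons9 x1 x2 x3 x4) = inI (x1 + 2 * x2 + x3) (x1 + x3) (x1 - x3) ^ 3 * inY (x1 + 2 * x2 + x3) (x1 + x3) (x1 - x3) ^ 0 * inE (x1 + 2 * x2 + x3) (x1 + x3) (x1 - x3) ^ 0 * x4 ^ 0 * (x1 + 2 * x2 + 3 * x3 + 4 * x4) ^ 3 := by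
    simp only [cF_3_0_0_0, mons9, idx9, List.map_cons, List.map_nil, mon, dotR, inI, inY, inE]
    push_cast
    ring
  rw [h, hS]
  ring

def cF_3_1_0_0 : List Int := [0, 0, 0, 0, 0, 0, 0, 0, 0, -27, 0, 0, 0, 0, 0, 0, 0, 0, -162, 0, 0, 0, 0, 0, 0, 0, -468, 0, 0, 0, 0, 0, 0, -856, 0, 0, 0, 0, 0, -1040, 0, 0, 0, 0, -864, 0, 0, 0, -448, 0, 0, -128, 0, 0, 0, 0, 0, 0, 0, 0, 0, 0, 0, -81, 0, 0, 0, 0, 0, 0, 0, -468, 0, 0, 0, 0, 0, 0, -1284, 0, 0, 0, 0, 0, -2080, 0, 0, 0, 0, -2160, 0, 0, 0, -1344, 0, 0, -448, 0, 0, 0, 0, 0, 0, 0, 0, 0, 0, -144, 0, 0, 0, 0, 0, 0, -732, 0, 0, 0, 0, 0, -1620, 0, 0, 0, 0, -1976, 0, 0, 0, -1120, 0, 0, 0, 0, 448, 128, 0, 0, 0, 0, 0, 0, -152, 0, 0, 0, 0, 0, -580, 0, 0, 0, 0, -804, 0, 0, 0, 0, 0, 0, 1120, 0, 1344, 448, 0, 0, 0, 0, 0, -62, 0, 0, 0, 0, 0, 0, 0, 0, 804, 0, 0, 1976, 0, 2160, 864,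 0, 0, 0, 0, 62, 0, 0, 0, 580, 0, 0, 1620, 0, 2080, 1040, 0, 0, 0, 152, 0, 0, 732, 0, 1284, 856, 0, 0, 144, 0, 468, 468, 0, 81, 162, 27]

set_option maxRecDepth 100000 in
theorem cF_3_1_0_0_eq (x1 x2 x3 x4 : ℝ) (hS : x1 + 2 * x2 + 3 * x3 + 4 * x4 = 1) :
    dotR cF_3_1_0_0 (mons9 x1 x2 x3 x4) = inI (x1 + 2 * x2 + x3) (x1 + x3) (x1 - x3) ^ 3 * inY (x1 + 2 * x2 + x3) (x1 + x3) (x1 - x3) ^ 1 * inE (x1 + 2 * x2 + x3) (x1 + x3) (x1 - x3) ^ 0 * x4 ^ 0 := by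
  have h : dotR cF_3_1_0_0 (mons9 x1 x2 x3 x4) = inI (x1 + 2 * x2 + x3) (x1 + x3) (x1 - x3) ^ 3 * inY (x1 + 2 * x2 + x3) (x1 + x3) (x1 - x3) ^ 1 * inE (x1 + 2 * x2 + x3) (x1 + x3) (x1 - x3) ^ 0 * x4 ^ 0 * (x1 + 2 * x2 + 3 * x3 + 4 * x4) ^ 0 := by
    simp only [cF_3_1_0_0, mons9, idx9, List.map_cons, List.map_nil, mon, dotR, inI, inY, inE]
    push_cast
    ring
  rw [h, hS]
  ring

def cF_4_0_0_0 : List Int := [0, 0, 0, 0, 0, 0, 0, 0, 324, 243, 0, 0, 0, 0, 0, 0, 0, 1728, 1458, 0, 0, 0, 0, 0, 0, 5184, 4752, 0, 0, 0, 0, 0, 9984, 10080, 0, 0, 0, 0, 13696, 15264, 0, 0, 0, 13312, 16832, 0, 0, 9216, 13568, 0, 4096, 7680, 1024, 2816, 512, 0, 0, 0, 0, 0, 0, 0, 864, 729, 0, 0, 0, 0, 0, 0, 5184, 4752, 0, 0, 0, 0, 0, 14976, 15120, 0, 0, 0, 0, 27392, 30528, 0, 0, 0, 33280, 42080, 0, 0, 27648, 40704, 0, 14336, 26880, 4096,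 11264, 2304, 0, 0, 0, 0, 0, 0, 2160, 1836, 0, 0, 0, 0, 0, 10944, 10584, 0, 0, 0, 0, 28608, 30672, 0, 0, 0, 44544, 54560, 0, 0, 45312, 64576, 0, 27648, 50304, 9216, 24320, 5632, 0, 0, 0, 0, 0, 2976, 2772, 0, 0, 0, 0, 14912, 15408, 0, 0, 0, 33536, 39760, 0, 0, 44544, 61312, 0, 33280, 58560, 13312, 33536, 8960, 0, 0, 0, 0, 3736, 3546, 0, 0, 0, 14912, 16780, 0, 0, 28608, 37296, 0, 27392, 45984, 13696, 32288, 10176, 0, 0, 0, 2976, 3166, 0, 0, 10944, 13424, 0, 14976, 23856, 9984, 21824, 8416, 0, 0, 2160, 2364, 0, 5184, 7704, 5184, 10224, 5088, 0, 864, 1188, 1728, 3024, 2160, 324, 459, 594, 81]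

set_option maxRecDepth 100000 in
theorem cF_4_0_0_0_eq (x1 x2 x3 x4 : ℝ) (hS : x1 + 2 * x2 + 3 * x3 + 4 * x4 = 1) :
    dotR cF_4_0_0_0 (mons9 x1 x2 x3 x4) = inI (x1 + 2 * x2 + x3) (x1 + x3) (x1 - x3) ^ 4 * inY (x1 + 2 * x2 + x3) (x1 + x3) (x1 - x3) ^ 0 * inE (x1 + 2 * x2 + x3) (x1 + x3) (x1 - x3) ^ 0 * x4 ^ 0 := by
  have h : dotR cF_4_0_0_0 (mons9 x1 x2 x3 x4) = inI (x1 + 2 * x2 + x3) (x1 + x3) (x1 - x3) ^ 4 * inY (x1 + 2 * x2 + x3) (x1 + x3) (x1 - x3) ^ 0 * inE (x1 + 2 * x2 + x3) (x1 + x3) (x1 - x3) ^ 0 * x4 ^ 0 * (x1 + 2 * x2 + 3 * x3 + 4 * x4) ^ 1 := by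
    simp only [cF_4_0_0_0, mons9, idx9, List.map_cons, List.map_nil, mon, dotR, inI, inY, inE]
    push_cast
    ring
  rw [h, hS]
  ring

end Vale.Agent.Lib.P154.Q4
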